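import Vale.Agent.P157.Plant.Model
import Vale.Agent.P157.Rsb.Stein
import Mathlib.Analysis.Calculus.ParametricIntegral
import Mathlib.Analysis.Calculus.Deriv.MeanValue

/-!
The Gaussian side channel: integration by parts, the derivative of the entropy in the signal
strength, and the monotonicity of the mean overlap.
-/

open MeasureTheory ProbabilityTheory Filter Topology Set
open scoped BigOperators

namespace Vale.Agent.P157.Plant

variable {a N : ℕ} {U : ℝ → ℝ} {C : ℝ}

lemma measurable_av_const (W : Wgt U C) (r : ℝ) (k : Cfg N → ℝ) :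
    Measurable fun d : Dat a N => av U r d k :=
  measurable_av W r (h := fun _ => k) fun _ => measurable_const

lemma gd_av_const (W : Wgt U C) (r : ℝ) (k : Cfg N → ℝ) {B : ℝ} (hb : ∀ b, |k b| ≤ B) :
    Gd fun d : Dat a N => av U r d k :=
  Gd.of_bdd (measurable_av_const W r k) fun d => abs_av_le W r d hb

/-- Products of densities on a finite product of probability spaces. -/
lemma pi_withDensity' {ι X : Type*} [Fintype ι] [MeasurableSpace X] (μ : Measure X) [IsProbabilityMeasure μ]
    {ρ : ι → X → ℝ} (h0 : ∀ i x, 0 ≤ ρ i x) (hm : ∀ i, Measurable (ρ i)) (hi : ∀ i, Integrable (ρ i) μ) :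
    (Measure.pi fun _ : ι => μ).withDensity (fun x => ENNReal.ofReal (∏ i, ρ i (x i)))
      = Measure.pi fun i => μ.withDensity (fun x => ENNReal.ofReal (ρ i x)) := by
  have : ∀ i, IsFiniteMeasure (μ.withDensity fun x => ENNReal.ofReal (ρ i x)) := fun i =>
    isFiniteMeasure_withDensity_ofReal (hi i).2
  refine (Measure.pi_eq fun s hs => ?_).symm
  rw [withDensity_apply _ (MeasurableSet.univ_pi hs), ← lintegral_indicator (MeasurableSet.univ_pi hs)]
  have e : ((Set.univ.pi s).indicator fun x => ENNReal.ofReal (∏ i, ρ i (x i)))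
      = fun x => ENNReal.ofReal (∏ i, (s i).indicator (ρ i) (x i)) := by
    funext x
    classical
    by_cases hx : x ∈ Set.univ.pi s
    · rw [Set.indicator_of_mem hx]
      congr 1
      exact Finset.prod_congr rfl fun i _ => (Set.indicator_of_mem (hx i (Set.mem_univ i)) _).symm
    · rw [Set.indicator_of_notMem hx]
      simp only [Set.mem_pi, Set.mem_univ, true_implies, not_forall] at hx
      obtain ⟨i, hi'⟩ := hx
      rw [Finset.prod_eq_zero (Finset.mem_univ i) (Set.indicator_of_notMem hi' _), ENNReal.ofReal_zero]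
  have hii : ∀ i, Integrable ((s i).indicator (ρ i)) μ := fun i => (hi i).indicator (hs i)
  have hnn : ∀ i x, 0 ≤ (s i).indicator (ρ i) x := fun i x => Set.indicator_nonneg (fun y _ => h0 i y) x
  rw [e, ← ofReal_integral_eq_lintegral_ofReal (Integrable.fintype_prod hii)
    (ae_of_all _ fun x => Finset.prod_nonneg fun i _ => hnn i (x i)), integral_fintype_prod_eq_prod,
    ENNReal.ofReal_prod_of_nonneg fun i _ => integral_nonneg (hnn i)]
  refine Finset.prod_congr rfl fun i _ => ?_
  rw [withDensity_apply _ (hs i), integral_indicator (hs i),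
    ofReal_integral_eq_lintegral_ofReal (hi i).integrableOn (ae_of_all _ fun x => h0 i x)]

lemma gaussianReal_tilt (m : ℝ) :
    (gaussianReal 0 1).withDensity (fun x => ENNReal.ofReal (Real.exp (m * x - m ^ 2 / 2))) = gaussianReal m 1 := by
  rw [gaussianReal_of_var_ne_zero _ one_ne_zero, gaussianReal_of_var_ne_zero _ one_ne_zero,
    ← withDensity_mul _ (measurable_gaussianPDF 0 1) (by fun_prop)]
  congr 1
  funext x
  simp only [Pi.mul_apply, gaussianPDF]
  rw [← ENNReal.ofReal_mul (gaussianPDFReal_nonneg 0 1 x)]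
  congr 1
  simp only [gaussianPDFReal, NNReal.coe_one, sub_zero, mul_one]
  rw [mul_assoc, ← Real.exp_add]
  congr 2
  ring

/-- The shift of the side observation. -/
noncomputable def shv (r : ℝ) (ξ : Fin N → ℝ) : Fin N → ℝ := fun i => Real.sqrt r + ξ i

/-- Data in planted coordinates. -/
noncomputable def sh (r : ℝ) (d : Dat a N) : Dat a N := (d.1, shv r d.2)

@[fun_prop]
lemma measurable_sh (r : ℝ) : Measurable (sh r : Dat a N → Dat a N) := by unfold sh shv; fun_prop

lemma lin_ones (z : Fin N → ℝ) : lin z (ones N) = ∑ i, z i := by simp [lin]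

lemma gauss_shift {r : ℝ} (hr : 0 ≤ r) :
    (gaussVec (Fin N)).withDensity (fun z => ENNReal.ofReal (Real.exp (Real.sqrt r * lin z (ones N) - r * N / 2)))
      = (gaussVec (Fin N)).map (shv r) := by
  have e : (fun z : Fin N → ℝ => ENNReal.ofReal (Real.exp (Real.sqrt r * lin z (ones N) - r * N / 2)))
      = fun z => ENNReal.ofReal (∏ i, Real.exp (Real.sqrt r * z i - Real.sqrt r ^ 2 / 2)) := by
    funext z
    rw [← Real.exp_sum, Finset.sum_sub_distrib, ← Finset.mul_sum, lin_ones, Finset.sum_const,
      Finset.card_univ, Fintype.card_fin, nsmul_eq_mul, Real.sq_sqrt hr]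
    ring_nf
  rw [e, gaussVec, pi_withDensity' (gaussianReal 0 1) (ρ := fun _ x => Real.exp (Real.sqrt r * x - Real.sqrt r ^ 2 / 2))
    (fun _ _ => (Real.exp_pos _).le) (fun _ => by fun_prop) fun _ => ?_]
  · simp only [gaussianReal_tilt]
    have h := Measure.pi_map_pi (μ := fun _ : Fin N => gaussianReal 0 1)
      (f := fun _ (x : ℝ) => Real.sqrt r + x) (fun _ => by fun_prop)
    simp only [gaussianReal_map_const_add, zero_add] at h
    exact h.symm
  · simp only [sub_eq_add_neg, Real.exp_add]
    exact (integrable_exp_mul_gaussianReal (Real.sqrt r)).mul_const _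

lemma planted_shift (W : Wgt U C) {r : ℝ} (hr : 0 ≤ r) {F : Dat a N → ℝ} (hF : Gd F) :
    ∫ d, wt U r d (ones N) * F d ∂nullM a N = ∫ d, patW U d.1 (ones N) * F (sh r d) ∂nullM a N := by
  have hi : Integrable (fun d => patW U d.1 (ones N) * F (sh r d)) (nullM a N) := by
    refine Gd.integrable ?_
    obtain ⟨hm, K, c, hK, hc, hb⟩ := hF
    refine ⟨(Finset.measurable_prod _ fun i _ => W.meas.comp (by fun_prop)).mul (hm.comp (measurable_sh r)),
      C ^ a * (K * Real.exp (c * (N * Real.sqrt r))), c, by have := W.C_pos; positivity, hc, fun d => ?_⟩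
    rw [abs_mul, abs_of_pos (patW_pos W _ _)]
    have h1 : absSum (shv r d.2) ≤ N * Real.sqrt r + absSum d.2 := by
      refine (Finset.sum_le_sum fun i _ => abs_add_le _ _).trans (le_of_eq ?_)
      simp [Finset.sum_add_distrib, abs_of_nonneg (Real.sqrt_nonneg r), absSum]
    calc patW U d.1 (ones N) * |F (sh r d)|
        ≤ C ^ a * (K * Real.exp (c * (N * Real.sqrt r + absSum d.2))) :=
          mul_le_mul (patW_le W _ _) ((hb _).trans (mul_le_mul_of_nonneg_left
            (Real.exp_le_exp.2 (mul_le_mul_of_nonneg_left h1 hc)) hK)) (abs_nonneg _) (pow_nonneg W.C_pos.le _)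
      _ = _ := by rw [mul_add, Real.exp_add]; ring
  have hi' : Integrable (fun d => wt U r d (ones N) * F d) (nullM a N) := ((gd_wt W r _).mul hF).integrable
  unfold nullM at hi hi' ⊢
  rw [integral_prod _ hi', integral_prod _ hi]
  refine integral_congr_ae (ae_of_all _ fun g => ?_)
  simp only [wt, sh]
  rw [integral_const_mul]
  simp_rw [mul_assoc]
  rw [integral_const_mul]
  congr 1
  have hFm : Measurable fun z => F (g, z) := hF.1.comp (by fun_prop)
  rw [← integral_map (φ := shv r) (f := fun z => F (g, z)) (measurable_pi_lambda _ fun i => (measurable_pi_apply i).const_add (Real.sqrt r)).aemeasurable hFm.aestronglyMeasurable,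
    ← gauss_shift hr, integral_withDensity_eq_integral_toReal_smul (by unfold lin; fun_prop)
      (ae_of_all _ fun _ => ENNReal.ofReal_lt_top)]
  exact integral_congr_ae (ae_of_all _ fun z => by simp [ENNReal.toReal_ofReal (Real.exp_pos _).le])

lemma integral_patW (W : Wgt U C) (b : Cfg N) (hN : 0 < N) :
    ∫ g, patW U g b ∂Measure.pi (fun _ : Fin a => gaussVec (Fin N)) = 1 := by
  unfold patW
  rw [integral_fintype_prod_eq_prod (f := fun _ (g : Fin N → ℝ) => U (fld g b))]
  refine Finset.prod_eq_one fun c _ => ?_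
  unfold fld
  rw [unit_form (u := fun i => sp b i / Real.sqrt N) ?_ W.meas, W.mean]
  simp only [sq, div_mul_div_comm, sp_sq, Real.mul_self_sqrt (Nat.cast_nonneg N)]
  simp [show (N : ℝ) ≠ 0 by exact_mod_cast hN.ne']

lemma integral_wt (W : Wgt U C) {r : ℝ} (hr : 0 ≤ r) (hN : 0 < N) :
    ∫ d, wt U r d (ones N) ∂nullM a N = 1 := by
  have h := planted_shift W hr (Gd.const (a := a) (N := N) 1)
  simp only [mul_one] at h
  rw [h, nullM, integral_fun_fst (fun g => patW U g (ones N)), integral_patW W _ hN]
  simp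

lemma update_map (i : Fin N) :
    ((gaussianReal 0 1).prod (gaussVec (Fin N))).map (fun p => Function.update p.2 i p.1) = gaussVec (Fin N) := by
  classical
  refine (Measure.pi_eq fun s hs => ?_).symm
  have hm : Measurable fun p : ℝ × (Fin N → ℝ) => Function.update p.2 i p.1 :=
    measurable_pi_lambda _ fun j => by
      by_cases h : j = i
      · subst h; simp only [Function.update_self]; fun_prop
      · simp only [Function.update_of_ne h]; fun_prop
  rw [Measure.map_apply hm (MeasurableSet.univ_pi hs)]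
  have e : (fun p : ℝ × (Fin N → ℝ) => Function.update p.2 i p.1) ⁻¹' Set.univ.pi s
      = s i ×ˢ Set.univ.pi (Function.update s i Set.univ) := by
    ext p
    simp only [Set.mem_preimage, Set.mem_pi, Set.mem_univ, true_implies, Set.mem_prod]
    constructor
    · refine fun h => ⟨by simpa using h i, fun j => ?_⟩
      by_cases hj : j = i
      · subst hj; simp
      · simpa [Function.update_of_ne hj] using h j
    · rintro ⟨h1, h2⟩ j
      by_cases hj : j = i
      · subst hj; simpa using h1
      · simpa [Function.update_of_ne hj] using h2 j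
  rw [e, Measure.prod_prod, gaussVec, Measure.pi_pi, Finset.prod_eq_prod_sdiff_singleton_mul (Finset.mem_univ i),
    Finset.prod_eq_prod_sdiff_singleton_mul (Finset.mem_univ i) (fun j => gaussianReal 0 1 (s j)),
    Function.update_self, measure_univ, mul_one, mul_comm]
  congr 1
  exact Finset.prod_congr rfl fun j hj => by
    rw [Function.update_of_ne (by simpa using hj)]

lemma measurable_update (i : Fin N) :
    Measurable fun p : ℝ × (Fin N → ℝ) => Function.update p.2 i p.1 :=
  measurable_pi_lambda _ fun j => by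
    by_cases h : j = i
    · subst h; simp only [Function.update_self]; fun_prop
    · simp only [Function.update_of_ne h]; fun_prop

lemma integrable_eval_gauss (i : Fin N) : Integrable (fun ξ : Fin N → ℝ => ξ i) (gaussVec (Fin N)) := by
  have h : Integrable (fun z : ℝ => z) (gaussianReal 0 1) := by simpa using integrable_pow_gauss 1
  exact (measurePreserving_eval (fun _ : Fin N => gaussianReal 0 1) i).integrable_comp_of_integrable h

/-- Averaging one coordinate separately. -/
lemma integral_update (i : Fin N) {F : (Fin N → ℝ) → ℝ} (hF : Integrable F (gaussVec (Fin N))) :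
    ∫ ξ, F ξ ∂gaussVec (Fin N) = ∫ ξ, ∫ t, F (Function.update ξ i t) ∂gaussianReal 0 1 ∂gaussVec (Fin N) := by
  have hF' : Integrable F (((gaussianReal 0 1).prod (gaussVec (Fin N))).map fun p => Function.update p.2 i p.1) := by
    rw [update_map]; exact hF
  have h := (integrable_map_measure hF'.aestronglyMeasurable (measurable_update i).aemeasurable).1 hF'
  conv_lhs => rw [← update_map (N := N) i]
  rw [integral_map (measurable_update i).aemeasurable hF'.aestronglyMeasurable]
  exact integral_prod_symm _ h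

lemma hasDeriv_av_update (W : Wgt U C) (r : ℝ) (g : Fin a → Fin N → ℝ) (i : Fin N) (k : Cfg N → ℝ)
    (ξ : Fin N → ℝ) (t : ℝ) :
    HasDerivAt (fun t => av U r (g, shv r (Function.update ξ i t)) k)
      (Real.sqrt r * (av U r (g, shv r (Function.update ξ i t)) (fun b => sp b i * k b)
        - av U r (g, shv r (Function.update ξ i t)) (fun b => sp b i)
          * av U r (g, shv r (Function.update ξ i t)) k)) t := by
  have hl : ∀ b, HasDerivAt (fun t => lin (shv r (Function.update ξ i t)) b) (sp b i) t := fun b => by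
    have : (fun t => lin (shv r (Function.update ξ i t)) b)
        = fun t => lin (shv r (Function.update ξ i 0)) b + t * sp b i := by
      funext t
      simp only [lin, shv]
      rw [← Finset.sum_erase_add _ _ (Finset.mem_univ i), ← Finset.sum_erase_add (a := i) _ _ (Finset.mem_univ i)]
      simp only [Function.update_self]
      have : ∀ j ∈ Finset.univ.erase i, (Real.sqrt r + Function.update ξ i t j) * sp b j
          = (Real.sqrt r + Function.update ξ i 0 j) * sp b j := fun j hj => by
        rw [Function.update_of_ne (Finset.ne_of_mem_erase hj), Function.update_of_ne (Finset.ne_of_mem_erase hj)]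
      rw [Finset.sum_congr rfl this]
      ring
    rw [this]
    exact (((hasDerivAt_id' t).mul_const (sp b i)).const_add _).congr_deriv (one_mul _)
  have hw : ∀ b, HasDerivAt (fun t => wt U r (g, shv r (Function.update ξ i t)) b)
      (Real.sqrt r * (wt U r (g, shv r (Function.update ξ i t)) b * sp b i)) t := fun b => by
    unfold wt
    have := ((((hl b).const_mul (Real.sqrt r)).sub_const (r * N / 2)).exp).const_mul (patW U g b)
    refine this.congr_deriv ?_
    ring
  have hn := (HasDerivAt.fun_sum (u := (Finset.univ : Finset (Cfg N)))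
    fun b _ => (hw b).mul_const (k b)).const_mul ((2⁻¹ : ℝ) ^ N)
  have hL := (HasDerivAt.fun_sum (u := (Finset.univ : Finset (Cfg N)))
    fun b _ => hw b).const_mul ((2⁻¹ : ℝ) ^ N)
  have hLne : lik U r (g, shv r (Function.update ξ i t)) ≠ 0 := (lik_pos W r _).ne'
  refine (hn.fun_div hL hLne).congr_deriv ?_
  simp only [av, lik] at hLne ⊢
  have e1 : ∀ w : Cfg N → ℝ, (∑ x, Real.sqrt r * (w x * sp x i) * k x)
      = Real.sqrt r * ∑ x, w x * (sp x i * k x) := fun w => by
    rw [Finset.mul_sum]; exact Finset.sum_congr rfl fun x _ => by ring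
  rw [e1, ← Finset.mul_sum]
  field_simp

/-- Gaussian integration by parts for a Gibbs average in planted coordinates. -/
lemma ibp_coord (W : Wgt U C) {r : ℝ} (hr : 0 ≤ r) (g : Fin a → Fin N → ℝ) (i : Fin N) (k : Cfg N → ℝ) :
    ∫ ξ, ξ i * av U r (g, shv r ξ) k ∂gaussVec (Fin N)
      = Real.sqrt r * ∫ ξ, (av U r (g, shv r ξ) (fun b => sp b i * k b)
          - av U r (g, shv r ξ) (fun b => sp b i) * av U r (g, shv r ξ) k) ∂gaussVec (Fin N) := by
  obtain ⟨B, hB⟩ : ∃ B, ∀ b, |k b| ≤ B :=
    ⟨∑ b, |k b|, fun b => Finset.single_le_sum (f := fun c => |k c|) (fun _ _ => abs_nonneg _) (Finset.mem_univ b)⟩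
  have hB0 : 0 ≤ B := (abs_nonneg _).trans (hB (ones N))
  have hmG : Measurable fun ξ : Fin N → ℝ => av U r (g, shv r ξ) k :=
    (measurable_av_const W r _).comp (by unfold shv; fun_prop)
  have hmD : Measurable fun ξ : Fin N → ℝ => av U r (g, shv r ξ) (fun b => sp b i * k b)
      - av U r (g, shv r ξ) (fun b => sp b i) * av U r (g, shv r ξ) k :=
    ((measurable_av_const W r _).comp (by unfold shv; fun_prop)).sub
      (((measurable_av_const W r _).comp (by unfold shv; fun_prop)).mul hmG)
  have bD : ∀ ξ : Fin N → ℝ, |av U r (g, shv r ξ) (fun b => sp b i * k b)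
      - av U r (g, shv r ξ) (fun b => sp b i) * av U r (g, shv r ξ) k| ≤ B + 1 * B := fun ξ =>
    (abs_sub _ _).trans (add_le_add (abs_av_le W r _ fun b => by rw [abs_mul, abs_sp, one_mul]; exact hB b)
      ((abs_mul _ _).trans_le (mul_le_mul (abs_av_le W r _ fun b => (abs_sp b i).le) (abs_av_le W r _ hB)
        (abs_nonneg _) zero_le_one)))
  have hder := hasDeriv_av_update W r g i k
  have key : ∀ ξ : Fin N → ℝ, ∫ t, t * av U r (g, shv r (Function.update ξ i t)) k ∂gaussianReal 0 1
      = ∫ t, Real.sqrt r * (av U r (g, shv r (Function.update ξ i t)) (fun b => sp b i * k b)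
          - av U r (g, shv r (Function.update ξ i t)) (fun b => sp b i)
            * av U r (g, shv r (Function.update ξ i t)) k) ∂gaussianReal 0 1 := fun ξ =>
    Rsb.stein (hder ξ) (C := B + Real.sqrt r * (B + 1 * B))
      (fun t => (abs_av_le W r _ hB).trans (le_add_of_nonneg_right (by positivity)))
      fun t => by
        rw [abs_mul, abs_of_nonneg (Real.sqrt_nonneg r)]
        exact (mul_le_mul_of_nonneg_left (bD _) (Real.sqrt_nonneg r)).trans (le_add_of_nonneg_left hB0)
  have iξ : Integrable (fun ξ : Fin N → ℝ => ξ i * av U r (g, shv r ξ) k) (gaussVec (Fin N)) :=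
    (integrable_eval_gauss i).mul_bdd hmG.aestronglyMeasurable (ae_of_all _ fun ξ => abs_av_le W r _ hB)
  have iD : Integrable (fun ξ : Fin N → ℝ => av U r (g, shv r ξ) (fun b => sp b i * k b)
      - av U r (g, shv r ξ) (fun b => sp b i) * av U r (g, shv r ξ) k) (gaussVec (Fin N)) :=
    Integrable.of_bound hmD.aestronglyMeasurable (B + 1 * B) (ae_of_all _ bD)
  have e1 := integral_update i iξ
  have e2 := integral_update i iD
  simp only [Function.update_self] at e1
  rw [e1, e2, ← integral_const_mul]
  exact integral_congr_ae (ae_of_all _ fun ξ => (key ξ).trans (integral_const_mul _ _))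

/-- The self-overlap averaged against a function of the first replica. -/
lemma sum_av_sp (r : ℝ) (d : Dat a N) (hN : 0 < N) (h : Cfg N → ℝ) :
    ∑ i, av U r d (fun b => sp b i) * av U r d (fun b => sp b i * h b)
      = N * av U r d (fun b => h b * av U r d (fun b' => ovl b b')) := by
  have hN' : (N : ℝ) ≠ 0 := by exact_mod_cast hN.ne'
  have e : ∀ b, h b * av U r d (fun b' => ovl b b')
      = ((N : ℝ))⁻¹ * ∑ i, av U r d (fun b' => sp b' i) * (sp b i * h b) := fun b => by
    have : (fun b' => ovl b b') = fun b' => ((N : ℝ))⁻¹ * ∑ i, sp b i * sp b' i := by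
      funext b'; rw [ovl]; ring
    rw [this, av_mul, av_finsum, Finset.mul_sum, Finset.mul_sum, Finset.mul_sum]
    exact Finset.sum_congr rfl fun i _ => by rw [av_mul]; ring
  simp_rw [e]
  rw [av_mul, av_finsum, ← mul_assoc, mul_inv_cancel₀ hN', one_mul]
  exact Finset.sum_congr rfl fun i _ => by rw [← av_mul]

/-- Integration by parts against the field of the side channel. -/
lemma ibp (W : Wgt U C) {r : ℝ} (hr : 0 ≤ r) (hN : 0 < N) (h : Cfg N → ℝ) :
    ∫ d, patW U d.1 (ones N) * av U r (sh r d) (fun b => lin d.2 b * h b) ∂nullM a N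
      = Real.sqrt r * N * (∫ d, wt U r d (ones N) * av U r d h ∂nullM a N
          - ∫ d, wt U r d (ones N) * av U r d (fun b => h b * av U r d (fun b' => ovl b b')) ∂nullM a N) := by
  obtain ⟨B, hB⟩ : ∃ B, ∀ b, |h b| ≤ B :=
    ⟨∑ b, |h b|, fun b => Finset.single_le_sum (f := fun c => |h c|) (fun _ _ => abs_nonneg _) (Finset.mem_univ b)⟩
  have hB0 : 0 ≤ B := (abs_nonneg _).trans (hB (ones N))
  have hb2 : ∀ (d : Dat a N) (b : Cfg N), |h b * av U r d (fun b' => ovl b b')| ≤ B * 1 := fun d b => by
    rw [abs_mul]; exact mul_le_mul (hB b) (abs_av_le W r _ fun b' => abs_ovl_le b b') (abs_nonneg _) hB0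
  have hm2 : ∀ b, Measurable fun d : Dat a N => h b * av U r d (fun b' => ovl b b') := fun b =>
    (measurable_av_const W r _).const_mul _
  rw [planted_shift W hr (gd_av_const W r h hB),
    planted_shift W hr (gd_av W r hm2 hb2)]
  have hpm : Measurable fun d : Dat a N => patW U d.1 (ones N) :=
    Finset.measurable_prod _ fun c _ => W.meas.comp (by fun_prop)
  have hpb : ∀ d : Dat a N, |patW U d.1 (ones N)| ≤ C ^ a := fun d => by
    rw [abs_of_pos (patW_pos W _ _)]; exact patW_le W _ _
  have iB : ∀ {F : Dat a N → ℝ}, Measurable F → ∀ {K : ℝ}, (∀ d, |F d| ≤ K) →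
      Integrable (fun d => patW U d.1 (ones N) * F d) (nullM a N) := fun {F} hF K hK =>
    ((Gd.of_bdd hpm hpb).mul (Gd.of_bdd hF hK)).integrable
  have hsh : ∀ {F : Dat a N → ℝ}, Measurable F → Measurable fun d => F (sh r d) := fun hF =>
    hF.comp (measurable_sh r)
  rw [← integral_sub (iB (hsh (measurable_av_const W r _)) fun d => abs_av_le W r _ hB)
    (iB (hsh (measurable_av W r hm2)) fun d => abs_av_le W r _ (hb2 _))]
  have e : ∀ d : Dat a N, patW U d.1 (ones N) * av U r (sh r d) (fun b => lin d.2 b * h b)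
      = ∑ i, patW U d.1 (ones N) * (d.2 i * av U r (sh r d) (fun b => sp b i * h b)) := fun d => by
    rw [← Finset.mul_sum]
    congr 1
    have : (fun b => lin d.2 b * h b) = fun b => ∑ i, d.2 i * (sp b i * h b) := by
      funext b; rw [lin, Finset.sum_mul]; exact Finset.sum_congr rfl fun i _ => mul_assoc _ _ _
    rw [this, av_finsum]
    exact Finset.sum_congr rfl fun i _ => av_mul _ _ _ _
  simp_rw [e]
  have hk : ∀ i b, |sp b i * h b| ≤ B := fun i b => by rw [abs_mul, abs_sp, one_mul]; exact hB b
  have ii : ∀ i, Integrable (fun d : Dat a N =>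
      patW U d.1 (ones N) * (d.2 i * av U r (sh r d) (fun b => sp b i * h b))) (nullM a N) := fun i => by
    have hz : Gd (fun d : Dat a N => d.2 i) := by
      refine ⟨by fun_prop, 1, 1, zero_le_one, zero_le_one, fun d => ?_⟩
      rw [one_mul, one_mul]
      refine le_trans ?_ ((Real.add_one_le_exp _).trans' (le_add_of_nonneg_right zero_le_one))
      exact Finset.single_le_sum (f := fun j => |d.2 j|) (fun _ _ => abs_nonneg _) (Finset.mem_univ i)
    exact ((Gd.of_bdd hpm hpb).mul (hz.mul
      (Gd.of_bdd (hsh (measurable_av_const W r _)) fun d => abs_av_le W r _ (hk i)))).integrable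
  have hK : ∀ i (d : Dat a N), |av U r (sh r d) h
      - av U r (sh r d) (fun b => sp b i) * av U r (sh r d) (fun b => sp b i * h b)| ≤ B + 1 * B := fun i d => by
    refine (abs_sub _ _).trans (add_le_add (abs_av_le W r _ hB) ?_)
    rw [abs_mul]
    exact mul_le_mul (abs_av_le W r _ fun b => (abs_sp b i).le) (abs_av_le W r _ (hk i)) (abs_nonneg _) zero_le_one
  have i2 : ∀ i, Integrable (fun d : Dat a N => patW U d.1 (ones N) * (av U r (sh r d) h
      - av U r (sh r d) (fun b => sp b i) * av U r (sh r d) (fun b => sp b i * h b))) (nullM a N) := fun i =>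
    iB ((hsh (measurable_av_const W r _)).sub
      ((hsh (measurable_av_const W r _)).mul
        (hsh (measurable_av_const W r _)))) (hK i)
  rw [integral_finsetSum _ fun i _ => ii i]
  have step : ∀ i, ∫ d, patW U d.1 (ones N) * (d.2 i * av U r (sh r d) (fun b => sp b i * h b)) ∂nullM a N
      = Real.sqrt r * ∫ d, patW U d.1 (ones N) * (av U r (sh r d) h
        - av U r (sh r d) (fun b => sp b i) * av U r (sh r d) (fun b => sp b i * h b)) ∂nullM a N := fun i => by
    rw [← integral_const_mul]
    have hi := ii i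
    have hi2 := (i2 i).const_mul (Real.sqrt r)
    simp only [nullM] at hi hi2 ⊢
    rw [integral_prod _ hi, integral_prod _ hi2]
    refine integral_congr_ae (ae_of_all _ fun g => ?_)
    simp only [sh]
    rw [integral_const_mul, integral_const_mul, integral_const_mul, ibp_coord W hr g i fun b => sp b i * h b]
    simp only [← mul_assoc, sp_sq, one_mul]
    ring
  simp_rw [step]
  rw [← Finset.mul_sum, ← integral_finsetSum _ fun i _ => i2 i, mul_assoc (Real.sqrt r), ← integral_const_mul (N : ℝ)]
  congr 1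
  refine integral_congr_ae (ae_of_all _ fun d => ?_)
  simp only
  rw [← Finset.mul_sum, Finset.sum_sub_distrib, Finset.sum_const, Finset.card_univ, Fintype.card_fin,
    nsmul_eq_mul, sum_av_sp r (sh r d) hN]
  ring

lemma av_act_ovl (r : ℝ) (s : Cfg N) (d : Dat a N) :
    av U r (act s d) (fun b => av U r (act s d) (fun b' => ovl b b'))
      = av U r d (fun b => av U r d (fun b' => ovl b b')) := by
  rw [← av_act r s d fun b => av U r d (fun b' => ovl b b')]
  congr 1
  funext b
  rw [← av_act r s d fun b' => ovl (xr b s) b']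
  congr 1
  funext b'
  rw [ovl_xr]

lemma planted_qv (W : Wgt U C) (r : ℝ) :
    ∫ d, wt U r d (ones N) * av U r d (fun b => ovl (ones N) b) ∂nullM a N = qv U a N r :=
  pair_planted W r id

lemma planted_qv' (W : Wgt U C) (r : ℝ) :
    ∫ d, wt U r d (ones N) * av U r d (fun b => av U r d (fun b' => ovl b b')) ∂nullM a N = qv U a N r :=
  planted_eq' W r (gd_av W r (fun b => measurable_av_const W r _)
    fun d b => abs_av_le W r d fun b' => abs_ovl_le b b') fun s d => av_act_ovl r s d

lemma planted_vr (W : Wgt U C) (r : ℝ) :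
    ∫ d, wt U r d (ones N) * av U r d (fun b => (ovl (ones N) b - qv U a N r) ^ 2) ∂nullM a N = vr U a N r :=
  pair_planted W r fun x => (x - qv U a N r) ^ 2

/-- The statistic whose Gibbs average is the derivative of the free energy. -/
noncomputable def dstat (r : ℝ) (d : Dat a N) (b : Cfg N) : ℝ :=
  N * ovl (ones N) b + lin d.2 b / (2 * Real.sqrt r) - N / 2

lemma lin_shv (r : ℝ) (ξ : Fin N → ℝ) (b : Cfg N) :
    lin (shv r ξ) b = Real.sqrt r * (N * ovl (ones N) b) + lin ξ b := by
  rcases Nat.eq_zero_or_pos N with rfl | hN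
  · simp [lin]
  · have : (N : ℝ) * ovl (ones N) b = ∑ i, sp b i := by
      rw [ovl, mul_div_cancel₀ _ (by exact_mod_cast hN.ne')]
      simp
    rw [this, Finset.mul_sum, lin, lin, ← Finset.sum_add_distrib]
    exact Finset.sum_congr rfl fun i _ => by simp [shv]; ring

lemma hasDeriv_log_lik (W : Wgt U C) {r : ℝ} (hr : 0 < r) (d : Dat a N) :
    HasDerivAt (fun s => Real.log (lik U s (sh s d))) (av U r (sh r d) (dstat r d)) r := by
  have hw : ∀ b, HasDerivAt (fun s => wt U s (sh s d) b) (wt U r (sh r d) b * dstat r d b) r := fun b => by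
    have hs := Real.hasDerivAt_sqrt hr.ne'
    have h1 := (hs.fun_mul ((hs.mul_const (N * ovl (ones N) b)).add_const (lin d.2 b))).fun_sub
      (((hasDerivAt_id' r).mul_const (N : ℝ)).div_const 2)
    have h2 := h1.exp.const_mul (patW U d.1 b)
    simp only [wt, sh, lin_shv]
    refine h2.congr_deriv ?_
    simp only [dstat]
    have hq := Real.mul_self_sqrt hr.le
    have hne : Real.sqrt r ≠ 0 := (Real.sqrt_pos.2 hr).ne'
    field_simp
    ring
  have hL := (HasDerivAt.fun_sum (u := (Finset.univ : Finset (Cfg N)))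
    fun b _ => hw b).const_mul ((2⁻¹ : ℝ) ^ N)
  exact hL.log (lik_pos W r (sh r d)).ne'

lemma Jt_shift (W : Wgt U C) {r : ℝ} (hr : 0 ≤ r) :
    Jt U a N r = ∫ d, patW U d.1 (ones N) * Real.log (lik U r (sh r d)) ∂nullM a N := by
  rw [Jt_eq_planted W r, planted_shift W hr (gd_log_lik W r)]

lemma abs_ovl_mul_le (b : Cfg N) : |(N : ℝ) * ovl (ones N) b| ≤ N := by
  rw [abs_mul, Nat.abs_cast]
  exact mul_le_of_le_one_right (Nat.cast_nonneg N) (abs_ovl_le _ _)

lemma absSum_shv_le (r : ℝ) (ξ : Fin N → ℝ) : absSum (shv r ξ) ≤ N * Real.sqrt r + absSum ξ := by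
  refine (Finset.sum_le_sum fun i _ => abs_add_le _ _).trans (le_of_eq ?_)
  simp [Finset.sum_add_distrib, abs_of_nonneg (Real.sqrt_nonneg r), absSum]

lemma gd_patW (W : Wgt U C) : Gd (fun d : Dat a N => patW U d.1 (ones N)) :=
  Gd.of_bdd (Finset.measurable_prod _ fun c _ => W.meas.comp (by fun_prop)) fun d => by
    rw [abs_of_pos (patW_pos W _ _)]; exact patW_le W _ _

lemma Gd.absSum_snd : Gd (fun d : Dat a N => absSum d.2) :=
  ⟨by fun_prop, 1, 1, zero_le_one, zero_le_one, fun d => by
    rw [abs_of_nonneg (absSum_nonneg _), one_mul, one_mul]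
    linarith [Real.add_one_le_exp (absSum d.2)]⟩

lemma gd_dstat (W : Wgt U C) (r : ℝ) : Gd (fun d : Dat a N => av U r (sh r d) (dstat r d)) := by
  have hm : Measurable fun d : Dat a N => av U r (sh r d) (dstat r d) := by
    unfold av
    refine Measurable.div ((Finset.measurable_sum _ fun b _ => ?_).const_mul _)
      ((measurable_lik W r).comp (measurable_sh r))
    exact ((measurable_wt W r b).comp (measurable_sh r)).mul (by unfold dstat lin; fun_prop)
  obtain ⟨hsm, K, c, hK, hc, hb⟩ := ((Gd.const (a := a) (N := N) (2 * N : ℝ)).add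
    (Gd.absSum_snd.mul (Gd.const (|1 / (2 * Real.sqrt r)|))))
  refine ⟨hm, K, c, hK, hc, fun d => le_trans ?_ ((le_abs_self _).trans (hb d))⟩
  refine abs_av_le W r _ fun b => ?_
  have h2 := abs_ovl_mul_le b
  have h3 := mul_le_mul_of_nonneg_right (abs_lin_le d.2 b) (abs_nonneg (1 / (2 * Real.sqrt r)))
  rw [← abs_mul, mul_one_div] at h3
  have h4 := abs_sub ((N : ℝ) * ovl (ones N) b + lin d.2 b / (2 * Real.sqrt r)) (N / 2)
  have h5 := abs_add_le ((N : ℝ) * ovl (ones N) b) (lin d.2 b / (2 * Real.sqrt r))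
  rw [abs_of_nonneg (by positivity : (0 : ℝ) ≤ N / 2)] at h4
  simp only [dstat]
  linarith

lemma hasDeriv_Jt (W : Wgt U C) {r : ℝ} (hr : 0 < r) (hN : 0 < N) :
    HasDerivAt (Jt U a N) (N * qv U a N r / 2) r := by
  set lo := r / 2 with hlo
  have hlo0 : 0 < lo := by positivity
  have hgd : ∀ s, Gd fun d : Dat a N => Real.log (lik U s (sh s d)) := fun s => by
    obtain ⟨hm, K, c, hK, hc, hb⟩ := gd_log_lik (a := a) (N := N) W s
    refine ⟨hm.comp (measurable_sh s), K * Real.exp (c * (N * Real.sqrt s)), c, by positivity, hc, fun d => ?_⟩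
    refine (hb _).trans ?_
    rw [mul_assoc, ← Real.exp_add, ← mul_add]
    exact mul_le_mul_of_nonneg_left (Real.exp_le_exp.2 (mul_le_mul_of_nonneg_left (absSum_shv_le _ _) hc)) hK
  have hbound : Gd fun d : Dat a N => patW U d.1 (ones N) * (2 * N + absSum d.2 * (1 / (2 * Real.sqrt lo))) :=
    (gd_patW W).mul ((Gd.const _).add (Gd.absSum_snd.mul (Gd.const _)))
  have key := (hasDerivAt_integral_of_dominated_loc_of_deriv_le (μ := nullM a N)
    (F := fun s d => patW U d.1 (ones N) * Real.log (lik U s (sh s d)))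
    (F' := fun s d => patW U d.1 (ones N) * av U s (sh s d) (dstat s d))
    (bound := fun d => patW U d.1 (ones N) * (2 * N + absSum d.2 * (1 / (2 * Real.sqrt lo))))
    (Ioi_mem_nhds (show lo < r by simp only [hlo]; linarith))
    (Eventually.of_forall fun s => ((gd_patW W).mul (hgd s)).1.aestronglyMeasurable)
    ((gd_patW W).mul (hgd r)).integrable ((gd_patW W).mul (gd_dstat W r)).1.aestronglyMeasurable
    (ae_of_all _ fun d s hs => ?_) hbound.integrable
    (ae_of_all _ fun d s hs => (hasDeriv_log_lik W (hlo0.trans hs) d).const_mul _)).2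
  swap
  · rw [Real.norm_eq_abs, abs_mul, abs_of_pos (patW_pos W _ _)]
    refine mul_le_mul_of_nonneg_left (abs_av_le W s _ fun b => ?_) (patW_pos W _ _).le
    have h2 := abs_ovl_mul_le b
    have h3 : |lin d.2 b / (2 * Real.sqrt s)| ≤ absSum d.2 * (1 / (2 * Real.sqrt lo)) := by
      rw [abs_div, abs_of_nonneg (by positivity : (0:ℝ) ≤ 2 * Real.sqrt s), mul_one_div]
      exact div_le_div₀ (absSum_nonneg _) (abs_lin_le _ _) (by positivity)
        (mul_le_mul_of_nonneg_left (Real.sqrt_le_sqrt (le_of_lt hs)) (by norm_num))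
    have h4 := abs_sub ((N : ℝ) * ovl (ones N) b + lin d.2 b / (2 * Real.sqrt s)) (N / 2)
    have h5 := abs_add_le ((N : ℝ) * ovl (ones N) b) (lin d.2 b / (2 * Real.sqrt s))
    rw [abs_of_nonneg (by positivity : (0 : ℝ) ≤ N / 2)] at h4
    simp only [dstat]
    linarith
  have hE : ∀ᶠ s in 𝓝 r, Jt U a N s = ∫ d, patW U d.1 (ones N) * Real.log (lik U s (sh s d)) ∂nullM a N :=
    (eventually_gt_nhds hr).mono fun s hs => Jt_shift W hs.le
  refine (key.congr_of_eventuallyEq hE).congr_deriv ?_
  have hs0 : Real.sqrt r ≠ 0 := (Real.sqrt_pos.2 hr).ne'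
  have e : ∀ d : Dat a N, patW U d.1 (ones N) * av U r (sh r d) (dstat r d)
      = N * (patW U d.1 (ones N) * av U r (sh r d) (fun b => ovl (ones N) b))
        + 1 / (2 * Real.sqrt r) * (patW U d.1 (ones N) * av U r (sh r d) (fun b => lin d.2 b * 1))
        - N / 2 * patW U d.1 (ones N) := fun d => by
    have : dstat r d = fun b => (N * ovl (ones N) b + 1 / (2 * Real.sqrt r) * (lin d.2 b * 1)) - N / 2 := by
      funext b; simp only [dstat]; ring
    rw [this, av_sub, av_add, av_mul, av_mul, av_const W]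
    ring
  simp_rw [e]
  have i1 : Integrable (fun d : Dat a N => patW U d.1 (ones N) * av U r (sh r d) (fun b => ovl (ones N) b)) (nullM a N) :=
    ((gd_patW W).mul (Gd.of_bdd ((measurable_av_const W r _).comp (measurable_sh r))
      fun d => abs_av_le W r _ fun b => abs_ovl_le _ b)).integrable
  have i2 : Integrable (fun d : Dat a N => patW U d.1 (ones N) * av U r (sh r d) (fun b => lin d.2 b * 1)) (nullM a N) := by
    refine ((gd_patW W).mul (?_ : Gd _)).integrable
    obtain ⟨hm, K, c, hK, hc, hb⟩ := Gd.absSum_snd (a := a) (N := N)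
    refine ⟨?_, K, c, hK, hc, fun d => (abs_av_le W r _ fun b => ?_).trans ((le_abs_self _).trans (hb d))⟩
    · unfold av
      refine Measurable.div ((Finset.measurable_sum _ fun b _ => ?_).const_mul _)
        ((measurable_lik W r).comp (measurable_sh r))
      exact ((measurable_wt W r b).comp (measurable_sh r)).mul (by unfold lin; fun_prop)
    · rw [mul_one]; exact abs_lin_le _ _
  have i12 : Integrable (fun d : Dat a N => N * (patW U d.1 (ones N) * av U r (sh r d) (fun b => ovl (ones N) b))
      + 1 / (2 * Real.sqrt r) * (patW U d.1 (ones N) * av U r (sh r d) (fun b => lin d.2 b * 1))) (nullM a N) :=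
    (i1.const_mul (N : ℝ)).add (i2.const_mul (1 / (2 * Real.sqrt r)))
  rw [integral_sub i12 ((gd_patW W).integrable.const_mul _),
    integral_add (i1.const_mul _) (i2.const_mul _), integral_const_mul, integral_const_mul, integral_const_mul,
    ibp W hr.le hN fun _ => 1, ← planted_shift W hr.le (gd_av_const W r _ fun b => abs_ovl_le (ones N) b),
    planted_qv W]
  simp only [one_mul, planted_qv' W, av_const W, mul_one, integral_wt W hr.le hN]
  have h1 : ∫ d : Dat a N, patW U d.1 (ones N) ∂nullM a N = 1 := by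
    rw [nullM, integral_fun_fst (fun g => patW U g (ones N)), integral_patW W _ hN]
    simp
  rw [h1]
  field_simp
  ring

/-- Averaging out part of the side observation. -/
lemma integral_bridge {r r' : ℝ} (hr : 0 ≤ r) (hrr : r ≤ r') (hr' : 0 < r') {F : (Fin N → ℝ) → ℝ}
    (hF : Integrable F (gaussVec (Fin N))) :
    ∫ z, F z ∂gaussVec (Fin N) = ∫ z, ∫ η, F (fun i => Real.sqrt (r / r') * z i + Real.sqrt (1 - r / r') * η i)
      ∂gaussVec (Fin N) ∂gaussVec (Fin N) := by
  have h := gaussVec_rotate (ι := Fin N) (s := r / r') (t := 1 - r / r') (by positivity)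
    (by rw [sub_nonneg, div_le_one hr']; exact hrr)
  simp only [add_sub_cancel, Real.sqrt_one, one_mul, Measure.map_id'] at h
  have hm : Measurable fun p : (Fin N → ℝ) × (Fin N → ℝ) =>
      fun i => Real.sqrt (r / r') * p.1 i + Real.sqrt (1 - r / r') * p.2 i := by fun_prop
  have hF' := hF
  rw [← h] at hF'
  conv_lhs => rw [← h]
  rw [integral_map hm.aemeasurable hF'.aestronglyMeasurable]
  exact integral_prod _ ((integrable_map_measure hF'.aestronglyMeasurable hm.aemeasurable).1 hF')

lemma gauss_exp_lin (κ : ℝ) (b : Cfg N) :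
    ∫ η, Real.exp (κ * lin η b) ∂gaussVec (Fin N) = Real.exp (κ ^ 2 * N / 2) := by
  have e : ∀ η : Fin N → ℝ, Real.exp (κ * lin η b) = ∏ i, Real.exp (κ * sp b i * η i) := fun η => by
    rw [← Real.exp_sum, lin, Finset.mul_sum]
    congr 1
    exact Finset.sum_congr rfl fun i _ => by ring
  simp_rw [e, gaussVec]
  rw [integral_fintype_prod_eq_prod (f := fun i (x : ℝ) => Real.exp (κ * sp b i * x))]
  have hm : ∀ t : ℝ, ∫ x, Real.exp (t * x) ∂gaussianReal 0 1 = Real.exp (t ^ 2 / 2) := fun t => by
    simpa [mgf] using congrFun (mgf_id_gaussianReal (μ := 0) (v := 1)) t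
  simp_rw [hm]
  rw [← Real.exp_sum]
  congr 1
  have : ∀ i, (κ * sp b i) ^ 2 / 2 = κ ^ 2 / 2 := fun i => by
    rw [mul_pow, sq (sp b i), sp_sq, mul_one]
  simp only [this, Finset.sum_const, Finset.card_univ, Fintype.card_fin, nsmul_eq_mul]
  ring

lemma integrable_exp_lin (κ c : ℝ) (b : Cfg N) :
    Integrable (fun η : Fin N → ℝ => Real.exp (κ * lin η b + c)) (gaussVec (Fin N)) := by
  refine ((integrable_exp_absSum |κ|).mul_const (Real.exp c)).mono' (Measurable.aestronglyMeasurable (by unfold lin; fun_prop)) (ae_of_all _ fun η => ?_)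
  rw [Real.norm_eq_abs, Real.abs_exp, ← Real.exp_add, Real.exp_le_exp, add_le_add_iff_right]
  exact (le_abs_self _).trans ((abs_mul _ _).trans_le (mul_le_mul_of_nonneg_left (abs_lin_le η b) (abs_nonneg κ)))

lemma wt_bridge (g : Fin a → Fin N → ℝ) {r r' : ℝ} (hr : 0 ≤ r) (hrr : r ≤ r') (hr' : 0 < r')
    (z : Fin N → ℝ) (b : Cfg N) :
    ∫ η, wt U r' (g, fun i => Real.sqrt (r / r') * z i + Real.sqrt (1 - r / r') * η i) b ∂gaussVec (Fin N)
        = wt U r (g, z) b ∧
      Integrable (fun η => wt U r' (g, fun i => Real.sqrt (r / r') * z i + Real.sqrt (1 - r / r') * η i) b)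
        (gaussVec (Fin N)) := by
  set κ := Real.sqrt r' * Real.sqrt (1 - r / r')
  have hsr : Real.sqrt r' * Real.sqrt (r / r') = Real.sqrt r := by
    rw [← Real.sqrt_mul hr'.le, mul_div_cancel₀ _ hr'.ne']
  have hκ : κ ^ 2 = r' - r := by
    rw [mul_pow, Real.sq_sqrt hr'.le, Real.sq_sqrt (by rw [sub_nonneg, div_le_one hr']; exact hrr), mul_sub,
      mul_one, mul_div_cancel₀ _ hr'.ne']
  have e : ∀ η : Fin N → ℝ, wt U r' (g, fun i => Real.sqrt (r / r') * z i + Real.sqrt (1 - r / r') * η i) b
      = patW U g b * Real.exp (κ * lin η b + (Real.sqrt r * lin z b - r' * N / 2)) := fun η => by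
    simp only [wt]
    congr 2
    have : lin (fun i => Real.sqrt (r / r') * z i + Real.sqrt (1 - r / r') * η i) b
        = Real.sqrt (r / r') * lin z b + Real.sqrt (1 - r / r') * lin η b := by
      simp only [lin, Finset.mul_sum, ← Finset.sum_add_distrib]
      exact Finset.sum_congr rfl fun i _ => by ring
    rw [this, mul_add, ← mul_assoc, hsr]
    simp only [κ]; ring
  simp_rw [e]
  refine ⟨?_, (integrable_exp_lin κ _ b).const_mul _⟩
  rw [integral_const_mul]
  simp only [Real.exp_add]
  rw [integral_mul_const, gauss_exp_lin, hκ, ← Real.exp_add]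
  simp only [wt]
  congr 2
  ring

lemma qv_eq_coord (W : Wgt U C) (hN : 0 < N) (r : ℝ) :
    N * qv U a N r = ∑ i, ∫ d, lik U r d * av U r d (fun b => sp b i) ^ 2 ∂nullM a N := by
  rw [qv, ← integral_const_mul, ← integral_finsetSum]
  · refine integral_congr_ae (ae_of_all _ fun d => ?_)
    have h := sum_av_sp (U := U) r d hN (fun _ => 1)
    simp only [mul_one, one_mul] at h
    simp only
    rw [← Finset.mul_sum]
    simp only [sq, h]
    ring
  · intro i _
    exact ((gd_lik W r).mul (Gd.of_bdd ((measurable_av_const W r _).pow_const 2) fun d => by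
      rw [abs_pow]; exact pow_le_pow_left₀ (abs_nonneg _) (abs_av_le W r d fun b => (abs_sp b i).le) 2)).integrable

lemma qv_nonneg (W : Wgt U C) (hN : 0 < N) (r : ℝ) : 0 ≤ qv U a N r := by
  have h : 0 ≤ (N : ℝ) * qv U a N r := by
    rw [qv_eq_coord W hN]
    exact Finset.sum_nonneg fun i _ => integral_nonneg fun d => mul_nonneg (lik_pos W r d).le (sq_nonneg _)
  exact nonneg_of_mul_nonneg_right h (by exact_mod_cast hN)

lemma qv_le_one (W : Wgt U C) (hN : 0 < N) {r : ℝ} (hr : 0 ≤ r) : qv U a N r ≤ 1 := by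
  rw [← planted_qv W, ← integral_wt (a := a) W hr hN]
  exact integral_mono ((gd_wt W r _).mul (gd_av_const W r _ fun b => abs_ovl_le (ones N) b)).integrable
    (gd_wt W r _).integrable fun d => mul_le_of_le_one_right (wt_pos W r d _).le
      ((le_abs_self _).trans (abs_av_le W r d fun b => abs_ovl_le (ones N) b))

lemma qv_mono (W : Wgt U C) (hN : 0 < N) {r r' : ℝ} (hr : 0 ≤ r) (hrr : r ≤ r') :
    qv U a N r ≤ qv U a N r' := by
  rcases eq_or_lt_of_le hrr with rfl | hlt
  · exact le_rfl
  have hr' : 0 < r' := hr.trans_lt hlt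
  refine le_of_mul_le_mul_left ?_ (show (0 : ℝ) < N by exact_mod_cast hN)
  rw [qv_eq_coord W hN, qv_eq_coord W hN]
  refine Finset.sum_le_sum fun i _ => ?_
  have hsq : ∀ s, Gd fun d : Dat a N => lik U s d * av U s d (fun b => sp b i) ^ 2 := fun s =>
    (gd_lik W s).mul (Gd.of_bdd ((measurable_av_const W s _).pow_const 2) fun d => by
      rw [abs_pow]; exact pow_le_pow_left₀ (abs_nonneg _) (abs_av_le W s d fun b => (abs_sp b i).le) 2)
  have h1 := (hsq r).integrable
  have h2 := (hsq r').integrable
  simp only [nullM] at h1 h2 ⊢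
  rw [integral_prod _ h1, integral_prod _ h2]
  refine integral_mono h1.integral_prod_left h2.integral_prod_left fun g => ?_
  set F : (Fin N → ℝ) → ℝ := fun z => lik U r' (g, z) * av U r' (g, z) (fun b => sp b i) ^ 2 with hFdef
  have hmi : ∀ s, Integrable (fun z : Fin N → ℝ => lik U s (g, z) * av U s (g, z) (fun b => sp b i) ^ 2)
      (gaussVec (Fin N)) := fun s => by
    obtain ⟨hm, K, c, hK, hc, hb⟩ := hsq s
    exact ((integrable_exp_absSum c).const_mul K).mono' (hm.comp (by fun_prop)).aestronglyMeasurable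
      (ae_of_all _ fun z => by simpa using hb (g, z))
  rw [integral_bridge hr hrr hr' (hmi r')]
  have hT : Integrable (fun z => ∫ η, F (fun j => Real.sqrt (r / r') * z j + Real.sqrt (1 - r / r') * η j)
      ∂gaussVec (Fin N)) (gaussVec (Fin N)) ∧ ∀ᵐ z ∂gaussVec (Fin N), Integrable
      (fun η => F (fun j => Real.sqrt (r / r') * z j + Real.sqrt (1 - r / r') * η j)) (gaussVec (Fin N)) := by
    have h := gaussVec_rotate (ι := Fin N) (s := r / r') (t := 1 - r / r') (by positivity)
      (by rw [sub_nonneg, div_le_one hr']; exact hrr)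
    simp only [add_sub_cancel, Real.sqrt_one, one_mul, Measure.map_id'] at h
    have hF' : Integrable F (gaussVec (Fin N)) := hmi r'
    rw [← h] at hF'
    have hp := (integrable_map_measure hF'.aestronglyMeasurable (Measurable.aemeasurable (by fun_prop))).1 hF'
    exact ⟨hp.integral_prod_left, hp.prod_right_ae⟩
  refine integral_mono_ae (hmi r) hT.1 (hT.2.mono fun z hz => ?_)
  dsimp only
  set lam := av U r (g, z) (fun b => sp b i)
  have key := lik_mul_av W r (g, z) (fun b => sp b i)
  have iw := fun b => (wt_bridge (U := U) g hr hrr hr' z b)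
  set mapz := fun η : Fin N → ℝ => ((g, fun j => Real.sqrt (r / r') * z j + Real.sqrt (1 - r / r') * η j) : Dat a N)
  have iA : Integrable (fun η => (2⁻¹ : ℝ) ^ N * ∑ b, wt U r' (mapz η) b * sp b i) (gaussVec (Fin N)) :=
    (integrable_finsetSum _ fun b _ => (iw b).2.mul_const _).const_mul _
  have iL : Integrable (fun η => (2⁻¹ : ℝ) ^ N * ∑ b, wt U r' (mapz η) b) (gaussVec (Fin N)) :=
    (integrable_finsetSum _ fun b _ => (iw b).2).const_mul _
  have := integral_mono ((iA.const_mul (2 * lam)).sub' (iL.const_mul (lam ^ 2))) hz fun η => by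
    simp only [hFdef]
    rw [← lik_mul_av W r' (mapz η)]
    change 2 * lam * (lik U r' (mapz η) * av U r' (mapz η) (fun b => sp b i)) - lam ^ 2 * lik U r' (mapz η) ≤ _
    have := mul_nonneg (lik_pos W r' (mapz η)).le (sq_nonneg (av U r' (mapz η) (fun b => sp b i) - lam))
    simp only [mapz] at this ⊢
    linarith
  refine le_trans (le_of_eq ?_) this
  rw [integral_sub (iA.const_mul _) (iL.const_mul _), integral_const_mul, integral_const_mul, integral_const_mul,
    integral_const_mul, integral_finsetSum _ fun b _ => (iw b).2.mul_const _,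
    integral_finsetSum _ fun b _ => (iw b).2]
  simp only [mapz, integral_mul_const, (iw _).1]
  rw [← key]
  change _ = 2 * lam * (lik U r (g, z) * lam) - lam ^ 2 * lik U r (g, z)
  ring

lemma continuousOn_Jt (W : Wgt U C) {R : ℝ} : ContinuousOn (Jt U a N) (Icc 0 R) := by
  have h : ContinuousOn (fun s => ∫ d, patW U d.1 (ones N) * Real.log (lik U s (sh s d)) ∂nullM a N) (Icc 0 R) := by
    refine continuousOn_of_dominated (bound := fun d : Dat a N => patW U d.1 (ones N) * ((a * Real.log C + R * N / 2
      + Real.sqrt R * (N * Real.sqrt R)) + Real.sqrt R * absSum d.2))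
      (fun s _ => ((Finset.measurable_prod _ fun c _ => W.meas.comp (by fun_prop)).mul
        ((measurable_lik W s).comp (measurable_sh s)).log).aestronglyMeasurable) (fun s hs => ae_of_all _ fun d => ?_)
      ((gd_patW W).mul ((Gd.const _).add ((Gd.const _).mul Gd.absSum_snd))).integrable (ae_of_all _ fun d => ?_)
    · rw [Real.norm_eq_abs, abs_mul, abs_of_pos (patW_pos W _ _)]
      refine mul_le_mul_of_nonneg_left ((abs_log_lik_le W s _).trans ?_) (patW_pos W _ _).le
      rw [abs_of_nonneg hs.1]
      have h1 := mul_le_mul (Real.sqrt_le_sqrt hs.2) ((absSum_shv_le s d.2).trans (add_le_add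
        (mul_le_mul_of_nonneg_left (Real.sqrt_le_sqrt hs.2) (Nat.cast_nonneg N)) le_rfl))
        (absSum_nonneg _) (Real.sqrt_nonneg _)
      simp only [sh] at h1 ⊢
      have h2 := mul_le_mul_of_nonneg_right hs.2 (Nat.cast_nonneg (α := ℝ) N)
      linarith [mul_add (Real.sqrt R) ((N : ℝ) * Real.sqrt R) (absSum d.2)]
    · refine continuousOn_const.mul (ContinuousOn.log ?_ fun s _ => (lik_pos W s _).ne')
      unfold lik wt lin sh shv
      refine Continuous.continuousOn (continuous_const.mul (continuous_finsetSum _ fun b _ => ?_))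
      dsimp only
      exact continuous_const.mul (by fun_prop)
  exact h.congr fun s hs => Jt_shift W hs.1

/-- The slopes of the entropy lie between the overlaps at the two ends. -/
lemma Jt_slope (W : Wgt U C) (hN : 0 < N) {r r' : ℝ} (hr : 0 ≤ r) (hrr : r ≤ r') :
    N * qv U a N r / 2 * (r' - r) ≤ Jt U a N r' - Jt U a N r ∧
      Jt U a N r' - Jt U a N r ≤ N * qv U a N r' / 2 * (r' - r) := by
  rcases eq_or_lt_of_le hrr with rfl | hlt
  · simp
  obtain ⟨c, hc, he⟩ := exists_hasDerivAt_eq_slope (Jt U a N) (fun s => N * qv U a N s / 2) hlt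
    ((continuousOn_Jt W (R := r')).mono (Icc_subset_Icc hr le_rfl))
    fun x hx => hasDeriv_Jt W (hr.trans_lt hx.1) hN
  rw [eq_div_iff (sub_pos.2 hlt).ne'] at he
  have hn : (0 : ℝ) ≤ N := Nat.cast_nonneg N
  rw [← he]
  constructor <;> refine mul_le_mul_of_nonneg_right ?_ (sub_pos.2 hlt).le
  · have := mul_le_mul_of_nonneg_left (qv_mono (a := a) W hN hr hc.1.le) hn; linarith
  · have := mul_le_mul_of_nonneg_left (qv_mono (a := a) W hN (hr.trans hc.1.le) hc.2.le) hn; linarith

end Vale.Agent.P157.Plant
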