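import Vale.Agent.P157.Plant.Inc

/-!
The overlap concentrates on average over the signal strength: a bound by finite differences of
the free energy.
-/

open MeasureTheory ProbabilityTheory Filter Topology Set
open scoped BigOperators

namespace Vale.Agent.P157.Plant

variable {a N : ℕ} {U : ℝ → ℝ} {C : ℝ}

lemma measurable_cons {X : Type*} [MeasurableSpace X] (n : ℕ) :
    Measurable fun p : X × (Fin n → X) => (Fin.cons p.1 p.2 : Fin (n + 1) → X) :=
  measurable_pi_lambda _ fun c => by
    refine Fin.cases ?_ (fun i => ?_) c <;> simp only [Fin.cons_zero, Fin.cons_succ] <;> fun_prop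

/-- Efron-Stein with unbounded differences. -/
lemma pi_dev {X : Type*} [MeasurableSpace X] (μ : Measure X) [IsProbabilityMeasure μ] {d : X → ℝ}
    (hd0 : ∀ x, 0 ≤ d x) (hd : Measurable d) (hd1 : Integrable d μ) (hd2 : Integrable (fun x => d x ^ 2) μ) :
    ∀ (n : ℕ) (F : (Fin n → X) → ℝ), Measurable F →
      (∀ x i y, |F x - F (Function.update x i y)| ≤ d (x i) + d y) →
      Integrable F (Measure.pi fun _ => μ) ∧ Integrable (fun x => F x ^ 2) (Measure.pi fun _ => μ) ∧
        ∫ x, (F x - ∫ x', F x' ∂Measure.pi fun _ => μ) ^ 2 ∂Measure.pi (fun _ => μ)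
          ≤ 4 * n * ∫ x, d x ^ 2 ∂μ := by
  intro n
  induction n with
  | zero =>
    intro F _ _
    have e : F = fun _ => F finZeroElim := funext fun x => congrArg F (Subsingleton.elim _ _)
    rw [e]
    exact ⟨integrable_const _, integrable_const _, by simp⟩
  | succ n ih =>
    intro F hF hdiff
    set P := Measure.pi fun _ : Fin n => μ
    have hmp := (measurePreserving_piFinSuccAbove (fun _ : Fin (n + 1) => μ) 0).symm
    have hins : ∀ z : X × (Fin n → X),
        (MeasurableEquiv.piFinSuccAbove (fun _ : Fin (n + 1) => X) 0).symm z = Fin.cons z.1 z.2 :=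
      fun z => Fin.insertNth_zero' z.1 z.2
    set K : X × (Fin n → X) → ℝ := fun z => F (Fin.cons z.1 z.2) with hKdef
    have hKm : Measurable K := hF.comp (measurable_cons n)
    have hstep : ∀ (x y : X) r, |K (x, r) - K (y, r)| ≤ d x + d y := fun x y r => by
      have := hdiff (Fin.cons x r) 0 y
      rwa [Fin.update_cons_zero, Fin.cons_zero] at this
    have hrest : ∀ (x : X) r i y, |K (x, r) - K (x, Function.update r i y)| ≤ d (r i) + d y := fun x r i y => by
      have := hdiff (Fin.cons x r) i.succ y
      rwa [← Fin.cons_update, Fin.cons_succ] at this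
    obtain ⟨c⟩ : Nonempty X := nonempty_of_isProbabilityMeasure μ
    obtain ⟨hc1, hc2, -⟩ := ih (fun r => K (c, r)) (hKm.comp measurable_prodMk_left) (hrest c)
    set D : X × (Fin n → X) → ℝ := fun z => |K (c, z.2)| + (d z.1 + d c)
    have hKD : ∀ z, |K z| ≤ D z := fun z => by
      linarith [abs_sub_abs_le_abs_sub (K z) (K (c, z.2)), hstep z.1 c z.2, D, show D z = |K (c, z.2)| + (d z.1 + d c) from rfl]
    have hD1 : Integrable D (μ.prod P) :=
      ((hc1.comp_snd μ).abs).add ((hd1.comp_fst P).add (integrable_const _))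
    have hK1 : Integrable K (μ.prod P) :=
      hD1.mono' hKm.aestronglyMeasurable (ae_of_all _ fun z => hKD z)
    have hK2 : Integrable (fun z => K z ^ 2) (μ.prod P) := by
      refine Integrable.mono' (g := fun z => 3 * K (c, z.2) ^ 2 + (3 * d z.1 ^ 2 + 3 * d c ^ 2))
        (((hc2.comp_snd μ).const_mul 3).add (((hd2.comp_fst P).const_mul 3).add (integrable_const _)))
        (hKm.pow_const 2).aestronglyMeasurable (ae_of_all _ fun z => ?_)
      rw [Real.norm_eq_abs, abs_pow]
      refine (pow_le_pow_left₀ (abs_nonneg _) (hKD z) 2).trans ?_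
      simp only [D]
      rw [← sq_abs (K (c, z.2))]
      nlinarith [sq_nonneg (|K (c, z.2)| - d z.1), sq_nonneg (|K (c, z.2)| - d c), sq_nonneg (d z.1 - d c)]
    set G : (Fin n → X) → ℝ := fun r => ∫ y, K (y, r) ∂μ with hGdef
    have hKr : ∀ r, Integrable (fun y => K (y, r)) μ := fun r =>
      (show Integrable (fun y => |K (c, r)| + (d y + d c)) μ from
        (integrable_const _).add (hd1.add (integrable_const (d c)))).mono'
        (hKm.comp measurable_prodMk_right).aestronglyMeasurable (ae_of_all _ fun y => hKD (y, r))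
    have hGm : Measurable G :=
      (StronglyMeasurable.integral_prod_left (f := fun y r => K (y, r)) hKm.stronglyMeasurable).measurable
    obtain ⟨hG1, hG2, hG3⟩ := ih G hGm fun r i y => by
      simp only [hGdef]
      rw [← integral_sub (hKr r) (hKr _)]
      simpa using norm_integral_le_of_norm_le_const (μ := μ)
        (f := fun x => K (x, r) - K (x, Function.update r i y)) (ae_of_all _ fun x => hrest x r i y)
    have hKG : ∀ z : X × (Fin n → X), |K z - G z.2| ≤ d z.1 + ∫ y, d y ∂μ := fun z => by
      have e : K z - G z.2 = ∫ y, (K z - K (y, z.2)) ∂μ := by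
        rw [integral_sub (integrable_const _) (hKr z.2)]; simp [hGdef]
      rw [e]
      refine (abs_integral_le_integral_abs).trans ((integral_mono ((integrable_const _).sub (hKr z.2)).abs
        ((integrable_const _).add hd1) fun y => hstep z.1 y z.2).trans (le_of_eq ?_))
      simp only [Pi.add_apply]
      rw [integral_add (integrable_const _) hd1]; simp
    have hmean : ∫ x, F x ∂(Measure.pi fun _ : Fin (n + 1) => μ) = ∫ r, G r ∂P := by
      rw [← hmp.integral_comp', integral_congr_ae (ae_of_all _ fun z => by rw [hins]),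
        show (∫ z, F (Fin.cons z.1 z.2) ∂μ.prod P) = ∫ z, K z ∂μ.prod P from rfl, integral_prod_symm _ hK1]
    have hF1 : Integrable F (Measure.pi fun _ : Fin (n + 1) => μ) := by
      rw [← hmp.integrable_comp_emb (MeasurableEquiv.measurableEmbedding _)]
      exact hK1.congr (ae_of_all _ fun z => by simp only [Function.comp_apply, hins, hKdef])
    have hF2 : Integrable (fun x => F x ^ 2) (Measure.pi fun _ : Fin (n + 1) => μ) := by
      rw [← hmp.integrable_comp_emb (MeasurableEquiv.measurableEmbedding _)]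
      exact hK2.congr (ae_of_all _ fun z => by simp only [Function.comp_apply, hins, hKdef])
    refine ⟨hF1, hF2, ?_⟩
    set m := ∫ r, G r ∂P
    rw [hmean, ← hmp.integral_comp', integral_congr_ae (ae_of_all _ fun z => by rw [hins]),
      show (∫ z, (F (Fin.cons z.1 z.2) - m) ^ 2 ∂μ.prod P) = ∫ z, (K z - m) ^ 2 ∂μ.prod P from rfl]
    have hKm2 : Integrable (fun z => (K z - m) ^ 2) (μ.prod P) := by
      refine ((hK2.sub (hK1.const_mul (2 * m))).add (integrable_const (m ^ 2))).congr (ae_of_all _ fun z => ?_)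
      simp only [Pi.add_apply, Pi.sub_apply]; ring
    rw [integral_prod_symm _ hKm2]
    have hd' : (∫ y, d y ∂μ) ^ 2 ≤ ∫ y, d y ^ 2 ∂μ := mean_sq_le hd1 hd2
    have hin : ∀ r, ∫ x, (K (x, r) - m) ^ 2 ∂μ ≤ 4 * (∫ y, d y ^ 2 ∂μ) + (G r - m) ^ 2 := fun r => by
      have isq : Integrable (fun x => (K (x, r) - G r) ^ 2) μ := by
        refine ((hd2.const_mul 2).add (integrable_const (2 * (∫ y, d y ∂μ) ^ 2))).mono'
          (((hKm.comp measurable_prodMk_right).sub_const _).pow_const 2).aestronglyMeasurable
          (ae_of_all _ fun x => ?_)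
        rw [Real.norm_eq_abs, abs_pow, Pi.add_apply]
        refine (pow_le_pow_left₀ (abs_nonneg _) (hKG (x, r)) 2).trans ?_
        nlinarith [sq_nonneg (d x - ∫ y, d y ∂μ)]
      have e : ∀ x, (K (x, r) - m) ^ 2
          = (K (x, r) - G r) ^ 2 + (2 * (G r - m) * (K (x, r) - G r) + (G r - m) ^ 2) := fun x => by ring
      have hl : Integrable (fun x => 2 * (G r - m) * (K (x, r) - G r)) μ :=
        ((hKr r).sub (integrable_const _)).const_mul _
      simp_rw [e]
      rw [integral_add isq (hl.fun_add (integrable_const _)), integral_add hl (integrable_const _),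
        integral_const_mul, integral_sub (hKr r) (integrable_const _)]
      simp only [integral_const, probReal_univ, one_smul]
      have : ∫ x, (K (x, r) - G r) ^ 2 ∂μ ≤ 2 * (∫ y, d y ^ 2 ∂μ) + 2 * (∫ y, d y ∂μ) ^ 2 := by
        refine (integral_mono isq ((hd2.const_mul 2).add (integrable_const (2 * (∫ y, d y ∂μ) ^ 2))) fun x => ?_).trans
          (le_of_eq ?_)
        · simp only [Pi.add_apply]
          rw [← sq_abs (K (x, r) - G r)]
          refine (pow_le_pow_left₀ (abs_nonneg _) (hKG (x, r)) 2).trans ?_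
          nlinarith [sq_nonneg (d x - ∫ y, d y ∂μ)]
        · simp only [Pi.add_apply]
          rw [integral_add (hd2.const_mul 2) (integrable_const _), integral_const_mul]; simp
      have e2 : G r = ∫ x, K (x, r) ∂μ := rfl
      rw [← e2, sub_self, mul_zero, zero_add]
      linarith
    have hGm2 : Integrable (fun r => (G r - m) ^ 2) P := by
      refine ((hG2.sub (hG1.const_mul (2 * m))).add (integrable_const (m ^ 2))).congr (ae_of_all _ fun r => ?_)
      simp only [Pi.add_apply, Pi.sub_apply]; ring
    refine (integral_mono hKm2.integral_prod_right ((integrable_const _).add hGm2) hin).trans ?_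
    simp only [Pi.add_apply]
    rw [integral_add (integrable_const _) hGm2, integral_const, probReal_univ, one_smul]
    push_cast
    linarith

lemma abs_dev_le {X : Type*} [MeasurableSpace X] (μ : Measure X) [IsProbabilityMeasure μ] {d : X → ℝ}
    (hd0 : ∀ x, 0 ≤ d x) (hd : Measurable d) (hd1 : Integrable d μ) (hd2 : Integrable (fun x => d x ^ 2) μ)
    {n : ℕ} {F : (Fin n → X) → ℝ} (hF : Measurable F)
    (hdiff : ∀ x i y, |F x - F (Function.update x i y)| ≤ d (x i) + d y) :
    ∫ x, |F x - ∫ x', F x' ∂Measure.pi fun _ => μ| ∂Measure.pi (fun _ => μ)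
      ≤ 2 * Real.sqrt (n * ∫ x, d x ^ 2 ∂μ) := by
  obtain ⟨h1, h2, h3⟩ := pi_dev μ hd0 hd hd1 hd2 n F hF hdiff
  set m := ∫ x', F x' ∂Measure.pi fun _ => μ
  have i2 : Integrable (fun x => (F x - m) ^ 2) (Measure.pi fun _ => μ) := by
    refine ((h2.sub (h1.const_mul (2 * m))).add (integrable_const (m ^ 2))).congr (ae_of_all _ fun x => ?_)
    simp only [Pi.add_apply, Pi.sub_apply]; ring
  have h := mean_sq_le (G := Measure.pi fun _ : Fin n => μ) (F := fun x => |F x - m|) (h1.sub (integrable_const m)).abs
    (by simpa [sq_abs] using i2)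
  simp only [sq_abs] at h
  have h4 : (2 * Real.sqrt (n * ∫ x, d x ^ 2 ∂μ)) ^ 2 = 4 * n * ∫ x, d x ^ 2 ∂μ := by
    rw [mul_pow, Real.sq_sqrt (mul_nonneg (Nat.cast_nonneg n) (integral_nonneg fun x => sq_nonneg _))]; ring
  exact le_of_pow_le_pow_left₀ two_ne_zero (by positivity) (h.trans (h3.trans_eq h4.symm))

/-- The free energy in planted coordinates. -/
noncomputable def fe (U : ℝ → ℝ) (r : ℝ) (d : Dat a N) : ℝ := Real.log (lik U r (sh r d))

lemma gd_fe (W : Wgt U C) (r : ℝ) : Gd fun d : Dat a N => fe U r d := by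
  obtain ⟨hm, K, c, hK, hc, hb⟩ := gd_log_lik (a := a) (N := N) W r
  refine ⟨hm.comp (measurable_sh r), K * Real.exp (c * (N * Real.sqrt r)), c, by positivity, hc, fun d => ?_⟩
  refine (hb _).trans ?_
  rw [mul_assoc, ← Real.exp_add, ← mul_add]
  exact mul_le_mul_of_nonneg_left (Real.exp_le_exp.2 (mul_le_mul_of_nonneg_left (absSum_shv_le _ _) hc)) hK

/-- The mean absolute fluctuation of the free energy. -/
lemma fe_dev (W : Wgt U C) {r : ℝ} (hr : 0 ≤ r) (hN : 0 < N) :
    ∫ d, patW U d.1 (ones N) * |fe U r d - Jt U a N r| ∂nullM a N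
      ≤ 2 * Real.sqrt (N * r) + 2 * Real.sqrt (a * Real.log C ^ 2) := by
  set γN := gaussVec (Fin N)
  set ρ : (Fin N → ℝ) → ℝ := fun g => U (fld g (ones N))
  have hρi : Integrable ρ γN := W.int (measurable_fld _)
  have hρ1 : ∫ g, ρ g ∂γN = 1 := by
    exact (unit_form (cfgVec_unit hN (ones N)) W.meas).trans W.mean
  set ν := γN.withDensity fun g => ENNReal.ofReal (ρ g)
  have : IsProbabilityMeasure ν := ⟨by
    rw [withDensity_apply _ MeasurableSet.univ, setLIntegral_univ,
      ← ofReal_integral_eq_lintegral_ofReal hρi (ae_of_all _ fun g => (W.pos _).le), hρ1, ENNReal.ofReal_one]⟩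
  have hpi : (Measure.pi fun _ : Fin a => γN).withDensity (fun g => ENNReal.ofReal (patW U g (ones N)))
      = Measure.pi fun _ : Fin a => ν :=
    pi_withDensity' γN (ρ := fun _ g => U (fld g (ones N))) (fun _ g => (W.pos _).le)
      (fun _ => W.meas.comp (measurable_fld _)) fun _ => hρi
  have hint : ∀ {Φ : (Fin a → Fin N → ℝ) → ℝ},
      ∫ g, patW U g (ones N) * Φ g ∂(Measure.pi fun _ : Fin a => γN) = ∫ g, Φ g ∂Measure.pi fun _ : Fin a => ν := by
    intro Φ
    rw [← hpi, integral_withDensity_eq_integral_toReal_smul ?_ (ae_of_all _ fun _ => ENNReal.ofReal_lt_top)]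
    · exact integral_congr_ae (ae_of_all _ fun g => by simp [ENNReal.toReal_ofReal (patW_pos W g _).le])
    · exact (Finset.measurable_prod _ fun c _ => W.meas.comp (by fun_prop)).ennreal_ofReal
  have hfm : Measurable fun d : Dat a N => fe U r d := (gd_fe W r).1
  have hratio : ∀ {d d' : Dat a N} {t : ℝ}, (∀ b, wt U r (sh r d) b ≤ Real.exp t * wt U r (sh r d') b) →
      fe U r d - fe U r d' ≤ t := fun {d d' t} h => by
    have hle : lik U r (sh r d) ≤ Real.exp t * lik U r (sh r d') := by
      unfold lik
      rw [mul_left_comm, Finset.mul_sum Finset.univ _ (Real.exp t)]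
      exact mul_le_mul_of_nonneg_left (Finset.sum_le_sum fun b _ => h b) (by positivity)
    have := Real.log_le_log (lik_pos W r _) hle
    rw [Real.log_mul (Real.exp_ne_zero _) (lik_pos W r _).ne', Real.log_exp] at this
    simp only [fe]; linarith
  have hlipξ : ∀ (g : Fin a → Fin N → ℝ) (ξ : Fin N → ℝ) i y,
      |fe U r (g, ξ) - fe U r (g, Function.update ξ i y)| ≤ Real.sqrt r * |ξ i| + Real.sqrt r * |y| := by
    intro g ξ i y
    have hb : ∀ ξ₁ ξ₂ : Fin N → ℝ, (∀ j, j ≠ i → ξ₁ j = ξ₂ j) → ∀ b,
        wt U r (sh r (g, ξ₁)) b ≤ Real.exp (Real.sqrt r * (|ξ₁ i| + |ξ₂ i|)) * wt U r (sh r (g, ξ₂)) b := by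
      intro ξ₁ ξ₂ h b
      simp only [wt, sh]
      rw [mul_left_comm, ← Real.exp_add]
      refine mul_le_mul_of_nonneg_left (Real.exp_le_exp.2 ?_) (patW_pos W _ _).le
      have e : lin (shv r ξ₁) b - lin (shv r ξ₂) b = (ξ₁ i - ξ₂ i) * sp b i := by
        simp only [lin, shv, ← Finset.sum_sub_distrib]
        rw [Finset.sum_eq_single i]
        · ring
        · intro j _ hj; rw [h j hj]; ring
        · simp
      have h2 : (ξ₁ i - ξ₂ i) * sp b i ≤ |ξ₁ i| + |ξ₂ i| :=
        (le_abs_self _).trans (by rw [abs_mul, abs_sp, mul_one]; exact abs_sub _ _)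
      have h3 := mul_le_mul_of_nonneg_left h2 (Real.sqrt_nonneg r)
      rw [← e] at h3
      linarith
    rw [abs_le]
    constructor
    · have := hratio (hb (Function.update ξ i y) ξ fun j hj => Function.update_of_ne hj _ _)
      rw [Function.update_self] at this
      linarith
    · have := hratio (hb ξ (Function.update ξ i y) fun j hj => (Function.update_of_ne hj _ _).symm)
      rw [Function.update_self] at this
      linarith
  have hlipg : ∀ (ξ : Fin N → ℝ) (g : Fin a → Fin N → ℝ) c y,
      |fe U r (g, ξ) - fe U r (Function.update g c y, ξ)| ≤ Real.log C + Real.log C := by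
    intro ξ g c y
    have hb : ∀ g₁ g₂ : Fin a → Fin N → ℝ, (∀ e, e ≠ c → g₁ e = g₂ e) → ∀ b,
        wt U r (sh r (g₁, ξ)) b ≤ Real.exp (Real.log C + Real.log C) * wt U r (sh r (g₂, ξ)) b := by
      intro g₁ g₂ h b
      simp only [wt, sh]
      rw [← mul_assoc, Real.exp_add, Real.exp_log W.C_pos]
      refine mul_le_mul_of_nonneg_right ?_ (Real.exp_pos _).le
      simp only [patW]
      rw [Finset.prod_eq_prod_sdiff_singleton_mul (Finset.mem_univ c),
        Finset.prod_eq_prod_sdiff_singleton_mul (Finset.mem_univ c) (fun e => U (fld (g₂ e) b))]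
      rw [Finset.prod_congr rfl fun e he => by rw [h e (by simpa using he)], mul_left_comm]
      refine mul_le_mul_of_nonneg_left ?_ (Finset.prod_nonneg fun e _ => (W.pos _).le)
      calc U (fld (g₁ c) b) ≤ C := W.hi _
        _ = C * C * C⁻¹ := by field_simp [W.C_pos.ne']
        _ ≤ C * C * U (fld (g₂ c) b) := mul_le_mul_of_nonneg_left (W.lo _) (mul_self_nonneg C)
    rw [abs_le]
    constructor
    · have := hratio (hb (Function.update g c y) g fun e he => Function.update_of_ne he _ _)
      linarith
    · have := hratio (hb g (Function.update g c y) fun e he => (Function.update_of_ne he _ _).symm)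
      linarith
  set G : (Fin a → Fin N → ℝ) → ℝ := fun g => ∫ ξ, fe U r (g, ξ) ∂γN with hG
  have hGm : Measurable G :=
    (StronglyMeasurable.integral_prod_right (f := fun g ξ => fe U r (g, ξ)) hfm.stronglyMeasurable).measurable
  have habs : Integrable (fun z : ℝ => |z|) (gaussianReal 0 1) := by simpa using integrable_abs_pow_gauss 1
  have hd1 : Integrable (fun z : ℝ => Real.sqrt r * |z|) (gaussianReal 0 1) := habs.const_mul _
  have hd2 : Integrable (fun z : ℝ => (Real.sqrt r * |z|) ^ 2) (gaussianReal 0 1) := by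
    simp only [mul_pow, sq_abs]; exact (integrable_pow_gauss 2).const_mul _
  have hfi : ∀ g, Integrable (fun ξ => fe U r (g, ξ)) γN := fun g =>
    (pi_dev (gaussianReal 0 1) (d := fun z => Real.sqrt r * |z|) (fun z => by positivity) (by fun_prop) hd1 hd2 N
      (fun ξ => fe U r (g, ξ)) (hfm.comp measurable_prodMk_left) (hlipξ g)).1
  have hin : ∀ g, ∫ ξ, |fe U r (g, ξ) - G g| ∂γN ≤ 2 * Real.sqrt (N * r) := fun g => by
    refine (abs_dev_le (gaussianReal 0 1) (d := fun z => Real.sqrt r * |z|) (fun z => by positivity) (by fun_prop)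
      hd1 hd2 (hfm.comp measurable_prodMk_left) (hlipξ g)).trans (le_of_eq ?_)
    simp only [mul_pow, sq_abs]
    rw [integral_const_mul, gauss_sq, mul_one, Real.sq_sqrt hr]
  have hout : ∫ g, |G g - ∫ g', G g' ∂Measure.pi fun _ : Fin a => ν| ∂Measure.pi (fun _ : Fin a => ν)
      ≤ 2 * Real.sqrt (a * Real.log C ^ 2) := by
    refine (abs_dev_le ν (d := fun _ => Real.log C) (fun _ => Real.log_nonneg W.one_le) measurable_const
      (integrable_const _) (integrable_const _) hGm fun g c y => ?_).trans (le_of_eq (by simp))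
    simp only [hG]
    rw [← integral_sub (hfi _) (hfi _)]
    simpa using norm_integral_le_of_norm_le_const (μ := γN)
      (f := fun ξ => fe U r (g, ξ) - fe U r (Function.update g c y, ξ)) (ae_of_all _ fun ξ => hlipg ξ g c y)
  have iJ : Integrable (fun d : Dat a N => patW U d.1 (ones N) * fe U r d) (nullM a N) :=
    ((gd_patW W).mul (gd_fe W r)).integrable
  have hJ : Jt U a N r = ∫ g, G g ∂Measure.pi fun _ : Fin a => ν := by
    rw [Jt_shift W hr, ← hint]
    have := iJ
    simp only [nullM] at this ⊢
    rw [show (∫ d, patW U d.1 (ones N) * Real.log (lik U r (sh r d)) ∂(Measure.pi fun _ : Fin a => γN).prod γN)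
      = ∫ d, patW U d.1 (ones N) * fe U r d ∂(Measure.pi fun _ : Fin a => γN).prod γN from rfl, integral_prod _ this]
    exact integral_congr_ae (ae_of_all _ fun g => by simp only [hG]; exact (integral_const_mul _ _).symm.symm)
  have i1 : Integrable (fun d : Dat a N => patW U d.1 (ones N) * |fe U r d - Jt U a N r|) (nullM a N) := by
    obtain ⟨hm, K, c, hK, hc, hb⟩ := (gd_fe (a := a) (N := N) W r).sub (Gd.const (Jt U a N r))
    exact ((gd_patW W).mul ⟨hm.abs, K, c, hK, hc, fun d => by rw [abs_abs]; exact hb d⟩).integrable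
  simp only [nullM] at i1 ⊢
  rw [integral_prod _ i1]
  simp only [integral_const_mul]
  rw [hint]
  obtain ⟨hG1, -, -⟩ := pi_dev ν (d := fun _ => Real.log C) (fun _ => Real.log_nonneg W.one_le) measurable_const
    (integrable_const _) (integrable_const _) a G hGm fun g c y => by
      simp only [hG]
      rw [← integral_sub (hfi _) (hfi _)]
      simpa using norm_integral_le_of_norm_le_const (μ := γN)
        (f := fun ξ => fe U r (g, ξ) - fe U r (Function.update g c y, ξ)) (ae_of_all _ fun ξ => hlipg ξ g c y)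
  have ib : Integrable (fun g => 2 * Real.sqrt (N * r) + |G g - Jt U a N r|) (Measure.pi fun _ : Fin a => ν) :=
    (integrable_const _).add (hG1.sub (integrable_const _)).abs
  refine (integral_mono_of_nonneg (ae_of_all _ fun g => integral_nonneg fun ξ => abs_nonneg _) ib
    (ae_of_all _ fun g => ?_)).trans ?_
  · dsimp only
    have j1 : Integrable (fun ξ => |fe U r (g, ξ) - G g|) γN := ((hfi g).sub (integrable_const _)).abs
    have j2 : Integrable (fun ξ => |fe U r (g, ξ) - Jt U a N r|) γN := ((hfi g).sub (integrable_const _)).abs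
    refine (integral_mono j2 (j1.add (integrable_const |G g - Jt U a N r|)) fun ξ => abs_sub_le _ (G g) _).trans ?_
    simp only [Pi.add_apply]
    rw [integral_add j1 (integrable_const _)]
    simp only [integral_const, probReal_univ, one_smul]
    linarith [hin g]
  · have j3 : Integrable (fun g => |G g - Jt U a N r|) (Measure.pi fun _ : Fin a => ν) :=
      (hG1.sub (integrable_const _)).abs
    rw [integral_add (integrable_const _) j3, integral_const, probReal_univ, one_smul, hJ]
    linarith

lemma log_two_add {u : ℝ} : Real.log (1 + Real.exp u) ≤ Real.log 2 + max u 0 := by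
  rw [← Real.log_exp (max u 0), ← Real.log_mul two_ne_zero (Real.exp_ne_zero _)]
  refine Real.log_le_log (by positivity) ?_
  linarith [Real.exp_le_exp.2 (le_max_left u 0), Real.one_le_exp (le_max_right u 0)]

lemma max_zero_le_log (x : ℝ) : max x 0 ≤ Real.log (1 + Real.exp x) := by
  refine max_le ?_ (Real.log_nonneg (by linarith [Real.exp_pos x]))
  conv_lhs => rw [← Real.log_exp x]
  exact Real.log_le_log (Real.exp_pos _) (by linarith)

lemma av_softplus_le (W : Wgt U C) (r : ℝ) (d : Dat a N) (k : Cfg N → ℝ) :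
    av U r d (fun b => max (k b) 0) ≤ Real.log (1 + av U r d (fun b => Real.exp (k b))) := by
  set X := 1 + av U r d (fun b => Real.exp (k b))
  have hX : 0 < X := by
    have := (av_const W r d 0).symm.trans_le (av_mono W r d (h := fun _ => 0) (k := fun b => Real.exp (k b))
      fun b => (Real.exp_pos _).le)
    simp only [X]; linarith
  refine (av_mono W r d (k := fun b => (Real.log X - 1) + X⁻¹ * (1 + Real.exp (k b))) fun b => ?_).trans (le_of_eq ?_)
  · refine (max_zero_le_log _).trans ?_
    have h := Real.log_le_sub_one_of_pos (div_pos (show 0 < 1 + Real.exp (k b) by positivity) hX)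
    rw [Real.log_div (by positivity) hX.ne', div_eq_inv_mul] at h
    linarith
  · rw [av_add, av_const W, av_mul, av_add, av_const W]
    rw [show X⁻¹ * (1 + av U r d fun b => Real.exp (k b)) = X⁻¹ * X from rfl, inv_mul_cancel₀ hX.ne']
    ring

/-- The finite-difference statistic. -/
noncomputable def fdStat (c : ℝ) (ξ : Fin N → ℝ) (b : Cfg N) : ℝ :=
  N * ovl (ones N) b + c * lin ξ b - N / 2

lemma wt_sh_add (W : Wgt U C) {r r' : ℝ} (hr : 0 ≤ r) (hr' : 0 ≤ r') (hpos : 0 < Real.sqrt r' + Real.sqrt r)
    (d : Dat a N) :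
    av U r (sh r d) (fun b => Real.exp ((r' - r) * fdStat (1 / (Real.sqrt r' + Real.sqrt r)) d.2 b))
      = Real.exp (fe U r' d - fe U r d) := by
  have e : ∀ b, wt U r (sh r d) b * Real.exp ((r' - r) * fdStat (1 / (Real.sqrt r' + Real.sqrt r)) d.2 b)
      = wt U r' (sh r' d) b := fun b => by
    simp only [wt, sh]
    rw [mul_assoc, ← Real.exp_add]
    congr 2
    rw [lin_shv, lin_shv]
    simp only [fdStat]
    have h1 : (r' - r) * (1 / (Real.sqrt r' + Real.sqrt r)) = Real.sqrt r' - Real.sqrt r := by
      rw [mul_one_div, div_eq_iff hpos.ne']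
      nlinarith [Real.mul_self_sqrt hr, Real.mul_self_sqrt hr']
    nlinarith [Real.mul_self_sqrt hr, Real.mul_self_sqrt hr', congrArg (fun x => x * lin d.2 b) h1,
      congrArg (fun x => x * ((N : ℝ) * ovl (ones N) b)) (Real.mul_self_sqrt hr),
      congrArg (fun x => x * ((N : ℝ) * ovl (ones N) b)) (Real.mul_self_sqrt hr')]
  unfold av
  simp_rw [e]
  simp only [fe]
  rw [Real.exp_sub, Real.exp_log (lik_pos W r' _), Real.exp_log (lik_pos W r _)]
  rfl

/-- The Gibbs spread of the finite-difference statistic. -/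
lemma spread_le (W : Wgt U C) {r δ : ℝ} (hδ : 0 < δ) (hδr : δ < r) (d : Dat a N) (Dp Dm : ℝ) :
    δ * av U r (sh r d) (fun b => |fdStat (1 / (Real.sqrt (r + δ) + Real.sqrt r)) d.2 b - Dp / δ|)
      ≤ 2 * Real.log 2 + |fe U (r + δ) d - fe U r d - Dp| + |fe U (r - δ) d - fe U r d - Dm| + max (Dp + Dm) 0
        + δ * (|1 / (Real.sqrt (r + δ) + Real.sqrt r) - 1 / (Real.sqrt (r - δ) + Real.sqrt r)| * absSum d.2) := by
  have hr : 0 < r := hδ.trans hδr
  have hs : 0 < Real.sqrt r := Real.sqrt_pos.2 hr
  set c := 1 / (Real.sqrt (r + δ) + Real.sqrt r)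
  set c' := 1 / (Real.sqrt (r - δ) + Real.sqrt r)
  set μ := Dp / δ
  have hp : av U r (sh r d) (fun b => max (δ * (fdStat c d.2 b - μ)) 0)
      ≤ Real.log 2 + |fe U (r + δ) d - fe U r d - Dp| := by
    refine (av_softplus_le W r _ _).trans ?_
    have e : (fun b => Real.exp (δ * (fdStat c d.2 b - μ)))
        = fun b => Real.exp (-(δ * μ)) * Real.exp ((r + δ - r) * fdStat c d.2 b) := by
      funext b; rw [← Real.exp_add]; congr 1; ring
    rw [e, av_mul, wt_sh_add W hr.le (by linarith) (by positivity), ← Real.exp_add]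
    refine log_two_add.trans (add_le_add le_rfl ?_)
    rw [show δ * μ = Dp by simp only [μ]; field_simp]
    refine max_le (le_trans (le_of_eq ?_) (le_abs_self _)) (abs_nonneg _)
    ring
  have hm : av U r (sh r d) (fun b => max (δ * (μ - fdStat c' d.2 b)) 0)
      ≤ Real.log 2 + (|fe U (r - δ) d - fe U r d - Dm| + max (Dp + Dm) 0) := by
    refine (av_softplus_le W r _ _).trans ?_
    have e : (fun b => Real.exp (δ * (μ - fdStat c' d.2 b)))
        = fun b => Real.exp (δ * μ) * Real.exp ((r - δ - r) * fdStat c' d.2 b) := by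
      funext b; rw [← Real.exp_add]; congr 1; ring
    rw [e, av_mul, wt_sh_add W hr.le (by linarith) (by positivity), ← Real.exp_add]
    refine log_two_add.trans (add_le_add le_rfl ?_)
    rw [show δ * μ = Dp by simp only [μ]; field_simp]
    refine max_le ?_ (by positivity)
    have h1 := le_abs_self (fe U (r - δ) d - fe U r d - Dm)
    have h2 := le_max_left (Dp + Dm) 0
    linarith
  rw [← av_mul]
  refine (av_mono W r _ (k := fun b => max (δ * (fdStat c d.2 b - μ)) 0 + max (δ * (μ - fdStat c' d.2 b)) 0
    + δ * (|c - c'| * absSum d.2)) fun b => ?_).trans ?_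
  · have h3 : |fdStat c' d.2 b - fdStat c d.2 b| ≤ |c - c'| * absSum d.2 := by
      simp only [fdStat]
      rw [show (N : ℝ) * ovl (ones N) b + c' * lin d.2 b - N / 2 - (N * ovl (ones N) b + c * lin d.2 b - N / 2)
        = (c' - c) * lin d.2 b by ring, abs_mul, abs_sub_comm]
      exact mul_le_mul_of_nonneg_left (abs_lin_le _ _) (abs_nonneg _)
    have h4 := mul_le_mul_of_nonneg_left h3 hδ.le
    have h5 := mul_nonneg hδ.le (abs_nonneg (fdStat c' d.2 b - fdStat c d.2 b))
    have h6 := mul_le_mul_of_nonneg_left (le_abs_self (fdStat c' d.2 b - fdStat c d.2 b)) hδ.le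
    rcases le_total (fdStat c d.2 b) μ with h | h
    · rw [abs_of_nonpos (sub_nonpos.2 h)]
      have := le_max_left (δ * (μ - fdStat c' d.2 b)) 0
      have := le_max_right (δ * (fdStat c d.2 b - μ)) 0
      linarith
    · rw [abs_of_nonneg (sub_nonneg.2 h)]
      have := le_max_left (δ * (fdStat c d.2 b - μ)) 0
      have := le_max_right (δ * (μ - fdStat c' d.2 b)) 0
      linarith
  · rw [av_add, av_add, av_const W]
    linarith

lemma integral_absSum_le : ∫ ξ, absSum ξ ∂gaussVec (Fin N) ≤ N := by
  simp only [absSum]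
  have h : Integrable (fun z : ℝ => |z|) (gaussianReal 0 1) := by simpa using integrable_abs_pow_gauss 1
  have hi : ∀ i, Integrable (fun ξ : Fin N → ℝ => |ξ i|) (gaussVec (Fin N)) := fun i =>
    (measurePreserving_eval (fun _ : Fin N => gaussianReal 0 1) i).integrable_comp_of_integrable h
  rw [integral_finsetSum _ fun i _ => hi i]
  have hb : ∀ i : Fin N, ∫ ξ, |ξ i| ∂gaussVec (Fin N) ≤ 1 := fun i => by
    rw [gaussVec, integral_comp_eval (μ := fun _ : Fin N => gaussianReal 0 1) (i := i) (f := fun z : ℝ => |z|) (by fun_prop)]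
    refine (integral_mono h ((integrable_const (1 / 2)).add ((integrable_pow_gauss 2).const_mul (1 / 2))) fun z => ?_).trans
      (le_of_eq ?_)
    · simp only [Pi.add_apply]
      nlinarith [sq_nonneg (|z| - 1), sq_abs z]
    · simp only [Pi.add_apply]
      rw [integral_add (integrable_const _) ((integrable_pow_gauss 2).const_mul _), integral_const_mul, gauss_sq]
      simp; norm_num
  exact (Finset.sum_le_sum fun i _ => hb i).trans (by simp)

/-- The covariance step. -/
lemma vr_le_spread (W : Wgt U C) {r : ℝ} (hr : 0 ≤ r) (hN : 0 < N) {c : ℝ} (hc : 0 ≤ c)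
    (hcr : c * Real.sqrt r ≤ 1 / 2) (μ : ℝ) :
    N * vr U a N r / 2 ≤ 2 * ∫ d, patW U d.1 (ones N)
      * av U r (sh r d) (fun b => |fdStat c d.2 b - μ|) ∂nullM a N := by
  set q := qv U a N r with hqdef
  have hq : q ∈ Icc (0 : ℝ) 1 := ⟨qv_nonneg W hN r, qv_le_one W hN hr⟩
  set R : Cfg N → ℝ := fun b => ovl (ones N) b
  have hRb : ∀ b, |R b| ≤ 1 := fun b => abs_ovl_le _ b
  have hRq : ∀ b, |R b - q| ≤ 2 := fun b => by
    refine (abs_sub _ _).trans ?_; rw [abs_of_nonneg hq.1]; linarith [hRb b, hq.2]
  set A : Dat a N → Cfg N → ℝ := fun d b => av U r d (fun b' => ovl b b')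
  have hAm : ∀ b, Measurable fun d => A d b := fun b => measurable_av_const W r _
  have hAb : ∀ d b, |A d b| ≤ 1 := fun d b => abs_av_le W r d fun b' => abs_ovl_le b b'
  -- three planted averages
  have ip : ∀ {F : Dat a N → ℝ}, Gd F → Integrable (fun d => wt U r d (ones N) * F d) (nullM a N) :=
    fun hF => ((gd_wt W r _).mul hF).integrable
  set X := ∫ d, wt U r d (ones N) * av U r d (fun b => R b * A d b) ∂nullM a N
  set m₂ := ∫ d, wt U r d (ones N) * av U r d (fun b => R b * R b) ∂nullM a N
  have gR : Gd fun d : Dat a N => av U r d R := gd_av_const W r R hRb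
  have gR2 : Gd fun d : Dat a N => av U r d (fun b => R b * R b) := gd_av_const W r _ (B := 1) fun b => by
    rw [abs_mul]; exact mul_le_one₀ (hRb b) (abs_nonneg _) (hRb b)
  have gX : Gd fun d : Dat a N => av U r d (fun b => R b * A d b) :=
    gd_av W r (fun b => (hAm b).const_mul _) (B := 1) fun d b => by
      rw [abs_mul]; exact mul_le_one₀ (hRb b) (abs_nonneg _) (hAb d b)
  have gA : Gd fun d : Dat a N => av U r d (A d) := gd_av W r hAm hAb
  have hR1 : ∫ d, wt U r d (ones N) * av U r d R ∂nullM a N = q := planted_qv W r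
  have hA1 : ∫ d, wt U r d (ones N) * av U r d (A d) ∂nullM a N = q := planted_qv' W r
  have h1 : ∫ d, wt U r d (ones N) ∂nullM a N = 1 := integral_wt W hr hN
  have hvr : vr U a N r = m₂ - q ^ 2 := by
    rw [← planted_vr W]
    have e : ∀ d : Dat a N, wt U r d (ones N) * av U r d (fun b => (ovl (ones N) b - qv U a N r) ^ 2)
        = wt U r d (ones N) * av U r d (fun b => R b * R b) - 2 * q * (wt U r d (ones N) * av U r d R)
          + q ^ 2 * wt U r d (ones N) := fun d => by
      have : (fun b => (ovl (ones N) b - qv U a N r) ^ 2) = fun b => (R b * R b - 2 * q * R b) + q ^ 2 := by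
        funext b; simp only [R, ← hqdef]; ring
      rw [this, av_add, av_sub, av_mul, av_const W]; ring
    simp_rw [e]
    rw [integral_add ?_ ((gd_wt W r _).integrable.const_mul _), integral_sub (ip gR2) ((ip gR).const_mul _),
      integral_const_mul, integral_const_mul, hR1, h1]
    · ring
    · exact (ip gR2).sub ((ip gR).const_mul _)
  -- the cross term
  have hX : X - q ^ 2 ≤ vr U a N r := by
    set Q2 : Dat a N → ℝ := fun d => av U r d (fun b => av U r d (fun b' => (ovl b b' - q) ^ 2))
    have gQ2 : Gd Q2 := gd_av W r (fun b => measurable_av_const W r _) (B := 4) fun d b =>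
      abs_av_le W r d fun b' => by
        rw [abs_pow, show (4 : ℝ) = 2 ^ 2 by norm_num]
        refine pow_le_pow_left₀ (abs_nonneg _) ((abs_sub _ _).trans ?_) 2
        rw [abs_of_nonneg hq.1]; linarith [abs_ovl_le b b', hq.2]
    have hQ2 : ∫ d, wt U r d (ones N) * Q2 d ∂nullM a N = vr U a N r := by
      rw [planted_eq' W r gQ2 fun s d => ?_]
      · rfl
      simp only [Q2]
      rw [← av_act r s d fun b => av U r d (fun b' => (ovl b b' - q) ^ 2)]
      congr 1
      funext b
      rw [← av_act r s d fun b' => (ovl (xr b s) b' - q) ^ 2]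
      congr 1
      funext b'
      rw [ovl_xr]
    have gV : Gd fun d : Dat a N => av U r d (fun b => (R b - q) ^ 2) := gd_av_const W r _ (B := 4) fun b => by
      rw [abs_pow, show (4 : ℝ) = 2 ^ 2 by norm_num]
      exact pow_le_pow_left₀ (abs_nonneg _) (hRq b) 2
    have hpt : ∀ d : Dat a N, av U r d (fun b => R b * A d b) - q * av U r d R - q * av U r d (A d) + q ^ 2
        ≤ (av U r d (fun b => (R b - q) ^ 2) + Q2 d) / 2 := fun d => by
      have e : av U r d (fun b => R b * A d b) - q * av U r d R - q * av U r d (A d) + q ^ 2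
          = av U r d (fun b => ((R b * A d b - q * R b) - q * A d b) + q ^ 2) := by
        rw [av_add, av_sub, av_sub, av_mul, av_mul, av_const W]
      rw [e, ← av_add, show ∀ x : ℝ, x / 2 = 1 / 2 * x from fun x => by ring, ← av_mul]
      refine av_mono W r d fun b => ?_
      have hj : (A d b - q) ^ 2 ≤ av U r d (fun b' => (ovl b b' - q) ^ 2) := by
        set t := A d b - q with ht
        have hh : av U r d (fun b' => (ovl b b' - q) * (2 * t) - t ^ 2) ≤ av U r d (fun b' => (ovl b b' - q) ^ 2) :=
          av_mono W r d fun b' => by nlinarith [sq_nonneg (ovl b b' - q - t)]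
        rw [av_sub, av_mul_right, av_sub, av_const W, av_const W] at hh
        change (A d b - q) * (2 * t) - t ^ 2 ≤ _ at hh
        rw [← ht] at hh
        linarith
      nlinarith [sq_nonneg ((R b - q) - (A d b - q))]
    have iL : Integrable (fun d => wt U r d (ones N) * av U r d (fun b => R b * A d b)
        - q * (wt U r d (ones N) * av U r d R) - q * (wt U r d (ones N) * av U r d (A d))
        + q ^ 2 * wt U r d (ones N)) (nullM a N) :=
      (((ip gX).sub ((ip gR).const_mul _)).sub ((ip gA).const_mul _)).add ((gd_wt W r _).integrable.const_mul _)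
    have := integral_mono iL (((ip gV).add (ip gQ2)).div_const 2) fun d => by
      have := mul_le_mul_of_nonneg_left (hpt d) (wt_pos W r d (ones N)).le
      simp only [Pi.add_apply]
      linarith
    have j1 : Integrable (fun d => wt U r d (ones N) * av U r d (fun b => R b * A d b)
        - q * (wt U r d (ones N) * av U r d R)) (nullM a N) := (ip gX).sub ((ip gR).const_mul _)
    have j2 : Integrable (fun d => wt U r d (ones N) * av U r d (fun b => R b * A d b)
        - q * (wt U r d (ones N) * av U r d R) - q * (wt U r d (ones N) * av U r d (A d))) (nullM a N) :=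
      j1.sub ((ip gA).const_mul _)
    simp only [Pi.add_apply] at this
    rw [integral_add j2 ((gd_wt W r _).integrable.const_mul _), integral_sub j1 ((ip gA).const_mul _),
      integral_sub (ip gX) ((ip gR).const_mul _), integral_const_mul, integral_const_mul, integral_const_mul,
      hR1, hA1, h1, integral_div, integral_add (ip gV) (ip gQ2), hQ2] at this
    have hV : ∫ d, wt U r d (ones N) * av U r d (fun b => (R b - q) ^ 2) ∂nullM a N = vr U a N r :=
      planted_vr W r
    rw [hV] at this
    linarith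
  -- planted coordinates
  have gsh : ∀ {k : Cfg N → ℝ} {B : ℝ}, (∀ b, |k b| ≤ B) → Gd fun d : Dat a N => av U r (sh r d) k :=
    fun {k B} hk => Gd.of_bdd ((measurable_av_const W r k).comp (measurable_sh r)) fun d => abs_av_le W r _ hk
  have gl : ∀ {k : Cfg N → ℝ} {B : ℝ}, (∀ b, |k b| ≤ B) →
      Gd fun d : Dat a N => av U r (sh r d) (fun b => lin d.2 b * k b) := fun {k B} hk => by
    obtain ⟨_, K, c₀, hK, hc₀, hb⟩ := (Gd.absSum_snd (a := a) (N := N)).mul (Gd.const |B|)
    refine ⟨?_, K, c₀, hK, hc₀, fun d => (abs_av_le W r _ fun b => ?_).trans ((le_abs_self _).trans (hb d))⟩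
    · unfold av
      refine Measurable.div ((Finset.measurable_sum _ fun b _ => ?_).const_mul _)
        ((measurable_lik W r).comp (measurable_sh r))
      exact ((measurable_wt W r b).comp (measurable_sh r)).mul (by unfold lin; fun_prop)
    · rw [abs_mul]
      exact mul_le_mul (abs_lin_le _ _) ((hk b).trans (le_abs_self _)) (abs_nonneg _) (absSum_nonneg _)
  have hP1 : ∫ d : Dat a N, patW U d.1 (ones N) ∂nullM a N = 1 := by
    rw [nullM, integral_fun_fst (fun g => patW U g (ones N)), integral_patW W _ hN]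
    simp
  have hsR := planted_shift W hr gR
  have hsR2 := planted_shift W hr gR2
  rw [hR1] at hsR
  have h1b : ∀ _b : Cfg N, |(1 : ℝ)| ≤ 1 := fun _ => (abs_one).le
  have hR2b : ∀ b, |R b * R b| ≤ 1 := fun b => by
    rw [abs_mul]; exact mul_le_one₀ (hRb b) (abs_nonneg _) (hRb b)
  have iR := ((gd_patW W).mul (gsh hRb)).integrable
  have iR2 := ((gd_patW W).mul (gsh hR2b)).integrable
  have il1 := ((gd_patW W).mul (gl h1b)).integrable
  have ilR := ((gd_patW W).mul (gl hRb)).integrable
  have iP := (gd_patW (a := a) (N := N) W).integrable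
  have hcov : ∫ d, patW U d.1 (ones N) * av U r (sh r d) (fun b => (fdStat c d.2 b - μ) * (R b - q)) ∂nullM a N
      = N * vr U a N r - c * Real.sqrt r * N * (X - q ^ 2) := by
    have e : ∀ d : Dat a N, patW U d.1 (ones N) * av U r (sh r d) (fun b => (fdStat c d.2 b - μ) * (R b - q))
        = N * (patW U d.1 (ones N) * av U r (sh r d) (fun b => R b * R b))
          + (-(N * q) - (N / 2 + μ)) * (patW U d.1 (ones N) * av U r (sh r d) R)
          + c * (patW U d.1 (ones N) * av U r (sh r d) (fun b => lin d.2 b * R b))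
          + -(c * q) * (patW U d.1 (ones N) * av U r (sh r d) (fun b => lin d.2 b * 1))
          + (N / 2 + μ) * q * patW U d.1 (ones N) := fun d => by
      have : (fun b => (fdStat c d.2 b - μ) * (R b - q)) = fun b => ((((N : ℝ) * (R b * R b)
          + (-(N * q) - (N / 2 + μ)) * R b) + c * (lin d.2 b * R b)) + -(c * q) * (lin d.2 b * 1))
          + (N / 2 + μ) * q := by
        funext b; simp only [fdStat, R]; ring
      rw [this, av_add, av_add, av_add, av_add, av_mul, av_mul, av_mul, av_mul, av_const W]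
      ring
    simp_rw [e]
    rw [integral_add, integral_add, integral_add, integral_add (iR2.const_mul _) (iR.const_mul _),
      integral_const_mul, integral_const_mul, integral_const_mul, integral_const_mul, integral_const_mul,
      ibp W hr hN R, ibp W hr hN (fun _ => 1), ← hsR2, ← hsR, hR1, hP1, hvr]
    · simp only [one_mul, av_const W, mul_one, h1]
      rw [show (∫ d, wt U r d (ones N) * av U r d (fun b => av U r d fun b' => ovl b b') ∂nullM a N) = q from hA1]
      ring
    · exact (iR2.const_mul _).add (iR.const_mul _)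
    · exact ilR.const_mul _
    · exact ((iR2.const_mul _).add (iR.const_mul _)).add (ilR.const_mul _)
    · exact il1.const_mul _
    · exact (((iR2.const_mul _).add (iR.const_mul _)).add (ilR.const_mul _)).add (il1.const_mul _)
    · exact iP.const_mul _
  have hvr0 : 0 ≤ vr U a N r := integral_nonneg fun d => mul_nonneg (lik_pos W r d).le
    ((av_const W r d 0).symm.trans_le (av_mono W r d fun b => (av_const W r d 0).symm.trans_le
      (av_mono W r d fun b' => sq_nonneg _)))
  have hlow : (N : ℝ) * vr U a N r / 2 ≤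
      ∫ d, patW U d.1 (ones N) * av U r (sh r d) (fun b => (fdStat c d.2 b - μ) * (R b - q)) ∂nullM a N := by
    rw [hcov]
    have h4 := mul_le_mul_of_nonneg_left hX (show 0 ≤ c * Real.sqrt r * N by positivity)
    have h5 := mul_le_mul_of_nonneg_right (mul_le_mul_of_nonneg_right hcr (Nat.cast_nonneg (α := ℝ) N)) hvr0
    linarith
  refine hlow.trans ?_
  have gabs : Gd fun d : Dat a N => av U r (sh r d) (fun b => |fdStat c d.2 b - μ|) := by
    obtain ⟨_, K, c₀, hK, hc₀, hb⟩ := (Gd.const (a := a) (N := N) (2 * N + |μ|)).add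
      ((Gd.const c).mul Gd.absSum_snd)
    refine ⟨?_, K, c₀, hK, hc₀, fun d => (abs_av_le W r _ fun b => ?_).trans ((le_abs_self _).trans (hb d))⟩
    · unfold av
      refine Measurable.div ((Finset.measurable_sum _ fun b _ => ?_).const_mul _)
        ((measurable_lik W r).comp (measurable_sh r))
      exact ((measurable_wt W r b).comp (measurable_sh r)).mul (by unfold fdStat lin; fun_prop)
    · rw [abs_abs]
      have h2 := abs_ovl_mul_le b
      have h3 := mul_le_mul_of_nonneg_left (abs_lin_le d.2 b) hc
      rw [← abs_of_nonneg hc, ← abs_mul, abs_of_nonneg hc] at h3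
      have h4 := abs_sub ((N : ℝ) * ovl (ones N) b + c * lin d.2 b - N / 2) μ
      have h5 := abs_sub ((N : ℝ) * ovl (ones N) b + c * lin d.2 b) (N / 2)
      have h6 := abs_add_le ((N : ℝ) * ovl (ones N) b) (c * lin d.2 b)
      rw [abs_of_nonneg (by positivity : (0 : ℝ) ≤ N / 2)] at h5
      simp only [fdStat]
      linarith
  rw [← integral_const_mul]
  refine integral_mono ?_ (((gd_patW W).mul gabs).integrable.const_mul _) fun d => ?_
  · obtain ⟨hm', K, c₀, hK, hc₀, hb⟩ := gabs.mul (Gd.const 2)
    refine ((gd_patW W).mul ⟨?_, K, c₀, hK, hc₀, fun d => le_trans ?_ (hb d)⟩).integrable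
    · unfold av
      refine Measurable.div ((Finset.measurable_sum _ fun b _ => ?_).const_mul _)
        ((measurable_lik W r).comp (measurable_sh r))
      exact ((measurable_wt W r b).comp (measurable_sh r)).mul (by unfold fdStat lin; fun_prop)
    · refine le_trans ?_ (le_abs_self _)
      simp only
      rw [← av_mul_right, abs_le]
      constructor
      · rw [neg_le, show -(av U r (sh r d) fun b => (fdStat c d.2 b - μ) * (R b - q))
          = av U r (sh r d) (fun b => -1 * ((fdStat c d.2 b - μ) * (R b - q))) by rw [av_mul]; ring]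
        refine av_mono W r _ fun b => (le_abs_self _).trans ?_
        rw [abs_mul, abs_mul, abs_neg, abs_one, one_mul]
        exact mul_le_mul_of_nonneg_left (hRq b) (abs_nonneg _)
      · refine av_mono W r _ fun b => (le_abs_self _).trans ?_
        rw [abs_mul]
        exact mul_le_mul_of_nonneg_left (hRq b) (abs_nonneg _)
  · rw [mul_left_comm (2 : ℝ), ← av_mul r (sh r d) (2 : ℝ)]
    refine mul_le_mul_of_nonneg_left (av_mono W r _ fun b => (le_abs_self _).trans ?_) (patW_pos W _ _).le
    rw [abs_mul, mul_comm (2 : ℝ)]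
    exact mul_le_mul_of_nonneg_left (hRq b) (abs_nonneg _)

/-- The averaged concentration bound. -/
theorem vr_bound (W : Wgt U C) {r δ : ℝ} (hδ : 0 < δ) (hδr : δ < r) (hN : 0 < N) :
    N * δ * vr U a N r ≤ 8 * Real.log 2
      + 4 * (8 * Real.sqrt (N * (r + δ)) + 8 * Real.sqrt (a * Real.log C ^ 2))
      + 2 * N * δ * (qv U a N (r + δ) - qv U a N (r - δ))
      + 4 * δ * N * |1 / (Real.sqrt (r + δ) + Real.sqrt r) - 1 / (Real.sqrt (r - δ) + Real.sqrt r)| := by
  have hr : 0 < r := hδ.trans hδr
  set c := 1 / (Real.sqrt (r + δ) + Real.sqrt r)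
  set Dp := Jt U a N (r + δ) - Jt U a N r
  set Dm := Jt U a N (r - δ) - Jt U a N r
  set κ := |c - 1 / (Real.sqrt (r - δ) + Real.sqrt r)|
  have hc : 0 ≤ c := by positivity
  have hcr : c * Real.sqrt r ≤ 1 / 2 := by
    have h1 : Real.sqrt r ≤ Real.sqrt (r + δ) := Real.sqrt_le_sqrt (by linarith)
    have h2 : 0 < Real.sqrt r := Real.sqrt_pos.2 hr
    simp only [c]
    rw [div_mul_eq_mul_div, one_mul, div_le_iff₀ (by positivity)]
    linarith
  have h := mul_le_mul_of_nonneg_left (vr_le_spread (a := a) W hr.le hN hc hcr (Dp / δ)) hδ.le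
  have hD : max (Dp + Dm) 0 ≤ N * δ / 2 * (qv U a N (r + δ) - qv U a N (r - δ)) := by
    have h1 := (Jt_slope (a := a) W hN hr.le (show r ≤ r + δ by linarith)).2
    have h2 := (Jt_slope (a := a) W hN (show 0 ≤ r - δ by linarith) (show r - δ ≤ r by linarith)).1
    have h3 := qv_mono (a := a) W hN (show 0 ≤ r - δ by linarith) (show r - δ ≤ r + δ by linarith)
    refine max_le ?_ (mul_nonneg (by positivity) (sub_nonneg.2 h3))
    simp only [Dp, Dm]
    linarith
  have gdev : ∀ s, Gd fun d : Dat a N => |fe U s d - Jt U a N s| := fun s => by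
    obtain ⟨hm, K, c₀, hK, hc₀, hb⟩ := (gd_fe (a := a) (N := N) W s).sub (Gd.const (Jt U a N s))
    exact ⟨hm.abs, K, c₀, hK, hc₀, fun d => by rw [abs_abs]; exact hb d⟩
  set B0 := 2 * Real.log 2 + max (Dp + Dm) 0
  have hkey : δ * ∫ d, patW U d.1 (ones N) * av U r (sh r d) (fun b => |fdStat c d.2 b - Dp / δ|) ∂nullM a N
      ≤ ∫ d, (B0 * patW U d.1 (ones N) + patW U d.1 (ones N) * |fe U (r + δ) d - Jt U a N (r + δ)|
          + patW U d.1 (ones N) * |fe U (r - δ) d - Jt U a N (r - δ)|
          + 2 * (patW U d.1 (ones N) * |fe U r d - Jt U a N r|)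
          + δ * κ * (patW U d.1 (ones N) * absSum d.2)) ∂nullM a N := by
    rw [← integral_const_mul]
    refine integral_mono_of_nonneg (ae_of_all _ fun d => ?_) ?_ (ae_of_all _ fun d => ?_)
    · exact mul_nonneg hδ.le (mul_nonneg (patW_pos W _ _).le
        ((av_const W r _ 0).symm.trans_le (av_mono W r _ fun b => abs_nonneg _)))
    · exact (((((gd_patW W).integrable.const_mul _).fun_add ((gd_patW W).mul (gdev _)).integrable).fun_add
        ((gd_patW W).mul (gdev _)).integrable).fun_add (((gd_patW W).mul (gdev _)).integrable.const_mul _)).fun_add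
        (((gd_patW W).mul Gd.absSum_snd).integrable.const_mul _)
    · dsimp only
      have hs := spread_le W hδ hδr d Dp Dm
      have t1 : |fe U (r + δ) d - fe U r d - Dp| ≤ |fe U (r + δ) d - Jt U a N (r + δ)| + |fe U r d - Jt U a N r| := by
        rw [show fe U (r + δ) d - fe U r d - Dp = (fe U (r + δ) d - Jt U a N (r + δ)) - (fe U r d - Jt U a N r) by
          simp only [Dp]; ring]
        exact abs_sub _ _
      have t2 : |fe U (r - δ) d - fe U r d - Dm| ≤ |fe U (r - δ) d - Jt U a N (r - δ)| + |fe U r d - Jt U a N r| := by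
        rw [show fe U (r - δ) d - fe U r d - Dm = (fe U (r - δ) d - Jt U a N (r - δ)) - (fe U r d - Jt U a N r) by
          simp only [Dm]; ring]
        exact abs_sub _ _
      rw [mul_left_comm]
      have t3 := hs.trans (show _ ≤ B0 + |fe U (r + δ) d - Jt U a N (r + δ)| + |fe U (r - δ) d - Jt U a N (r - δ)|
            + 2 * |fe U r d - Jt U a N r| + δ * (κ * absSum d.2) by simp only [B0, κ, c]; linarith)
      refine (mul_le_mul_of_nonneg_left t3 (patW_pos W d.1 (ones N)).le).trans (le_of_eq ?_)
      ring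
  have i0 := (gd_patW (a := a) (N := N) W).integrable.const_mul B0
  have i1 := ((gd_patW W).mul (gdev (r + δ))).integrable
  have i2 := ((gd_patW W).mul (gdev (r - δ))).integrable
  have i3 := (((gd_patW W).mul (gdev r)).integrable).const_mul 2
  have i4 := (((gd_patW (a := a) (N := N) W).mul Gd.absSum_snd).integrable).const_mul (δ * κ)
  rw [integral_add (((i0.fun_add i1).fun_add i2).fun_add i3) i4, integral_add ((i0.fun_add i1).fun_add i2) i3,
    integral_add (i0.fun_add i1) i2, integral_add i0 i1, integral_const_mul, integral_const_mul, integral_const_mul]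
    at hkey
  have hP1 : ∫ d : Dat a N, patW U d.1 (ones N) ∂nullM a N = 1 := by
    rw [nullM, integral_fun_fst (fun g => patW U g (ones N)), integral_patW W _ hN]
    simp
  have hS : ∫ d : Dat a N, patW U d.1 (ones N) * absSum d.2 ∂nullM a N ≤ N := by
    rw [nullM, integral_prod_mul (fun g => patW U g (ones N)) absSum, integral_patW W _ hN, one_mul]
    exact integral_absSum_le
  have hmono : ∀ {s}, s ≤ r + δ → 2 * Real.sqrt (N * s) ≤ 2 * Real.sqrt (N * (r + δ)) := fun hs =>
    mul_le_mul_of_nonneg_left (Real.sqrt_le_sqrt (mul_le_mul_of_nonneg_left hs (Nat.cast_nonneg N))) (by norm_num)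
  have f1 := fe_dev (a := a) W (show 0 ≤ r + δ by linarith) hN
  have f2 := (fe_dev (a := a) W (show 0 ≤ r - δ by linarith) hN).trans (add_le_add (hmono (show r - δ ≤ r + δ by linarith)) le_rfl)
  have f3 := (fe_dev (a := a) W hr.le hN).trans (add_le_add (hmono (show r ≤ r + δ by linarith)) le_rfl)
  rw [hP1, mul_one] at hkey
  have h6 := mul_le_mul_of_nonneg_left hS (show 0 ≤ δ * κ from mul_nonneg hδ.le (abs_nonneg _))
  simp only [B0] at hkey
  linarith

end Vale.Agent.P157.Plant
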