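import Mathlib.Probability.Distributions.Gaussian.Real
import Mathlib.Analysis.SpecialFunctions.Log.Basic
import Mathlib.Analysis.Complex.Trigonometric

/-!
The two scalar functions that decide whether the pressure equals the annealed value.
-/

open MeasureTheory ProbabilityTheory

namespace Vale.Agent.P157.Plant

/-- The annealed pressure per pattern, `log E e^{f(G)}`. -/
noncomputable def annealedLog (f : ℝ → ℝ) : ℝ :=
  Real.log (∫ z, Real.exp (f z) ∂gaussianReal 0 1)

/-- The weight `e^f` normalised to Gaussian mean one. -/
noncomputable def reweight (f : ℝ → ℝ) (x : ℝ) : ℝ :=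
  Real.exp (f x) / ∫ z, Real.exp (f z) ∂gaussianReal 0 1

/-- The weight seen through overlap `q`: the average over the independent part of the field. -/
noncomputable def smooth (U : ℝ → ℝ) (q z : ℝ) : ℝ :=
  ∫ w, U (Real.sqrt q * z + Real.sqrt (1 - q) * w) ∂gaussianReal 0 1

/-- The entropy carried by one pattern at overlap `q`, `E [W log W]` with `W = smooth U q Z`. -/
noncomputable def plantEnt (U : ℝ → ℝ) (q : ℝ) : ℝ :=
  ∫ z, smooth U q z * Real.log (smooth U q z) ∂gaussianReal 0 1

/-- The entropy of the scalar channel `r + √r Z` with a uniform sign as input. -/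
noncomputable def cubeInfo (r : ℝ) : ℝ :=
  (∫ z, Real.log (Real.cosh (r + Real.sqrt r * z)) ∂gaussianReal 0 1) - r / 2

end Vale.Agent.P157.Plant
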