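import Vale.Agent.P157.Moments
import Mathlib.Probability.Distributions.Gaussian.Multivariate
import Mathlib.MeasureTheory.Measure.LevyConvergence
import Mathlib.MeasureTheory.Function.ContinuousMapDense
import Mathlib.Topology.Sequences

/-!
The expectation of a product of bounded Borel functions of jointly Gaussian unit forms depends
continuously, uniformly in the dimension, on the Gram matrix of the forms.
-/

open MeasureTheory ProbabilityTheory Filter Topology Complex
open scoped BigOperators RealInnerProductSpace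

namespace Vale.Agent.P157.Plant

/-- Expectation of the product of `h` at the forms given by the vectors `u`. -/
noncomputable def prodMean (h : ℝ → ℝ) {n : ℕ} {ι : Type*} [Fintype ι] (u : Fin n → ι → ℝ) : ℝ :=
  ∫ g, ∏ k, h (∑ i, g i * u k i) ∂gaussVec ι

lemma abs_prod_sub_prod {n : ℕ} (a b : Fin n → ℝ) {C : ℝ} (hC : 1 ≤ C) (ha : ∀ k, |a k| ≤ C)
    (hb : ∀ k, |b k| ≤ C) : |∏ k, a k - ∏ k, b k| ≤ C ^ n * ∑ k, |a k - b k| := by
  induction n with
  | zero => simp
  | succ n ih =>
    rw [Fin.prod_univ_succ, Fin.prod_univ_succ, Fin.sum_univ_succ]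
    have h1 : |∏ k : Fin n, a k.succ - ∏ k : Fin n, b k.succ| ≤ C ^ n * ∑ k : Fin n, |a k.succ - b k.succ| :=
      ih _ _ (fun k => ha _) fun k => hb _
    have h2 : |∏ k : Fin n, a k.succ| ≤ C ^ n := by
      rw [Finset.abs_prod]
      refine (Finset.prod_le_prod (fun k _ => abs_nonneg _) fun k _ => ha _).trans ?_
      simp
    have h0 : 0 ≤ C := by linarith
    calc |a 0 * ∏ k : Fin n, a k.succ - b 0 * ∏ k : Fin n, b k.succ|
        = |(a 0 - b 0) * ∏ k : Fin n, a k.succ + b 0 * (∏ k : Fin n, a k.succ - ∏ k : Fin n, b k.succ)| := by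
          ring_nf
      _ ≤ |a 0 - b 0| * C ^ n + C * (C ^ n * ∑ k : Fin n, |a k.succ - b k.succ|) := by
          refine (abs_add_le _ _).trans (add_le_add ?_ ?_) <;> rw [abs_mul]
          · exact mul_le_mul_of_nonneg_left h2 (abs_nonneg _)
          · exact mul_le_mul (hb 0) h1 (abs_nonneg _) h0
      _ ≤ C ^ (n + 1) * |a 0 - b 0| + C ^ (n + 1) * ∑ k : Fin n, |a k.succ - b k.succ| := by
          refine add_le_add ?_ (le_of_eq (by ring))
          rw [mul_comm]
          exact mul_le_mul_of_nonneg_right (pow_le_pow_right₀ hC (by omega)) (abs_nonneg _)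
      _ = _ := by ring

variable {n : ℕ}

lemma unit_form {ι : Type*} [Fintype ι] {u : ι → ℝ} (hu : ∑ i, u i ^ 2 = 1) {F : ℝ → ℝ}
    (hF : Measurable F) : ∫ g, F (∑ i, g i * u i) ∂gaussVec ι = ∫ z, F z ∂gaussianReal 0 1 := by
  rw [integral_linear u hF, hu, Real.sqrt_one]
  simp

lemma abs_prodMean_sub {ι : Type*} [Fintype ι] {u : Fin n → ι → ℝ} (hu : ∀ k, ∑ i, u k i ^ 2 = 1)
    {f h : ℝ → ℝ} (hf : Measurable f) (hh : Measurable h) {C : ℝ} (hC : 1 ≤ C)
    (bf : ∀ x, |f x| ≤ C) (bh : ∀ x, |h x| ≤ C) :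
    |prodMean f u - prodMean h u| ≤ C ^ n * (n * ∫ z, |f z - h z| ∂gaussianReal 0 1) := by
  have hprod : ∀ {F : ℝ → ℝ}, Measurable F → (∀ x, |F x| ≤ C) →
      Integrable (fun g : ι → ℝ => ∏ k, F (∑ i, g i * u k i)) (gaussVec ι) := fun {F} hF hb =>
    Integrable.of_bound (Finset.measurable_prod _ fun k _ => hF.comp (measurable_linear _)).aestronglyMeasurable
      (∏ _k : Fin n, C) (ae_of_all _ fun g => by
        rw [Real.norm_eq_abs, Finset.abs_prod]
        exact Finset.prod_le_prod (fun _ _ => abs_nonneg _) fun k _ => hb _)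
  have hd : ∀ k, Integrable (fun g : ι → ℝ => |f (∑ i, g i * u k i) - h (∑ i, g i * u k i)|) (gaussVec ι) :=
    fun k => Integrable.of_bound
      (((hf.sub hh).comp (measurable_linear _)).abs).aestronglyMeasurable (2 * C)
      (ae_of_all _ fun g => by
        rw [Real.norm_eq_abs, abs_abs]
        exact (abs_sub _ _).trans (by linarith [bf (∑ i, g i * u k i), bh (∑ i, g i * u k i)]))
  unfold prodMean
  rw [← integral_sub (hprod hf bf) (hprod hh bh)]
  refine (abs_integral_le_integral_abs).trans ((integral_mono ((hprod hf bf).sub (hprod hh bh)).abs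
    ((integrable_finsetSum _ fun k _ => hd k).const_mul _) fun g =>
      abs_prod_sub_prod _ _ hC (fun k => bf _) fun k => bh _).trans (le_of_eq ?_))
  rw [integral_const_mul, integral_finsetSum _ fun k _ => hd k]
  simp_rw [fun k => unit_form (hu k) (F := fun y => |f y - h y|) ((hf.sub hh).abs)]
  simp

/-- The law on Euclidean space of the forms given by `u`. -/
noncomputable def formLaw {ι : Type*} [Fintype ι] (u : Fin n → ι → ℝ) :
    ProbabilityMeasure (EuclideanSpace ℝ (Fin n)) :=
  ⟨(gaussVec ι).map fun g => WithLp.toLp 2 fun k => ∑ i, g i * u k i,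
    Measure.isProbabilityMeasure_map (Measurable.aemeasurable (by fun_prop))⟩

lemma charFun_formLaw {ι : Type*} [Fintype ι] (u : Fin n → ι → ℝ) (t : EuclideanSpace ℝ (Fin n)) :
    charFun (formLaw u : Measure (EuclideanSpace ℝ (Fin n))) t
      = (Real.exp (-(∑ k, ∑ l, t k * t l * ∑ i, u k i * u l i) / 2) : ℂ) := by
  simp only [formLaw, ProbabilityMeasure.coe_mk]
  rw [charFun_apply, integral_map (Measurable.aemeasurable (by fun_prop)) (Continuous.aestronglyMeasurable (by fun_prop))]
  have e : ∀ g : ι → ℝ, ⟪(WithLp.toLp 2 fun k => ∑ i, g i * u k i : EuclideanSpace ℝ (Fin n)), t⟫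
      = ∑ i, g i * ∑ k, t k * u k i := fun g => by
    simp only [PiLp.inner_apply, RCLike.inner_apply, starRingEnd_apply, star_trivial, Finset.mul_sum]
    rw [Finset.sum_comm]
    exact Finset.sum_congr rfl fun i _ => Finset.sum_congr rfl fun k _ => by ring
  simp_rw [e]
  rw [gauss_cexp]
  congr 4
  simp only [sq, Finset.sum_mul, Finset.mul_sum]
  rw [Finset.sum_comm]
  refine Finset.sum_congr rfl fun k _ => ?_
  rw [Finset.sum_comm]
  exact Finset.sum_congr rfl fun l _ => Finset.sum_congr rfl fun i _ => by ring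

lemma prodMean_eq_formLaw {ι : Type*} [Fintype ι] (u : Fin n → ι → ℝ) {h : ℝ → ℝ} (hh : Continuous h) :
    prodMean h u = ∫ x, ∏ k, h (x k) ∂(formLaw u : Measure (EuclideanSpace ℝ (Fin n))) := by
  simp only [formLaw, ProbabilityMeasure.coe_mk]
  rw [integral_map (Measurable.aemeasurable (by fun_prop)) (Continuous.aestronglyMeasurable (by fun_prop))]
  rfl

lemma gram_continuity_cont {h : ℝ → ℝ} (hh : Continuous h) {C : ℝ} (bh : ∀ x, |h x| ≤ C) (n : ℕ)
    {ε : ℝ} (hε : 0 < ε) : ∃ δ > 0, ∀ (m₁ m₂ : ℕ) (u : Fin n → Fin m₁ → ℝ) (v : Fin n → Fin m₂ → ℝ),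
      (∀ k, ∑ i, u k i ^ 2 = 1) → (∀ k, ∑ i, v k i ^ 2 = 1) →
      (∀ k l, |∑ i, u k i * u l i - ∑ i, v k i * v l i| ≤ δ) →
      |prodMean h u - prodMean h v| ≤ ε := by
  by_contra hcon
  push Not at hcon
  choose m₁ m₂ u v hu hv hd hbad using fun j : ℕ => hcon (1 / ((j : ℝ) + 1)) (by positivity)
  set R : ℕ → Fin n → Fin n → ℝ := fun j k l => ∑ i, u j k i * u j l i
  have hR : ∀ j, R j ∈ Set.pi Set.univ (fun _ : Fin n => Set.pi Set.univ fun _ : Fin n => Set.Icc (-1 : ℝ) 1) := by
    intro j k _ l _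
    rw [Set.mem_Icc, ← abs_le, ← sq_le_one_iff_abs_le_one]
    simpa [hu j k, hu j l, R] using Finset.sum_mul_sq_le_sq_mul_sq Finset.univ (u j k) (u j l)
  obtain ⟨S, -, φ, hφ, hlim⟩ :=
    (isCompact_univ_pi fun _ => isCompact_univ_pi fun _ => isCompact_Icc).tendsto_subseq hR
  have hkl : ∀ k l, Tendsto (fun j => R (φ j) k l) atTop (𝓝 (S k l)) := fun k l =>
    tendsto_pi_nhds.1 (tendsto_pi_nhds.1 hlim k) l
  have hkl' : ∀ k l, Tendsto (fun j => ∑ i, v (φ j) k i * v (φ j) l i) atTop (𝓝 (S k l)) := fun k l => by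
    have h0 : Tendsto (fun j => R (φ j) k l - ∑ i, v (φ j) k i * v (φ j) l i) atTop (𝓝 0) :=
      squeeze_zero_norm (fun j => hd (φ j) k l)
        ((tendsto_one_div_add_atTop_nhds_zero_nat).comp hφ.tendsto_atTop)
    simpa using (hkl k l).sub h0
  have hS : (Matrix.of S).PosSemidef := by
    refine Matrix.PosSemidef.of_dotProduct_mulVec_nonneg ?_ fun x => ?_
    · ext k l
      simp only [Matrix.conjTranspose_apply, Matrix.of_apply, star_trivial]
      exact tendsto_nhds_unique (hkl l k) ((hkl k l).congr fun j =>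
        Finset.sum_congr rfl fun i _ => mul_comm _ _)
    · have ht : Tendsto (fun j => ∑ k, ∑ l, x k * (R (φ j) k l * x l)) atTop
          (𝓝 (∑ k, ∑ l, x k * (S k l * x l))) :=
        tendsto_finsetSum _ fun k _ => tendsto_finsetSum _ fun l _ =>
          ((hkl k l).mul_const _).const_mul _
      simp only [star_trivial, dotProduct, Matrix.mulVec, Matrix.of_apply, Finset.mul_sum]
      refine ge_of_tendsto' ht fun j => ?_
      have : ∑ k, ∑ l, x k * (R (φ j) k l * x l) = ∑ i, (∑ k, x k * u (φ j) k i) ^ 2 := by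
        simp only [R, sq, Finset.sum_mul, Finset.mul_sum]
        rw [eq_comm, Finset.sum_comm]
        refine Finset.sum_congr rfl fun k _ => ?_
        rw [Finset.sum_comm]
        exact Finset.sum_congr rfl fun l _ => Finset.sum_congr rfl fun i _ => by ring
      rw [this]
      exact Finset.sum_nonneg fun i _ => sq_nonneg _
  set γS : ProbabilityMeasure (EuclideanSpace ℝ (Fin n)) :=
    ⟨multivariateGaussian 0 (Matrix.of S), inferInstance⟩
  have hcf : ∀ t : EuclideanSpace ℝ (Fin n), charFun (γS : Measure (EuclideanSpace ℝ (Fin n))) t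
      = (Real.exp (-(∑ k, ∑ l, t k * t l * S k l) / 2) : ℂ) := fun t => by
    simp only [γS, ProbabilityMeasure.coe_mk, charFun_multivariateGaussian hS, inner_zero_right]
    rw [Complex.ofReal_exp]
    congr 1
    simp only [dotProduct, Matrix.mulVec, Matrix.of_apply, Finset.mul_sum]
    push_cast
    simp only [zero_mul, zero_sub, neg_div]
    congr 2
    exact Finset.sum_congr rfl fun k _ => Finset.sum_congr rfl fun l _ => by ring
  have key : ∀ {m : ℕ → ℕ} (w : ∀ j, Fin n → Fin (m j) → ℝ),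
      (∀ k l, Tendsto (fun j => ∑ i, w j k i * w j l i) atTop (𝓝 (S k l))) →
      Tendsto (fun j => prodMean h (w j)) atTop (𝓝 (∫ x, ∏ k, h (x k) ∂(γS : Measure (EuclideanSpace ℝ (Fin n))))) := by
    intro m w hw
    have hlaw : Tendsto (fun j => formLaw (w j)) atTop (𝓝 γS) := by
      refine ProbabilityMeasure.tendsto_of_tendsto_charFun fun t => ?_
      simp only [hcf, charFun_formLaw]
      refine (Complex.continuous_ofReal.tendsto _).comp ((Real.continuous_exp.tendsto _).comp
        (Tendsto.div_const ?_ _))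
      exact (tendsto_finsetSum _ fun k _ => tendsto_finsetSum _ fun l _ => (hw k l).const_mul _).neg
    let P : BoundedContinuousFunction (EuclideanSpace ℝ (Fin n)) ℝ :=
      BoundedContinuousFunction.ofNormedAddCommGroup (fun x => ∏ k, h (x k)) (by fun_prop)
        (∏ _k : Fin n, C) fun x => by
          rw [Real.norm_eq_abs, Finset.abs_prod]
          exact Finset.prod_le_prod (fun _ _ => abs_nonneg _) fun k _ => bh _
    have := ProbabilityMeasure.tendsto_iff_forall_integral_tendsto.1 hlaw P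
    exact this.congr fun j => (prodMean_eq_formLaw (w j) hh).symm
  have h0 : Tendsto (fun j => |prodMean h (u (φ j)) - prodMean h (v (φ j))|) atTop (𝓝 0) := by
    simpa using ((key (fun j => u (φ j)) hkl).sub (key (fun j => v (φ j)) hkl')).abs
  exact absurd (ge_of_tendsto' h0 fun j => (hbad (φ j)).le) (by linarith)

theorem gram_continuity {U : ℝ → ℝ} (hU : Measurable U) {C : ℝ} (hC : 1 ≤ C) (bU : ∀ x, |U x| ≤ C)
    (n : ℕ) {ε : ℝ} (hε : 0 < ε) : ∃ δ > 0, ∀ (m₁ m₂ : ℕ) (u : Fin n → Fin m₁ → ℝ) (v : Fin n → Fin m₂ → ℝ),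
      (∀ k, ∑ i, u k i ^ 2 = 1) → (∀ k, ∑ i, v k i ^ 2 = 1) →
      (∀ k l, |∑ i, u k i * u l i - ∑ i, v k i * v l i| ≤ δ) →
      |prodMean U u - prodMean U v| ≤ ε := by
  set η := ε / (4 * C ^ n * (n + 1))
  have hη : 0 < η := by positivity
  have hUi : Integrable U (gaussianReal 0 1) :=
    Integrable.of_bound hU.aestronglyMeasurable C (ae_of_all _ bU)
  obtain ⟨g, hg, hgi⟩ := hUi.exists_boundedContinuous_integral_sub_le hη
  set h : ℝ → ℝ := fun x => max (-C) (min C (g x))
  have hh : Continuous h := by fun_prop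
  have bh : ∀ x, |h x| ≤ C := fun x =>
    abs_le.2 ⟨le_max_left _ _, max_le (by linarith) (min_le_left _ _)⟩
  have hcl : ∀ x, |U x - h x| ≤ |U x - g x| := fun x => by
    obtain ⟨a, b⟩ := abs_le.1 (bU x)
    simp only [h]
    rcases le_total (g x) C with h1 | h1
    · rw [min_eq_right h1]
      rcases le_total (-C) (g x) with h2 | h2
      · rw [max_eq_right h2]
      · rw [max_eq_left h2, abs_of_nonneg (by linarith), abs_of_nonneg (by linarith)]; linarith
    · rw [min_eq_left h1, max_eq_right (by linarith), abs_of_nonpos (by linarith),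
        abs_of_nonpos (by linarith)]; linarith
  have hI : ∫ z, |U z - h z| ∂gaussianReal 0 1 ≤ η :=
    (integral_mono (hUi.sub (Integrable.of_bound hh.aestronglyMeasurable C (ae_of_all _ bh))).abs
      (hUi.sub hgi).abs fun x => hcl x).trans (by simpa [Real.norm_eq_abs] using hg)
  obtain ⟨δ, hδ, hcont⟩ := gram_continuity_cont hh bh n (half_pos hε)
  refine ⟨δ, hδ, fun m₁ m₂ u v hu hv hd => ?_⟩
  have a := (abs_prodMean_sub hu hU hh.measurable hC bU bh)
  have b := (abs_prodMean_sub hv hU hh.measurable hC bU bh)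
  have c := hcont m₁ m₂ u v hu hv hd
  have hb : C ^ n * (n * ∫ z, |U z - h z| ∂gaussianReal 0 1) ≤ ε / 4 := by
    calc C ^ n * (n * ∫ z, |U z - h z| ∂gaussianReal 0 1) ≤ C ^ n * ((n + 1) * η) := by
          refine mul_le_mul_of_nonneg_left ?_ (by positivity)
          exact mul_le_mul (by linarith) hI (integral_nonneg fun _ => abs_nonneg _) (by positivity)
      _ = ε / 4 := by simp only [η]; field_simp
  linarith [abs_sub_le (prodMean U u) (prodMean h u) (prodMean U v),
    abs_sub_le (prodMean h u) (prodMean h v) (prodMean U v), abs_sub_comm (prodMean h v) (prodMean U v)]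

end Vale.Agent.P157.Plant
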