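import Vale.Agent.P157.Plant.Chan

/-!
One more pattern adds the entropy at the mean overlap, up to the fluctuation of the overlap.
-/

open MeasureTheory ProbabilityTheory Filter Topology Set
open scoped BigOperators

namespace Vale.Agent.P157.Plant

variable {a N : ℕ} {U : ℝ → ℝ} {C : ℝ}

/-- The Gibbs probabilities. -/
noncomputable def gp (U : ℝ → ℝ) (r : ℝ) (d : Dat a N) (b : Cfg N) : ℝ :=
  (2⁻¹ : ℝ) ^ N * wt U r d b / lik U r d

lemma av_eq_sum (r : ℝ) (d : Dat a N) (h : Cfg N → ℝ) : av U r d h = ∑ b, gp U r d b * h b := by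
  unfold av gp
  rw [Finset.mul_sum, Finset.sum_div]
  exact Finset.sum_congr rfl fun b _ => by ring

lemma gp_nonneg (W : Wgt U C) (r : ℝ) (d : Dat a N) (b : Cfg N) : 0 ≤ gp U r d b :=
  div_nonneg (mul_nonneg (by positivity) (wt_pos W r d b).le) (lik_pos W r d).le

lemma sum_gp (W : Wgt U C) (r : ℝ) (d : Dat a N) : ∑ b, gp U r d b = 1 := by
  simpa [av_eq_sum] using av_const W r d 1

lemma pair_marginal {B : Type*} [Fintype B] [DecidableEq B] {n : ℕ} (w : B → ℝ) (hw : ∑ b, w b = 1)
    (F : B → B → ℝ) {k l : Fin n} (hkl : k ≠ l) :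
    ∑ p : Fin n → B, (∏ i, w (p i)) * F (p k) (p l) = ∑ x, ∑ y, w x * (w y * F x y) := by
  classical
  have hxy : ∀ x y, ∑ p : Fin n → B, (if p k = x ∧ p l = y then ∏ i, w (p i) else 0) = w x * w y := fun x y => by
    have e : ∀ p : Fin n → B, (if p k = x ∧ p l = y then ∏ i, w (p i) else 0)
        = ∏ i, w (p i) * (if (i = k → p i = x) ∧ (i = l → p i = y) then 1 else 0) := fun p => by
      rw [Finset.prod_mul_distrib]
      split_ifs with h
      · rw [Finset.prod_eq_one (f := fun i => if (i = k → p i = x) ∧ (i = l → p i = y) then (1:ℝ) else 0)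
          fun i _ => ?_, mul_one]
        rw [if_pos ⟨fun hi => hi ▸ h.1, fun hi => hi ▸ h.2⟩]
      · rcases not_and_or.1 h with h1 | h1
        · rw [Finset.prod_eq_zero (i := k) (f := fun i => if (i = k → p i = x) ∧ (i = l → p i = y) then (1:ℝ) else 0)
            (Finset.mem_univ k) (if_neg fun hc => h1 (hc.1 rfl)), mul_zero]
        · rw [Finset.prod_eq_zero (i := l) (f := fun i => if (i = k → p i = x) ∧ (i = l → p i = y) then (1:ℝ) else 0)
            (Finset.mem_univ l) (if_neg fun hc => h1 (hc.2 rfl)), mul_zero]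
    simp_rw [e]
    rw [← Fintype.prod_sum (fun i b => w b * if (i = k → b = x) ∧ (i = l → b = y) then 1 else 0),
      Finset.prod_eq_prod_sdiff_singleton_mul (Finset.mem_univ k),
      Finset.prod_eq_prod_sdiff_singleton_mul (i := l) (by simpa using hkl.symm), mul_comm]
    rw [Finset.prod_eq_one fun i hi => ?_, one_mul]
    · simp [hkl, hkl.symm]
    · simp only [Finset.mem_sdiff, Finset.mem_univ, true_and, Finset.mem_singleton] at hi
      simp [hi.1, hi.2, hw]
  have e2 : ∀ p : Fin n → B, (∏ i, w (p i)) * F (p k) (p l)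
      = ∑ x, ∑ y, (if p k = x ∧ p l = y then ∏ i, w (p i) else 0) * F x y := fun p => by
    simp [ite_and]
  simp_rw [e2]
  rw [Finset.sum_comm]
  refine Finset.sum_congr rfl fun x _ => ?_
  rw [Finset.sum_comm]
  refine Finset.sum_congr rfl fun y _ => ?_
  rw [← Finset.sum_mul, hxy, mul_assoc]

/-- The unit vector of a configuration. -/
noncomputable def cfgVec (b : Cfg N) (i : Fin N) : ℝ := sp b i / Real.sqrt N

lemma cfgVec_inner (b b' : Cfg N) : ∑ i, cfgVec b i * cfgVec b' i = ovl b b' := by
  simp only [cfgVec, div_mul_div_comm, Real.mul_self_sqrt (Nat.cast_nonneg N), ovl, Finset.sum_div]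

lemma cfgVec_unit (hN : 0 < N) (b : Cfg N) : ∑ i, cfgVec b i ^ 2 = 1 := by
  simp only [sq, cfgVec_inner, ovl, sp_sq]
  simp [show (N : ℝ) ≠ 0 by exact_mod_cast hN.ne']

lemma integral_pow_av (W : Wgt U C) (r : ℝ) (d : Dat a N) (n : ℕ) :
    ∫ g, av U r d (fun b => U (fld g b)) ^ n ∂gaussVec (Fin N)
      = ∑ p : Fin n → Cfg N, (∏ i, gp U r d (p i)) * prodMean U (fun i => cfgVec (p i)) := by
  have e : ∀ g : Fin N → ℝ, av U r d (fun b => U (fld g b)) ^ n
      = ∑ p : Fin n → Cfg N, (∏ i, gp U r d (p i)) * ∏ i, U (∑ j, g j * cfgVec (p i) j) := fun g => by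
    rw [av_eq_sum, Fintype.sum_pow]
    refine Finset.sum_congr rfl fun p _ => ?_
    rw [Finset.prod_mul_distrib]
    rfl
  simp_rw [e]
  rw [integral_finsetSum]
  · simp only [integral_const_mul, prodMean]
  · intro p _
    refine Integrable.const_mul ?_ _
    exact Integrable.of_bound (Finset.measurable_prod _ fun i _ => W.meas.comp (measurable_linear _)).aestronglyMeasurable
      (∏ _i : Fin n, C) (ae_of_all _ fun g => by
        rw [Real.norm_eq_abs, Finset.abs_prod]
        exact Finset.prod_le_prod (fun _ _ => abs_nonneg _) fun i _ => W.abs_le _)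

lemma moment_close (W : Wgt U C) (n : ℕ) {ε : ℝ} (hε : 0 < ε) :
    ∃ K, 0 ≤ K ∧ ∀ (a N : ℕ) (r : ℝ) (d : Dat a N), 0 < N → ∀ q ∈ Icc (0 : ℝ) 1,
      |∫ g, av U r d (fun b => U (fld g b)) ^ n ∂gaussVec (Fin N) - smoothMom U n q|
        ≤ ε + K * av U r d (fun b => av U r d (fun b' => (ovl b b' - q) ^ 2)) := by
  obtain ⟨δ, hδ, hd⟩ := gram_continuity W.meas W.one_le W.abs_le n hε
  have hC := W.C_pos
  refine ⟨2 * C ^ n / δ ^ 2 * (n * n), by positivity, fun a N r d hN q hq => ?_⟩
  set Y : Cfg N → Cfg N → ℝ := fun b b' => (ovl b b' - q) ^ 2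
  set T := av U r d (fun b => av U r d (fun b' => Y b b'))
  have hT : T = ∑ x, ∑ y, gp U r d x * (gp U r d y * Y x y) := by
    simp only [T, av_eq_sum, Finset.mul_sum]
  have hT0 : 0 ≤ T := hT ▸ Finset.sum_nonneg fun x _ => Finset.sum_nonneg fun y _ =>
    mul_nonneg (gp_nonneg W r d x) (mul_nonneg (gp_nonneg W r d y) (sq_nonneg _))
  have hsum : ∑ p : Fin n → Cfg N, ∏ i, gp U r d (p i) = 1 := by
    rw [← Fintype.sum_pow, sum_gp W, one_pow]
  have hP : ∀ p : Fin n → Cfg N, |prodMean U (fun i => cfgVec (p i)) - smoothMom U n q|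
      ≤ ε + 2 * C ^ n / δ ^ 2 * ∑ k, ∑ l, (if k = l then 0 else Y (p k) (p l)) := fun p => by
    rw [W.smoothMom_eq]
    have hinner : ∀ k l, (∑ i, cfgVec (p k) i * cfgVec (p l) i) - ∑ i, qVec q k i * qVec q l i
        = if k = l then 0 else ovl (p k) (p l) - q := fun k l => by
      rw [qVec_inner hq]
      split_ifs with h
      · subst h
        simp only [← sq, cfgVec_unit hN, sub_self]
      · rw [cfgVec_inner]
    have hnn : ∀ k l, 0 ≤ (if k = l then 0 else Y (p k) (p l)) := fun k l => by
      split_ifs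
      · exact le_rfl
      · exact sq_nonneg _
    by_cases hall : ∀ k l, |(∑ i, cfgVec (p k) i * cfgVec (p l) i) - ∑ i, qVec q k i * qVec q l i| ≤ δ
    · refine (hd _ _ _ _ (fun k => cfgVec_unit hN _) (qVec_unit hq) hall).trans (le_add_of_nonneg_right ?_)
      exact mul_nonneg (by positivity) (Finset.sum_nonneg fun k _ => Finset.sum_nonneg fun l _ => hnn k l)
    · push Not at hall
      obtain ⟨k, l, hkl⟩ := hall
      rw [hinner] at hkl
      have hne : k ≠ l := fun h => by rw [if_pos h] at hkl; simp at hkl; linarith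
      rw [if_neg hne] at hkl
      have h1 : δ ^ 2 ≤ ∑ k, ∑ l, (if k = l then 0 else Y (p k) (p l)) := by
        refine le_trans ?_ ((Finset.single_le_sum (f := fun l => if k = l then 0 else Y (p k) (p l))
          (fun l _ => hnn k l) (Finset.mem_univ l)).trans (Finset.single_le_sum
          (f := fun k => ∑ l, if k = l then 0 else Y (p k) (p l))
          (fun k _ => Finset.sum_nonneg fun l _ => hnn k l) (Finset.mem_univ k)))
        rw [if_neg hne, ← sq_abs (δ : ℝ)]
        simp only [Y, ← sq_abs (ovl (p k) (p l) - q)]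
        exact pow_le_pow_left₀ (abs_nonneg _) (by rw [abs_of_pos hδ]; exact hkl.le) 2
      have hb : ∀ {m : ℕ} (u : Fin n → Fin m → ℝ), |prodMean U u| ≤ C ^ n := fun {m} u => by
        simpa [prodMean] using norm_integral_le_of_norm_le_const (μ := gaussVec (Fin m))
          (f := fun g => ∏ k, U (∑ i, g i * u k i)) (C := C ^ n) (ae_of_all _ fun g => by
            rw [Real.norm_eq_abs, Finset.abs_prod]
            exact (Finset.prod_le_prod (fun _ _ => abs_nonneg _) fun i _ => W.abs_le _).trans (by simp))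
      calc _ ≤ C ^ n + C ^ n := (abs_sub _ _).trans (add_le_add (hb _) (hb _))
        _ = 2 * C ^ n / δ ^ 2 * δ ^ 2 := by field_simp; ring
        _ ≤ 2 * C ^ n / δ ^ 2 * _ := mul_le_mul_of_nonneg_left h1 (by positivity)
        _ ≤ _ := le_add_of_nonneg_left hε.le
  have hY : ∀ k l : Fin n, ∑ p : Fin n → Cfg N, (∏ i, gp U r d (p i)) * (if k = l then 0 else Y (p k) (p l)) ≤ T := by
    intro k l
    split_ifs with h
    · simp [hT0]
    · rw [pair_marginal _ (sum_gp W r d) Y h, hT]
  rw [integral_pow_av W, show smoothMom U n q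
      = ∑ p : Fin n → Cfg N, (∏ i, gp U r d (p i)) * smoothMom U n q by rw [← Finset.sum_mul, hsum, one_mul],
    ← Finset.sum_sub_distrib]
  calc |∑ p : Fin n → Cfg N, ((∏ i, gp U r d (p i)) * prodMean U (fun i => cfgVec (p i))
        - (∏ i, gp U r d (p i)) * smoothMom U n q)|
      ≤ ∑ p : Fin n → Cfg N, (∏ i, gp U r d (p i))
          * (ε + 2 * C ^ n / δ ^ 2 * ∑ k, ∑ l, (if k = l then 0 else Y (p k) (p l))) := by
        refine (Finset.abs_sum_le_sum_abs _ _).trans (Finset.sum_le_sum fun p _ => ?_)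
        rw [← mul_sub, abs_mul, abs_of_nonneg (Finset.prod_nonneg fun i _ => gp_nonneg W r d _)]
        exact mul_le_mul_of_nonneg_left (hP p) (Finset.prod_nonneg fun i _ => gp_nonneg W r d _)
    _ = ε + 2 * C ^ n / δ ^ 2 * ∑ k, ∑ l, ∑ p : Fin n → Cfg N,
          (∏ i, gp U r d (p i)) * (if k = l then 0 else Y (p k) (p l)) := by
        simp only [mul_add, Finset.sum_add_distrib]
        rw [← Finset.sum_mul, hsum, one_mul]
        congr 1
        simp only [Finset.mul_sum]
        rw [Finset.sum_comm]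
        refine Finset.sum_congr rfl fun k _ => ?_
        rw [Finset.sum_comm]
        exact Finset.sum_congr rfl fun l _ => Finset.sum_congr rfl fun p _ => by ring
    _ ≤ _ := by
        rw [mul_assoc (2 * C ^ n / δ ^ 2)]
        refine add_le_add le_rfl (mul_le_mul_of_nonneg_left ((Finset.sum_le_sum fun k _ =>
          Finset.sum_le_sum fun l _ => hY k l).trans (le_of_eq ?_)) (by positivity))
        simp [mul_assoc]

/-- Adding a pattern. -/
noncomputable def addPat (g : Fin N → ℝ) (d : Dat a N) : Dat (a + 1) N := (Fin.snoc d.1 g, d.2)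

@[fun_prop]
lemma measurable_addPat : Measurable fun p : (Fin N → ℝ) × Dat a N => addPat p.1 p.2 := by
  refine Measurable.prodMk (measurable_pi_lambda _ fun c => ?_) (by fun_prop)
  refine Fin.lastCases ?_ (fun c => ?_) c
  · simp only [Fin.snoc_last]; fun_prop
  · simp only [Fin.snoc_castSucc]; fun_prop

lemma map_addPat : ((gaussVec (Fin N)).prod (nullM a N)).map (fun p => addPat p.1 p.2) = nullM (a + 1) N := by
  have h1 := (measurePreserving_piFinSuccAbove (fun _ : Fin (a + 1) => gaussVec (Fin N)) (Fin.last a)).symm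
  have h2 : (gaussVec (Fin N)).prod ((Measure.pi fun _ : Fin a => gaussVec (Fin N)).prod (gaussVec (Fin N)))
      = (((gaussVec (Fin N)).prod (Measure.pi fun _ : Fin a => gaussVec (Fin N))).prod (gaussVec (Fin N))).map
        MeasurableEquiv.prodAssoc :=
    (measurePreserving_prodAssoc _ _ _).map_eq.symm
  simp only [nullM]
  rw [h2, Measure.map_map (by fun_prop) (MeasurableEquiv.measurable _)]
  have e : ((fun p : (Fin N → ℝ) × Dat a N => addPat p.1 p.2) ∘ MeasurableEquiv.prodAssoc)
      = Prod.map (MeasurableEquiv.piFinSuccAbove (fun _ : Fin (a + 1) => Fin N → ℝ) (Fin.last a)).symm id := by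
    funext p
    simp [addPat, MeasurableEquiv.piFinSuccAbove, MeasurableEquiv.prodAssoc, Fin.insertNthEquiv,
      Fin.insertNth_last']
    rfl
  rw [e, ← Measure.map_prod_map _ _ (MeasurableEquiv.measurable _) measurable_id, Measure.map_id, h1.map_eq]

lemma wt_addPat (r : ℝ) (g : Fin N → ℝ) (d : Dat a N) (b : Cfg N) :
    wt U r (addPat g d) b = wt U r d b * U (fld g b) := by
  simp only [wt, addPat, patW, Fin.prod_univ_castSucc, Fin.snoc_castSucc, Fin.snoc_last]
  ring

lemma lik_addPat (W : Wgt U C) (r : ℝ) (g : Fin N → ℝ) (d : Dat a N) :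
    lik U r (addPat g d) = lik U r d * av U r d (fun b => U (fld g b)) := by
  rw [lik_mul_av W, lik]
  simp only [wt_addPat]

lemma integral_lik (W : Wgt U C) {r : ℝ} (hr : 0 ≤ r) (hN : 0 < N) :
    ∫ d, lik U r d ∂nullM a N = 1 := by
  have := planted_eq' W r (Gd.const (a := a) (N := N) 1) fun _ _ => rfl
  simp only [mul_one] at this
  rw [← this, integral_wt W hr hN]

lemma gd_ent_lik (W : Wgt U C) (r : ℝ) : Gd fun d : Dat a N => ent (lik U r d) :=
  (gd_lik W r).mul (gd_log_lik W r)

lemma Jt_succ (W : Wgt U C) (r : ℝ) (hN : 0 < N) :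
    Jt U (a + 1) N r = Jt U a N r
      + ∫ d, lik U r d * ∫ g, ent (av U r d (fun b => U (fld g b))) ∂gaussVec (Fin N) ∂nullM a N := by
  obtain ⟨E, hE⟩ := W.ent_bdd
  have hi : Integrable (fun d => ent (lik U r d)) (nullM (a + 1) N) := (gd_ent_lik W r).integrable
  have hm : Measurable fun p : (Fin N → ℝ) × Dat a N => addPat p.1 p.2 := measurable_addPat
  have hi' := hi
  rw [← map_addPat] at hi'
  have hip : Integrable (fun p : (Fin N → ℝ) × Dat a N => ent (lik U r (addPat p.1 p.2)))
      ((gaussVec (Fin N)).prod (nullM a N)) :=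
    (integrable_map_measure hi'.aestronglyMeasurable hm.aemeasurable).1 hi'
  rw [Jt, ← map_addPat, integral_map hm.aemeasurable hi'.aestronglyMeasurable, integral_prod_symm _ hip]
  have hw : ∀ d : Dat a N, ∫ g, av U r d (fun b => U (fld g b)) ∂gaussVec (Fin N) = 1 := fun d => by
    simp only [av_eq_sum]
    rw [integral_finsetSum _ fun b _ => (W.int (measurable_fld b)).const_mul _]
    simp only [integral_const_mul]
    rw [← sum_gp W r d]
    refine Finset.sum_congr rfl fun b _ => ?_
    rw [show (∫ g, U (fld g b) ∂gaussVec (Fin N)) = 1 from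
      (unit_form (cfgVec_unit hN b) W.meas).trans W.mean, mul_one]
  have hWm : ∀ d : Dat a N, Measurable fun g : Fin N → ℝ => av U r d (fun b => U (fld g b)) := fun d => by
    simp only [av_eq_sum]
    exact Finset.measurable_sum _ fun b _ => (W.meas.comp (measurable_fld b)).const_mul _
  have hWI : ∀ (d : Dat a N) g, av U r d (fun b => U (fld g b)) ∈ Icc C⁻¹ C := fun d g =>
    ⟨(av_const W r d _).symm.trans_le (av_mono W r d fun b => W.lo _),
      (av_mono W r d fun b => W.hi _).trans_eq (av_const W r d _)⟩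
  have e : ∀ d : Dat a N, ∫ g, ent (lik U r (addPat g d)) ∂gaussVec (Fin N)
      = ent (lik U r d) + lik U r d * ∫ g, ent (av U r d (fun b => U (fld g b))) ∂gaussVec (Fin N) := fun d => by
    have e1 : ∀ g, ent (lik U r (addPat g d)) = ent (lik U r d) * av U r d (fun b => U (fld g b))
        + lik U r d * ent (av U r d (fun b => U (fld g b))) := fun g => by
      rw [lik_addPat W]
      simp only [ent]
      rw [Real.log_mul (lik_pos W r d).ne' (lt_of_lt_of_le (inv_pos.2 W.C_pos) (hWI d g).1).ne']
      ring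
    simp_rw [e1]
    have ie : Integrable (fun g : Fin N → ℝ => ent (av U r d (fun b => U (fld g b)))) (gaussVec (Fin N)) :=
      Integrable.of_bound (continuous_ent.measurable.comp (hWm d)).aestronglyMeasurable E
        (ae_of_all _ fun g => hE _ (hWI d g))
    rw [integral_add ((Integrable.of_bound (hWm d).aestronglyMeasurable C
        (ae_of_all _ fun g => abs_av_le W r d fun b => W.abs_le _)).const_mul _) (ie.const_mul _), integral_const_mul, integral_const_mul, hw, mul_one]
  simp_rw [e]
  refine integral_add (gd_ent_lik W r).integrable (((gd_lik W r).mul ?_).integrable)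
  refine Gd.of_bdd ?_ (B := E) fun d => ?_
  · refine (StronglyMeasurable.integral_prod_right (ν := gaussVec (Fin N))
      (f := fun (d : Dat a N) g => ent (av U r d (fun b => U (fld g b)))) ?_).measurable
    refine (continuous_ent.measurable.comp ?_).stronglyMeasurable
    simp only [av_eq_sum]
    unfold gp
    refine Finset.measurable_sum _ fun b _ => Measurable.mul
      (((measurable_wt W r b).comp measurable_fst).const_mul _ |>.div ((measurable_lik W r).comp measurable_fst))
      (W.meas.comp ((measurable_fld b).comp measurable_snd))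
  · simpa using norm_integral_le_of_norm_le_const (μ := gaussVec (Fin N))
      (f := fun g => ent (av U r d (fun b => U (fld g b)))) (C := E) (ae_of_all _ fun g => hE _ (hWI d g))

/-- The increment of one pattern. -/
theorem Jt_increment (W : Wgt U C) {ε : ℝ} (hε : 0 < ε) :
    ∃ K, 0 ≤ K ∧ ∀ (a N : ℕ) (r : ℝ), 0 < N → 0 ≤ r →
      |Jt U (a + 1) N r - Jt U a N r - plantEnt U (qv U a N r)| ≤ ε + K * vr U a N r := by
  obtain ⟨E, hE⟩ := W.ent_bdd
  obtain ⟨d₀, c, hc⟩ := W.ent_poly (show 0 < ε / 4 by linarith)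
  set S := ∑ i ∈ Finset.range d₀, |c i|
  have hS : 0 ≤ S := Finset.sum_nonneg fun _ _ => abs_nonneg _
  choose K hK hmom using fun i => moment_close W i (show 0 < ε / (2 * (S + 1)) by positivity)
  refine ⟨∑ i ∈ Finset.range d₀, |c i| * K i, Finset.sum_nonneg fun i _ => mul_nonneg (abs_nonneg _) (hK i),
    fun a N r hN hr => ?_⟩
  set q := qv U a N r
  have hq : q ∈ Icc (0 : ℝ) 1 := ⟨qv_nonneg W hN r, qv_le_one W hN hr⟩
  set T : Dat a N → ℝ := fun d => av U r d (fun b => av U r d (fun b' => (ovl b b' - q) ^ 2))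
  set Φ : Dat a N → ℝ := fun d => ∫ g, ent (av U r d (fun b => U (fld g b))) ∂gaussVec (Fin N)
  have hWm : ∀ d : Dat a N, Measurable fun g : Fin N → ℝ => av U r d (fun b => U (fld g b)) := fun d => by
    simp only [av_eq_sum]
    exact Finset.measurable_sum _ fun b _ => (W.meas.comp (measurable_fld b)).const_mul _
  have hWI : ∀ (d : Dat a N) g, av U r d (fun b => U (fld g b)) ∈ Icc C⁻¹ C := fun d g =>
    ⟨(av_const W r d _).symm.trans_le (av_mono W r d fun b => W.lo _),
      (av_mono W r d fun b => W.hi _).trans_eq (av_const W r d _)⟩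
  have hpt : ∀ d, |Φ d - plantEnt U q| ≤ ε + (∑ i ∈ Finset.range d₀, |c i| * K i) * T d := fun d => by
    have hip : ∀ i ∈ Finset.range d₀, Integrable (fun g : Fin N → ℝ => c i * av U r d (fun b => U (fld g b)) ^ i)
        (gaussVec (Fin N)) := fun i _ => (Integrable.of_bound ((hWm d).pow_const i).aestronglyMeasurable (C ^ i)
        (ae_of_all _ fun g => by
          rw [Real.norm_eq_abs, abs_pow]
          exact pow_le_pow_left₀ (abs_nonneg _) (abs_av_le W r d fun b => W.abs_le _) i)).const_mul _
    have h1 : |Φ d - ∑ i ∈ Finset.range d₀, c i * ∫ g, av U r d (fun b => U (fld g b)) ^ i ∂gaussVec (Fin N)| ≤ ε / 4 := by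
      have e : ∑ i ∈ Finset.range d₀, c i * ∫ g, av U r d (fun b => U (fld g b)) ^ i ∂gaussVec (Fin N)
          = ∫ g, ∑ i ∈ Finset.range d₀, c i * av U r d (fun b => U (fld g b)) ^ i ∂gaussVec (Fin N) := by
        rw [integral_finsetSum _ hip]; simp [integral_const_mul]
      have ie : Integrable (fun g : Fin N → ℝ => ent (av U r d (fun b => U (fld g b)))) (gaussVec (Fin N)) :=
        Integrable.of_bound (continuous_ent.measurable.comp (hWm d)).aestronglyMeasurable E
          (ae_of_all _ fun g => hE _ (hWI d g))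
      rw [e, ← integral_sub ie (integrable_finsetSum _ hip)]
      simpa using norm_integral_le_of_norm_le_const (μ := gaussVec (Fin N))
        (f := fun g => ent (av U r d (fun b => U (fld g b)))
          - ∑ i ∈ Finset.range d₀, c i * av U r d (fun b => U (fld g b)) ^ i) (C := ε / 4)
        (ae_of_all _ fun g => hc _ (hWI d g))
    have h2 := W.plantEnt_poly hc q
    have h3 : |∑ i ∈ Finset.range d₀, c i * ∫ g, av U r d (fun b => U (fld g b)) ^ i ∂gaussVec (Fin N)
        - ∑ i ∈ Finset.range d₀, c i * smoothMom U i q| ≤ ε / 2 + (∑ i ∈ Finset.range d₀, |c i| * K i) * T d := by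
      rw [← Finset.sum_sub_distrib]
      refine (Finset.abs_sum_le_sum_abs _ _).trans ((Finset.sum_le_sum fun i _ => ?_).trans
        (show ∑ i ∈ Finset.range d₀, |c i| * (ε / (2 * (S + 1)) + K i * T d) ≤ _ from ?_))
      · rw [← mul_sub, abs_mul]
        exact mul_le_mul_of_nonneg_left (hmom i a N r d hN q hq) (abs_nonneg _)
      · simp only [mul_add, Finset.sum_add_distrib, ← mul_assoc]
        rw [← Finset.sum_mul, ← Finset.sum_mul]
        refine add_le_add ?_ le_rfl
        rw [← mul_div_assoc, div_le_iff₀ (by positivity)]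
        nlinarith
    calc |Φ d - plantEnt U q| ≤ _ + _ := abs_sub_le _ (∑ i ∈ Finset.range d₀, c i * smoothMom U i q) _
      _ ≤ (ε / 4 + (ε / 2 + (∑ i ∈ Finset.range d₀, |c i| * K i) * T d)) + ε / 4 :=
          add_le_add ((abs_sub_le _ _ _).trans (add_le_add h1 h3)) (by rw [abs_sub_comm]; exact h2)
      _ = _ := by ring
  have hΦm : Measurable Φ := by
    refine (StronglyMeasurable.integral_prod_right (ν := gaussVec (Fin N))
      (f := fun (d : Dat a N) g => ent (av U r d (fun b => U (fld g b)))) ?_).measurable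
    refine (continuous_ent.measurable.comp ?_).stronglyMeasurable
    simp only [av_eq_sum]
    unfold gp
    refine Finset.measurable_sum _ fun b _ => Measurable.mul
      (((measurable_wt W r b).comp measurable_fst).const_mul _ |>.div ((measurable_lik W r).comp measurable_fst))
      (W.meas.comp ((measurable_fld b).comp measurable_snd))
  have hΦ : Gd Φ := Gd.of_bdd hΦm fun d => by
    simpa using norm_integral_le_of_norm_le_const (μ := gaussVec (Fin N))
      (f := fun g => ent (av U r d (fun b => U (fld g b)))) (C := E) (ae_of_all _ fun g => hE _ (hWI d g))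
  have hT : Gd T := by
    refine gd_av W r (fun b => measurable_av_const W r _) (B := 4) fun d b => abs_av_le W r d fun b' => ?_
    rw [abs_pow, show (4:ℝ) = 2 ^ 2 by norm_num]
    refine pow_le_pow_left₀ (abs_nonneg _) ((abs_sub _ _).trans ?_) 2
    rw [abs_of_nonneg hq.1]
    linarith [abs_ovl_le b b', hq.2]
  have hinc : Jt U (a + 1) N r - Jt U a N r - plantEnt U q = ∫ d, lik U r d * (Φ d - plantEnt U q) ∂nullM a N := by
    rw [Jt_succ W r hN]
    simp only [mul_sub]
    rw [integral_sub ((gd_lik W r).mul hΦ).integrable ((gd_lik W r).integrable.mul_const _), integral_mul_const,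
      integral_lik W hr hN]
    simp only [Φ]; ring
  rw [hinc]
  set KK := ∑ i ∈ Finset.range d₀, |c i| * K i
  calc |∫ d, lik U r d * (Φ d - plantEnt U q) ∂nullM a N|
      ≤ ∫ d, (ε * lik U r d + KK * (lik U r d * T d)) ∂nullM a N := by
        refine (abs_integral_le_integral_abs).trans (integral_mono ((gd_lik W r).mul (hΦ.sub (Gd.const _))).integrable.abs
          (((gd_lik W r).integrable.const_mul _).add (((gd_lik W r).mul hT).integrable.const_mul _)) fun d => ?_)
        simp only [Pi.add_apply]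
        rw [abs_mul, abs_of_pos (lik_pos W r d)]
        refine (mul_le_mul_of_nonneg_left (hpt d) (lik_pos W r d).le).trans (le_of_eq ?_)
        ring
    _ = _ := by
        rw [integral_add ((gd_lik W r).integrable.const_mul _) (((gd_lik W r).mul hT).integrable.const_mul _),
          integral_const_mul, integral_const_mul, integral_lik W hr hN, mul_one]
        rfl

end Vale.Agent.P157.Plant
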