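import Vale.Agent.P157.Plant.Gram
import Vale.Agent.P157.Plant.Defs
import Mathlib.Analysis.Convex.Deriv
import Mathlib.Topology.ContinuousMap.Weierstrass

/-!
The entropy of one pattern at overlap `q`: continuity and convexity in `q`.
-/

open MeasureTheory ProbabilityTheory Filter Topology Set
open scoped BigOperators

namespace Vale.Agent.P157.Plant

/-- A continuous midpoint convex function on an interval is convex. -/
lemma convexOn_of_mid {F : ℝ → ℝ} {l r : ℝ} (hc : ContinuousOn F (Icc l r))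
    (hm : ∀ a ∈ Icc l r, ∀ b ∈ Icc l r, a ≤ b → 2 * F ((a + b) / 2) ≤ F a + F b) :
    ConvexOn ℝ (Icc l r) F := by
  refine LinearOrder.convexOn_of_lt (convex_Icc _ _) fun a ha b hb hab s t hs ht hst => ?_
  simp only [smul_eq_mul]
  set A := (F b - F a) / (b - a)
  set G : ℝ → ℝ := fun x => F x - F a - A * (x - a)
  have hsub : Icc a b ⊆ Icc l r := Icc_subset_Icc ha.1 hb.2
  have hG : ContinuousOn G (Icc a b) :=
    ((hc.mono hsub).sub continuousOn_const).sub (by fun_prop)
  have hGa : G a = 0 := by simp [G]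
  have hGb : G b = 0 := by
    simp only [G, A]; rw [div_mul_cancel₀ _ (sub_pos.2 hab).ne']; ring
  obtain ⟨x₀, hx₀, hmax⟩ := isCompact_Icc.exists_isMaxOn (nonempty_Icc.2 hab.le) hG
  have hxM : ∀ x ∈ Icc a b, G x ≤ G x₀ := fun x hx => hmax hx
  have hle : ∀ x ∈ Icc a b, G x ≤ 0 := by
    by_contra hcon
    push Not at hcon
    obtain ⟨y, hy, hy0⟩ := hcon
    set S := {x | x ∈ Icc a b ∧ G x = G x₀}
    have hSc : IsClosed S := by
      have : S = Icc a b ∩ G ⁻¹' {G x₀} := rfl
      rw [this]; exact hG.preimage_isClosed_of_isClosed isClosed_Icc isClosed_singleton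
    have hSn : S.Nonempty := ⟨x₀, hx₀, rfl⟩
    have hSb : BddBelow S := ⟨a, fun x hx => hx.1.1⟩
    obtain ⟨hmI, hmv⟩ := hSc.csInf_mem hSn hSb
    set m := sInf S
    have hpos : 0 < G m := hmv ▸ hy0.trans_le (hxM y hy)
    have hma : a < m := lt_of_le_of_ne hmI.1 fun h => by rw [← h, hGa] at hpos; exact lt_irrefl _ hpos
    have hmb : m < b := lt_of_le_of_ne hmI.2 fun h => by rw [h, hGb] at hpos; exact lt_irrefl _ hpos
    set d := min (m - a) (b - m)
    have hd : 0 < d := lt_min (sub_pos.2 hma) (sub_pos.2 hmb)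
    have h1 : m - d ∈ Icc a b := ⟨by linarith [min_le_left (m - a) (b - m)], by linarith⟩
    have h2 : m + d ∈ Icc a b := ⟨by linarith, by linarith [min_le_right (m - a) (b - m)]⟩
    have h3 := hm (m - d) (hsub h1) (m + d) (hsub h2) (by linarith)
    rw [show (m - d + (m + d)) / 2 = m by ring] at h3
    have h4 : 2 * G m ≤ G (m - d) + G (m + d) := by simp only [G]; linarith
    have h5 : G (m - d) = G x₀ := le_antisymm (hxM _ h1) (by linarith [hxM _ h2])
    linarith [csInf_le hSb (⟨h1, h5⟩ : m - d ∈ S)]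
  obtain rfl : s = 1 - t := by linarith
  have e0 : (1 - t) * a + t * b = a + t * (b - a) := by ring
  have hp : 0 ≤ t * (b - a) := mul_nonneg ht.le (by linarith)
  have hp2 : t * (b - a) ≤ 1 * (b - a) := mul_le_mul_of_nonneg_right (by linarith) (by linarith)
  have h := hle (a + t * (b - a)) ⟨by linarith, by linarith⟩
  simp only [G] at h
  have : A * (a + t * (b - a) - a) = t * (F b - F a) := by
    simp only [A]; field_simp [(sub_pos.2 hab).ne']; ring
  rw [e0]
  linarith

/-- A weight between `C⁻¹` and `C` with Gaussian mean one. -/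
structure Wgt (U : ℝ → ℝ) (C : ℝ) : Prop where
  meas : Measurable U
  one_le : 1 ≤ C
  lo : ∀ x, C⁻¹ ≤ U x
  hi : ∀ x, U x ≤ C
  mean : ∫ x, U x ∂gaussianReal 0 1 = 1

/-- `x log x`. -/
noncomputable def ent (x : ℝ) : ℝ := x * Real.log x

lemma continuous_ent : Continuous ent := Real.continuous_mul_log

lemma ent_one : ent 1 = 0 := by simp [ent]

lemma ent_tangent {x p : ℝ} (hx : 0 < x) (hp : 0 < p) : x * Real.log p + x - p ≤ ent x := by
  have h := Real.log_le_sub_one_of_pos (div_pos hp hx)
  rw [Real.log_div hp.ne' hx.ne'] at h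
  have := mul_le_mul_of_nonneg_left h hx.le
  rw [mul_sub, mul_sub, mul_div_cancel₀ _ hx.ne'] at this
  unfold ent
  linarith

variable {U : ℝ → ℝ} {C : ℝ}

namespace Wgt

lemma C_pos (W : Wgt U C) : 0 < C := lt_of_lt_of_le one_pos W.one_le

lemma pos (W : Wgt U C) (x : ℝ) : 0 < U x := lt_of_lt_of_le (inv_pos.2 W.C_pos) (W.lo x)

lemma abs_le (W : Wgt U C) (x : ℝ) : |U x| ≤ C := by rw [abs_of_pos (W.pos x)]; exact W.hi x

lemma int (W : Wgt U C) {α : Type*} [MeasurableSpace α] {m : Measure α} [IsFiniteMeasure m]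
    {φ : α → ℝ} (hφ : Measurable φ) : Integrable (fun a => U (φ a)) m :=
  Integrable.of_bound (W.meas.comp hφ).aestronglyMeasurable C (ae_of_all _ fun _ => W.abs_le _)

end Wgt

/-- Average of `F` over a centred Gaussian of variance `s` around `x`. -/
noncomputable def gconv (s : ℝ) (F : ℝ → ℝ) (x : ℝ) : ℝ := ∫ w, F (x + Real.sqrt s * w) ∂gaussianReal 0 1

@[fun_prop]
lemma measurable_gconv {F : ℝ → ℝ} (hF : Measurable F) (s : ℝ) : Measurable (gconv s F) :=
  (StronglyMeasurable.integral_prod_right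
    (f := fun x w => F (x + Real.sqrt s * w))
    (by exact (hF.comp (by fun_prop)).stronglyMeasurable)).measurable

lemma gauss_add {F : ℝ → ℝ} (hF : Measurable F) {B : ℝ} (hb : ∀ x, |F x| ≤ B) {a b : ℝ} (ha : 0 ≤ a)
    (hb0 : 0 ≤ b) (x : ℝ) :
    ∫ z, ∫ w, F (x + Real.sqrt a * z + Real.sqrt b * w) ∂gaussianReal 0 1 ∂gaussianReal 0 1
      = gconv (a + b) F x := by
  have h := congrArg (fun m : Measure ℝ => ∫ y, F (x + y) ∂m) (gauss_rotate ha hb0)
  have hFx : Measurable fun y => F (x + y) := hF.comp (by fun_prop)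
  rw [integral_map (by fun_prop) hFx.aestronglyMeasurable,
    integral_map (by fun_prop) hFx.aestronglyMeasurable] at h
  have hi : Integrable (fun p : ℝ × ℝ => F (x + (Real.sqrt a * p.1 + Real.sqrt b * p.2)))
      ((gaussianReal 0 1).prod (gaussianReal 0 1)) :=
    Integrable.of_bound (hFx.comp (by fun_prop : Measurable fun p : ℝ × ℝ =>
      Real.sqrt a * p.1 + Real.sqrt b * p.2)).aestronglyMeasurable B (ae_of_all _ fun _ => hb _)
  rw [gconv, ← h, integral_prod _ hi]
  simp only [add_assoc]

lemma gconv_gconv {F : ℝ → ℝ} (hF : Measurable F) {B : ℝ} (hb : ∀ x, |F x| ≤ B) {a b : ℝ} (ha : 0 ≤ a)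
    (hb0 : 0 ≤ b) (x : ℝ) : gconv a (gconv b F) x = gconv (a + b) F x :=
  gauss_add hF hb ha hb0 x

namespace Wgt

lemma gconv_mem (W : Wgt U C) (s x : ℝ) : gconv s U x ∈ Icc C⁻¹ C := by
  constructor
  · have := integral_mono (μ := gaussianReal 0 1) (integrable_const C⁻¹)
      (W.int (φ := fun w => x + Real.sqrt s * w) (by fun_prop)) fun w => W.lo _
    simpa [gconv] using this
  · have := integral_mono (μ := gaussianReal 0 1)
      (W.int (φ := fun w => x + Real.sqrt s * w) (by fun_prop)) (integrable_const C) fun w => W.hi _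
    simpa [gconv] using this

lemma gconv_pos (W : Wgt U C) (s x : ℝ) : 0 < gconv s U x :=
  lt_of_lt_of_le (inv_pos.2 W.C_pos) (W.gconv_mem s x).1

lemma gconv_abs (W : Wgt U C) (s x : ℝ) : |gconv s U x| ≤ C := by
  rw [abs_of_pos (W.gconv_pos s x)]; exact (W.gconv_mem s x).2

lemma ent_bdd (W : Wgt U C) : ∃ B, ∀ x ∈ Icc C⁻¹ C, |ent x| ≤ B := by
  obtain ⟨B, hB⟩ := (isCompact_Icc (a := C⁻¹) (b := C)).exists_bound_of_continuousOn continuous_ent.continuousOn
  exact ⟨B, fun x hx => hB x hx⟩

lemma smooth_eq (q z : ℝ) : smooth U q z = gconv (1 - q) U (Real.sqrt q * z) := rfl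

lemma smooth_mem (W : Wgt U C) (q z : ℝ) : smooth U q z ∈ Icc C⁻¹ C := W.gconv_mem _ _

lemma measurable_smooth (W : Wgt U C) (q : ℝ) : Measurable (smooth U q) :=
  (measurable_gconv W.meas (1 - q)).comp (measurable_const.mul measurable_id)

lemma integral_smooth (W : Wgt U C) {q : ℝ} (hq : q ∈ Icc (0 : ℝ) 1) :
    ∫ z, smooth U q z ∂gaussianReal 0 1 = 1 := by
  have h := gauss_add W.meas W.abs_le hq.1 (by linarith [hq.2] : 0 ≤ 1 - q) 0
  simp only [zero_add, gconv, add_sub_cancel, Real.sqrt_one, one_mul] at h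
  rw [← W.mean, ← h]
  rfl

lemma integrable_ent_smooth (W : Wgt U C) (q : ℝ) :
    Integrable (fun z => ent (smooth U q z)) (gaussianReal 0 1) := by
  obtain ⟨B, hB⟩ := W.ent_bdd
  exact Integrable.of_bound ((continuous_ent.measurable.comp (W.measurable_smooth q)).aestronglyMeasurable) B
    (ae_of_all _ fun z => hB _ (W.smooth_mem q z))

lemma plantEnt_eq (q : ℝ) : plantEnt U q = ∫ z, ent (smooth U q z) ∂gaussianReal 0 1 := rfl

lemma plantEnt_nonneg (W : Wgt U C) {q : ℝ} (hq : q ∈ Icc (0 : ℝ) 1) : 0 ≤ plantEnt U q := by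
  have hi : Integrable (fun z => smooth U q z) (gaussianReal 0 1) :=
    Integrable.of_bound (W.measurable_smooth q).aestronglyMeasurable C
      (ae_of_all _ fun z => W.gconv_abs _ _)
  have h := integral_mono (μ := gaussianReal 0 1) (hi.sub (integrable_const 1)) (W.integrable_ent_smooth q)
    fun z => by
      have := ent_tangent (lt_of_lt_of_le (inv_pos.2 W.C_pos) (W.smooth_mem q z).1) one_pos
      simp only [Real.log_one, mul_zero, zero_add] at this
      simpa using this
  simp only [Pi.sub_apply] at h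
  rw [integral_sub hi (integrable_const 1), W.integral_smooth hq] at h
  simpa [plantEnt_eq] using h

lemma plantEnt_zero (W : Wgt U C) : plantEnt U 0 = 0 := by
  have : ∀ z, smooth U 0 z = 1 := fun z => by
    simp [smooth, W.mean]
  simp [plantEnt, this]

end Wgt

/-- The vectors realising `n` forms with common overlap `q`. -/
noncomputable def qVec {n : ℕ} (q : ℝ) (k : Fin n) : Fin (n + 1) → ℝ :=
  Fin.cons (Real.sqrt q) (Pi.single k (Real.sqrt (1 - q)))

lemma qVec_inner {n : ℕ} {q : ℝ} (hq : q ∈ Icc (0 : ℝ) 1) (k l : Fin n) :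
    ∑ i, qVec q k i * qVec q l i = if k = l then 1 else q := by
  rw [Fin.sum_univ_succ]
  simp only [qVec, Fin.cons_zero, Fin.cons_succ, ← sq]
  rw [Real.sq_sqrt hq.1]
  by_cases h : k = l
  · subst h
    rw [Finset.sum_eq_single k (by intro b _ hb; simp [hb]) (by simp)]
    simp [Real.mul_self_sqrt (by linarith [hq.2] : 0 ≤ 1 - q)]
  · rw [Finset.sum_eq_zero fun b _ => ?_]
    · simp [h]
    · by_cases hb : b = k
      · subst hb; simp [h]
      · simp [hb]

lemma qVec_unit {n : ℕ} {q : ℝ} (hq : q ∈ Icc (0 : ℝ) 1) (k : Fin n) : ∑ i, qVec q k i ^ 2 = 1 := by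
  simpa [sq] using qVec_inner hq k k

/-- The moments of the smoothed weight. -/
noncomputable def smoothMom (U : ℝ → ℝ) (n : ℕ) (q : ℝ) : ℝ :=
  ∫ z, smooth U q z ^ n ∂gaussianReal 0 1

namespace Wgt

lemma smoothMom_eq (W : Wgt U C) (n : ℕ) (q : ℝ) : smoothMom U n q = prodMean U (qVec (n := n) q) := by
  have hsucc := (measurePreserving_piFinSuccAbove (fun _ : Fin (n + 1) => gaussianReal 0 1) 0).symm
  unfold prodMean gaussVec
  have hmeas : Measurable fun g : Fin (n + 1) → ℝ => ∏ k, U (∑ i, g i * qVec q k i) :=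
    Finset.measurable_prod _ fun k _ => W.meas.comp (measurable_linear _)
  rw [← hsucc.map_eq, integral_map (MeasurableEquiv.measurable _).aemeasurable
    hmeas.aestronglyMeasurable]
  have e : ∀ p : ℝ × (Fin n → ℝ), (∏ k, U (∑ i, (MeasurableEquiv.piFinSuccAbove
      (fun _ : Fin (n + 1) => ℝ) 0).symm p i * qVec q k i))
      = ∏ k, U (Real.sqrt q * p.1 + Real.sqrt (1 - q) * p.2 k) := fun p => by
    refine Finset.prod_congr rfl fun k _ => ?_
    congr 1
    simp [MeasurableEquiv.piFinSuccAbove, Fin.insertNthEquiv, Fin.sum_univ_succ, qVec, mul_comm,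
      Pi.single_apply]
  simp_rw [e]
  have hm2 : Measurable fun p : ℝ × (Fin n → ℝ) =>
      ∏ k, U (Real.sqrt q * p.1 + Real.sqrt (1 - q) * p.2 k) :=
    Finset.measurable_prod _ fun k _ => W.meas.comp (by fun_prop)
  have hi : Integrable (fun p : ℝ × (Fin n → ℝ) =>
      ∏ k, U (Real.sqrt q * p.1 + Real.sqrt (1 - q) * p.2 k))
      ((gaussianReal 0 1).prod (Measure.pi fun _ : Fin n => gaussianReal 0 1)) :=
    Integrable.of_bound hm2.aestronglyMeasurable (∏ _k : Fin n, C) (ae_of_all _ fun p => by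
      rw [Real.norm_eq_abs, Finset.abs_prod]
      exact Finset.prod_le_prod (fun _ _ => abs_nonneg _) fun k _ => W.abs_le _)
  rw [integral_prod _ hi]
  refine integral_congr_ae (ae_of_all _ fun z => ?_)
  simp only [smooth]
  rw [integral_fintype_prod_eq_pow (fun w => U (Real.sqrt q * z + Real.sqrt (1 - q) * w)), Fintype.card_fin]

lemma continuousOn_smoothMom (W : Wgt U C) (n : ℕ) : ContinuousOn (smoothMom U n) (Icc 0 1) := by
  rw [Metric.continuousOn_iff]
  intro q hq ε hε
  obtain ⟨δ, hδ, h⟩ := gram_continuity W.meas W.one_le W.abs_le n (half_pos hε)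
  refine ⟨δ, hδ, fun p hp hpq => ?_⟩
  rw [Real.dist_eq, W.smoothMom_eq, W.smoothMom_eq]
  refine lt_of_le_of_lt (h _ _ _ _ (qVec_unit hp) (qVec_unit hq) fun k l => ?_) (half_lt_self hε)
  rw [qVec_inner hp, qVec_inner hq]
  split_ifs with hkl
  · simp [hδ.le]
  · exact (Real.dist_eq p q ▸ hpq).le

lemma ent_poly (W : Wgt U C) {ε : ℝ} (hε : 0 < ε) :
    ∃ (d : ℕ) (c : ℕ → ℝ), ∀ x ∈ Icc C⁻¹ C, |ent x - ∑ i ∈ Finset.range d, c i * x ^ i| ≤ ε := by
  obtain ⟨p, hp⟩ := exists_polynomial_near_of_continuousOn C⁻¹ C ent continuous_ent.continuousOn ε hε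
  refine ⟨p.natDegree + 1, p.coeff, fun x hx => ?_⟩
  rw [← Polynomial.eval_eq_sum_range, abs_sub_comm]
  exact (hp x hx).le

lemma plantEnt_poly (W : Wgt U C) {ε : ℝ} {d : ℕ} {c : ℕ → ℝ}
    (h : ∀ x ∈ Icc C⁻¹ C, |ent x - ∑ i ∈ Finset.range d, c i * x ^ i| ≤ ε) (q : ℝ) :
    |plantEnt U q - ∑ i ∈ Finset.range d, c i * smoothMom U i q| ≤ ε := by
  have hi : ∀ i ∈ Finset.range d, Integrable (fun z => c i * smooth U q z ^ i) (gaussianReal 0 1) :=
    fun i _ => (Integrable.of_bound ((W.measurable_smooth q).pow_const i).aestronglyMeasurable (C ^ i)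
      (ae_of_all _ fun z => by
        rw [Real.norm_eq_abs, abs_pow]
        exact pow_le_pow_left₀ (abs_nonneg _) (W.gconv_abs _ _) _)).const_mul _
  have e : ∑ i ∈ Finset.range d, c i * smoothMom U i q
      = ∫ z, ∑ i ∈ Finset.range d, c i * smooth U q z ^ i ∂gaussianReal 0 1 := by
    rw [integral_finsetSum _ hi]
    simp [smoothMom, integral_const_mul]
  rw [e, plantEnt_eq, ← integral_sub (W.integrable_ent_smooth q) (integrable_finsetSum _ hi)]
  simpa using norm_integral_le_of_norm_le_const (μ := gaussianReal 0 1)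
    (f := fun z => ent (smooth U q z) - ∑ i ∈ Finset.range d, c i * smooth U q z ^ i) (C := ε)
    (ae_of_all _ fun z => h _ (W.smooth_mem q z))

lemma continuousOn_plantEnt (W : Wgt U C) : ContinuousOn (plantEnt U) (Icc 0 1) := by
  rw [Metric.continuousOn_iff]
  intro q hq ε hε
  obtain ⟨d, c, h⟩ := W.ent_poly (show 0 < ε / 4 by linarith)
  have hc : ContinuousOn (fun q => ∑ i ∈ Finset.range d, c i * smoothMom U i q) (Icc 0 1) :=
    continuousOn_finsetSum _ fun i _ => continuousOn_const.mul (W.continuousOn_smoothMom i)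
  obtain ⟨δ, hδ, hd⟩ := Metric.continuousOn_iff.1 hc q hq (ε / 4) (by linarith)
  refine ⟨δ, hδ, fun p hp hpq => ?_⟩
  have h1 := hd p hp hpq
  have h2 := W.plantEnt_poly h p
  have h3 := W.plantEnt_poly h q
  simp only [Real.dist_eq] at h1 ⊢
  calc |plantEnt U p - plantEnt U q|
      ≤ |plantEnt U p - ∑ i ∈ Finset.range d, c i * smoothMom U i p|
        + |∑ i ∈ Finset.range d, c i * smoothMom U i p - ∑ i ∈ Finset.range d, c i * smoothMom U i q|
        + |∑ i ∈ Finset.range d, c i * smoothMom U i q - plantEnt U q| := by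
          refine (abs_sub_le _ (∑ i ∈ Finset.range d, c i * smoothMom U i q) _).trans ?_
          exact add_le_add (abs_sub_le _ _ _) le_rfl
    _ < ε := by rw [abs_sub_comm _ (plantEnt U q)]; linarith

/-- The entropy gained by one further step of length `h` of the Gaussian flow. -/
lemma ent_step_convex (W : Wgt U C) {h s : ℝ} (hh : 0 ≤ h) (hs : 0 ≤ s) (x : ℝ) :
    gconv h (fun y => ent (gconv (h + s) U y)) x - ent (gconv h (gconv (h + s) U) x)
      ≤ gconv h (fun y => gconv h (fun v => ent (gconv s U v)) y - ent (gconv h (gconv s U) y)) x := by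
  obtain ⟨B, hB⟩ := W.ent_bdd
  have hm := measurable_gconv W.meas s
  have hm' := measurable_gconv W.meas (h + s)
  set m := gconv h (gconv (h + s) U) x with hmdef
  have hmm : m = gconv (h + (h + s)) U x := gconv_gconv W.meas W.abs_le hh (by linarith) x
  have hm0 : 0 < m := hmm ▸ W.gconv_pos _ _
  set G : ℝ → ℝ := fun w => gconv (h + s) U (x + Real.sqrt h * w)
  set u : ℝ → ℝ → ℝ := fun v w => gconv s U (x + Real.sqrt h * v + Real.sqrt h * w)
  set P := gaussianReal 0 1
  have hum : Measurable fun p : ℝ × ℝ => u p.1 p.2 := hm.comp (by fun_prop)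
  have hGm : Measurable G := hm'.comp (by fun_prop)
  have uI : ∀ v w, u v w ∈ Icc C⁻¹ C := fun v w => W.gconv_mem _ _
  have GI : ∀ w, G w ∈ Icc C⁻¹ C := fun w => W.gconv_mem _ _
  have upos : ∀ v w, 0 < u v w := fun v w => W.gconv_pos _ _
  have Gpos : ∀ w, 0 < G w := fun w => W.gconv_pos _ _
  obtain ⟨L, hL⟩ : ∃ L, ∀ y ∈ Icc C⁻¹ C, |Real.log y| ≤ L := by
    obtain ⟨L, hL⟩ := (isCompact_Icc (a := C⁻¹) (b := C)).exists_bound_of_continuousOn
      (Real.continuousOn_log.mono fun y hy => (lt_of_lt_of_le (inv_pos.2 W.C_pos) hy.1).ne')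
    exact ⟨L, fun y hy => hL y hy⟩
  have iU : Integrable (fun p : ℝ × ℝ => u p.1 p.2 * Real.log (G p.2)) (P.prod P) :=
    Integrable.of_bound ((hum.mul ((hGm.comp measurable_snd).log)).aestronglyMeasurable) (C * L)
      (ae_of_all _ fun p => by
        rw [Real.norm_eq_abs, abs_mul]
        exact mul_le_mul (W.gconv_abs _ _) (hL _ (GI _)) (abs_nonneg _) W.C_pos.le)
  have iu : ∀ v, Integrable (fun w => u v w) P := fun v =>
    Integrable.of_bound (hm.comp (by fun_prop)).aestronglyMeasurable C (ae_of_all _ fun w => W.gconv_abs _ _)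
  set mv : ℝ → ℝ := fun v => ∫ w, u v w ∂P
  have hmvI : ∀ v, mv v = gconv (h + s) U (x + Real.sqrt h * v) := fun v =>
    gconv_gconv W.meas W.abs_le hh hs _
  have iG : Integrable G P :=
    Integrable.of_bound hGm.aestronglyMeasurable C (ae_of_all _ fun w => W.gconv_abs _ _)
  -- pointwise tangent inequality
  have key : ∀ v, (∫ w, u v w * Real.log (G w) ∂P) - mv v * Real.log m
      ≤ gconv h (fun y => ent (gconv s U y)) (x + Real.sqrt h * v)
        - ent (gconv h (gconv s U) (x + Real.sqrt h * v)) := fun v => by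
    have hv : 0 < mv v := hmvI v ▸ W.gconv_pos _ _
    have i1 : Integrable (fun w => u v w * Real.log (G w)) P :=
      Integrable.of_bound (((hm.comp (by fun_prop)).mul hGm.log).aestronglyMeasurable) (C * L)
        (ae_of_all _ fun w => by
          rw [Real.norm_eq_abs, abs_mul]
          exact mul_le_mul (W.gconv_abs _ _) (hL _ (GI _)) (abs_nonneg _) W.C_pos.le)
    have i2 : Integrable (fun w => ent (u v w)) P :=
      Integrable.of_bound ((continuous_ent.measurable.comp (hm.comp (by fun_prop))).aestronglyMeasurable) B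
        (ae_of_all _ fun w => hB _ (uI _ _))
    have i3 : Integrable (fun w => u v w * Real.log (G w) + u v w * (Real.log (mv v) - Real.log m)) P :=
      i1.add ((iu v).mul_const _)
    have i4 : Integrable (fun w => mv v / m * G w) P := iG.const_mul _
    have := integral_mono (μ := P) (((i3.add (iu v)).sub i4)) i2 fun w => by
      have ht := ent_tangent (upos v w) (mul_pos (div_pos hv hm0) (Gpos w))
      rw [Real.log_mul (div_pos hv hm0).ne' (Gpos w).ne', Real.log_div hv.ne' hm0.ne'] at ht
      simp only [Pi.sub_apply, Pi.add_apply]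
      linarith
    simp only [Pi.sub_apply, Pi.add_apply] at this
    have i5 : Integrable (fun w => u v w * Real.log (G w) + u v w * (Real.log (mv v) - Real.log m) + u v w) P :=
      i3.add (iu v)
    rw [integral_sub i5 i4, integral_add i3 (iu v),
      integral_add i1 ((iu v).mul_const _), integral_mul_const, integral_const_mul] at this
    have e1 : ∫ w, G w ∂P = m := rfl
    rw [e1, div_mul_cancel₀ _ hm0.ne'] at this
    change _ ≤ (∫ w, ent (u v w) ∂P) - ent (mv v)
    simp only [ent] at this ⊢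
    have : mv v = ∫ w, u v w ∂P := rfl
    linarith
  have hR : Integrable (fun v => gconv h (fun y => ent (gconv s U y)) (x + Real.sqrt h * v)
        - ent (gconv h (gconv s U) (x + Real.sqrt h * v))) P := by
    refine Integrable.of_bound (Measurable.aestronglyMeasurable ?_) (B + B) (ae_of_all _ fun v => ?_)
    · exact ((measurable_gconv (continuous_ent.measurable.comp hm) h).comp (by fun_prop)).sub
        (continuous_ent.measurable.comp ((measurable_gconv hm h).comp (by fun_prop)))
    · rw [Real.norm_eq_abs]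
      refine (abs_sub _ _).trans (add_le_add ?_ ?_)
      · simpa [gconv, P] using norm_integral_le_of_norm_le_const (μ := P)
          (f := fun w => ent (gconv s U (x + Real.sqrt h * v + Real.sqrt h * w))) (C := B)
          (ae_of_all _ fun w => by rw [Real.norm_eq_abs]; exact hB _ (W.gconv_mem s _))
      · rw [gconv_gconv W.meas W.abs_le hh hs]; exact hB _ (W.gconv_mem _ _)
  have imv : Integrable mv P := by
    rw [show mv = fun v => gconv (h + s) U (x + Real.sqrt h * v) from funext hmvI]
    exact iG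
  have hI := integral_mono (μ := P) (iU.integral_prod_left.sub (imv.mul_const _)) hR key
  refine le_trans (le_of_eq ?_) hI
  simp only [Pi.sub_apply]
  rw [integral_sub iU.integral_prod_left (imv.mul_const _), integral_mul_const]
  have e2 : ∫ v, mv v ∂P = m := by
    simp only [mv]
    rw [show (fun v => ∫ w, u v w ∂P) = fun v => gconv (h + s) U (x + Real.sqrt h * v) from funext hmvI]
    rfl
  have e3 : ∫ v, ∫ w, u v w * Real.log (G w) ∂P ∂P = ∫ w, ent (G w) ∂P := by
    rw [integral_integral_swap iU]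
    refine integral_congr_ae (ae_of_all _ fun w => ?_)
    simp only [ent]
    rw [integral_mul_const]
    congr 1
    simp only [u, G]
    rw [← gconv_gconv W.meas W.abs_le hh hs]
    exact integral_congr_ae (ae_of_all _ fun v => by dsimp only; congr 1; ring)
  rw [e2, e3]
  rfl

lemma plantEnt_mid (W : Wgt U C) {q h : ℝ} (hq : 0 ≤ q) (hh : 0 ≤ h) (h1 : q + 2 * h ≤ 1) :
    2 * plantEnt U (q + h) ≤ plantEnt U q + plantEnt U (q + 2 * h) := by
  obtain ⟨B, hB⟩ := W.ent_bdd
  set P := gaussianReal 0 1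
  set s := 1 - q - 2 * h with hs_def
  have hs : 0 ≤ s := by linarith
  have hb : ∀ t y, |ent (gconv t U y)| ≤ B := fun t y => hB _ (W.gconv_mem t y)
  have hm : ∀ t, Measurable fun y => ent (gconv t U y) := fun t =>
    continuous_ent.measurable.comp (measurable_gconv W.meas t)
  have hcb : ∀ a t y, |gconv a (fun y => ent (gconv t U y)) y| ≤ B := fun a t y => by
    simpa [gconv, P] using norm_integral_le_of_norm_le_const (μ := P)
      (f := fun w => ent (gconv t U (y + Real.sqrt a * w))) (C := B)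
      (ae_of_all _ fun w => by rw [Real.norm_eq_abs]; exact hb _ _)
  set R : ℝ → ℝ := fun y => gconv h (fun v => ent (gconv s U v)) y - ent (gconv h (gconv s U) y) with hR
  have hRm : Measurable R := (measurable_gconv (hm s) h).sub
    (continuous_ent.measurable.comp (measurable_gconv (measurable_gconv W.meas s) h))
  have hRb : ∀ y, |R y| ≤ B + B := fun y => by
    refine (abs_sub _ _).trans (add_le_add (hcb _ _ _) ?_)
    rw [gconv_gconv W.meas W.abs_le hh hs]
    exact hb _ _
  have iR : Integrable (fun z => gconv h R (Real.sqrt q * z)) P :=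
    Integrable.of_bound ((measurable_gconv hRm h).comp (by fun_prop)).aestronglyMeasurable (B + B)
      (ae_of_all _ fun z => by
        simpa [gconv, P] using norm_integral_le_of_norm_le_const (μ := P)
          (f := fun w => R (Real.sqrt q * z + Real.sqrt h * w)) (C := B + B)
          (ae_of_all _ fun w => by rw [Real.norm_eq_abs]; exact hRb _))
  have iA : ∀ a t u, Integrable (fun z => gconv a (fun y => ent (gconv t U y)) (Real.sqrt u * z)) P :=
    fun a t u => Integrable.of_bound ((measurable_gconv (hm t) a).comp (by fun_prop)).aestronglyMeasurable B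
      (ae_of_all _ fun z => hcb _ _ _)
  have iB : ∀ t u, Integrable (fun z => ent (gconv t U (Real.sqrt u * z))) P := fun t u =>
    Integrable.of_bound ((hm t).comp (by fun_prop)).aestronglyMeasurable B (ae_of_all _ fun z => hb _ _)
  have hK : ∀ u, plantEnt U u = ∫ z, ent (gconv (1 - u) U (Real.sqrt u * z)) ∂P := fun _ => rfl
  have hpush : ∀ {F : ℝ → ℝ}, Measurable F → ∀ {B' : ℝ}, (∀ y, |F y| ≤ B') → ∀ {u : ℝ}, 0 ≤ u →
      ∫ z, gconv h F (Real.sqrt u * z) ∂P = ∫ z, F (Real.sqrt (u + h) * z) ∂P := by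
    intro F hF B' hF' u hu
    have := gauss_add hF hF' hu hh 0
    simpa [gconv, P] using this
  have step := integral_mono ((iA h (h + s) q).sub ((iB (h + (h + s)) q))) iR fun z => by
    have := W.ent_step_convex hh hs (Real.sqrt q * z)
    rw [gconv_gconv W.meas W.abs_le hh (by linarith : 0 ≤ h + s)] at this
    exact this
  simp only [Pi.sub_apply] at step
  rw [integral_sub (iA h (h + s) q) (iB (h + (h + s)) q), hpush (hm (h + s)) (fun y => hb _ y) hq,
    hpush hRm hRb hq] at step
  have e : ∀ y, R y = gconv h (fun v => ent (gconv s U v)) y - ent (gconv (h + s) U y) := fun y => by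
    simp only [hR]; rw [gconv_gconv W.meas W.abs_le hh hs]
  simp only [e] at step
  rw [integral_sub (iA h s (q + h)) (iB (h + s) (q + h)), hpush (hm s) (fun y => hb _ y) (by linarith : 0 ≤ q + h)]
    at step
  rw [hK, hK, hK]
  have a1 : (1 : ℝ) - (q + h) = h + s := by simp only [hs_def]; ring
  have a2 : (1 : ℝ) - q = h + (h + s) := by simp only [hs_def]; ring
  have a3 : (1 : ℝ) - (q + 2 * h) = s := by simp only [hs_def]; ring
  have a4 : q + h + h = q + 2 * h := by ring
  rw [a4] at step
  rw [a1, a2, a3]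
  linarith

lemma convexOn_plantEnt (W : Wgt U C) : ConvexOn ℝ (Icc 0 1) (plantEnt U) := by
  refine convexOn_of_mid (W.continuousOn_plantEnt) fun a ha b hb hab => ?_
  have := W.plantEnt_mid (q := a) (h := (b - a) / 2) ha.1 (by linarith) (by linarith [hb.2])
  rw [show a + (b - a) / 2 = (a + b) / 2 by ring, show a + 2 * ((b - a) / 2) = b by ring] at this
  exact this

lemma plantEnt_mono (W : Wgt U C) : MonotoneOn (plantEnt U) (Icc 0 1) := by
  intro a ha b hb hab
  rcases eq_or_lt_of_le hb.1 with hb0 | hb0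
  · rw [show a = b by linarith [ha.1]]
  · have hs0 : 0 ≤ 1 - a / b := by rw [sub_nonneg, div_le_one hb0]; exact hab
    have h := W.convexOn_plantEnt.2 (left_mem_Icc.2 (zero_le_one' ℝ)) hb hs0
      (div_nonneg ha.1 hb0.le) (sub_add_cancel 1 (a / b))
    simp only [smul_eq_mul, mul_zero, zero_add, W.plantEnt_zero, div_mul_cancel₀ _ hb0.ne'] at h
    exact h.trans (mul_le_of_le_one_left (W.plantEnt_nonneg hb) ((div_le_one hb0).2 hab))

/-- A bounded monotone choice of slopes supporting `plantEnt` up to `ε`. -/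
lemma exists_slopes (W : Wgt U C) {ε : ℝ} (hε : 0 < ε) :
    ∃ (c : ℝ → ℝ) (L : ℝ), 0 ≤ L ∧ Monotone c ∧ (∀ q, 0 ≤ c q ∧ c q ≤ L) ∧
      ∀ q ∈ Icc (0 : ℝ) 1, ∀ p ∈ Icc (0 : ℝ) 1,
        plantEnt U q + c q * (p - q) ≤ plantEnt U p + ε := by
  have hc := W.continuousOn_plantEnt
  obtain ⟨δ, hδ, hd⟩ := Metric.uniformContinuousOn_iff.1
    (isCompact_Icc.uniformContinuousOn_of_continuous hc) ε hε
  set η := min (δ / 3) (1 / 4)
  have hη : 0 < η := by positivity
  have hη4 : η ≤ 1 / 4 := min_le_right _ _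
  have hηδ : η ≤ δ / 3 := min_le_left _ _
  have hcx := W.convexOn_plantEnt
  set t : ℝ → ℝ := fun q => max η (min q (1 - η))
  have ht : ∀ q, t q ∈ Icc η (1 - η) := fun q =>
    ⟨le_max_left _ _, max_le (by linarith) (min_le_right _ _)⟩
  have hti : ∀ q, t q ∈ interior (Icc (0 : ℝ) 1) := fun q => by
    rw [interior_Icc]; exact ⟨by linarith [(ht q).1], by linarith [(ht q).2]⟩
  have htI : ∀ q, t q ∈ Icc (0 : ℝ) 1 := fun q => interior_subset (hti q)
  set d : ℝ → ℝ := fun x => derivWithin (plantEnt U) (Ioi x) x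
  have hup : ∀ x ∈ interior (Icc (0 : ℝ) 1), ∀ p ∈ Icc (0 : ℝ) 1, plantEnt U x + d x * (p - x) ≤ plantEnt U p := by
    intro x hx p hp
    rcases lt_trichotomy x p with hlt | heq | hgt
    · have := hcx.rightDeriv_le_slope (interior_subset hx) hp hlt (hcx.differentiableWithinAt_Ioi_of_mem_interior hx)
      rw [slope_def_field, le_div_iff₀ (sub_pos.2 hlt)] at this
      simp only [d]; linarith
    · subst heq; simp
    · have := (hcx.slope_le_leftDeriv hp (interior_subset hx) hgt
        (hcx.differentiableWithinAt_Iio_of_mem_interior hx)).trans (hcx.leftDeriv_le_rightDeriv_of_mem_interior hx)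
      rw [slope_def_field, div_le_iff₀ (sub_pos.2 hgt)] at this
      simp only [d]; linarith
  have hmono : MonotoneOn d (interior (Icc (0 : ℝ) 1)) := hcx.monotoneOn_rightDeriv
  have hd0 : ∀ q, 0 ≤ d (t q) := fun q => by
    have h := hup _ (hti q) 0 (left_mem_Icc.2 zero_le_one)
    rw [W.plantEnt_zero] at h
    have h0 := W.plantEnt_nonneg (htI q)
    nlinarith [(ht q).1, hη]
  refine ⟨fun q => d (t q), d (1 - η), ?_, ?_, fun q => ⟨hd0 q, ?_⟩, fun q hq p hp => ?_⟩
  · have := hd0 1
    rwa [show t 1 = 1 - η by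
      simp only [t]; rw [min_eq_right (by linarith), max_eq_right (by linarith)]] at this
  · exact fun a b hab => hmono (hti a) (hti b) (max_le_max le_rfl (min_le_min hab le_rfl))
  · exact hmono (hti q) (by rw [interior_Icc]; exact ⟨by linarith, by linarith⟩) (ht q).2
  · simp only
    have hb := hup _ (hti q) p hp
    rcases le_total q (1 - η) with h1 | h1
    · rcases le_total η q with h2 | h2
      · have : t q = q := by simp only [t]; rw [min_eq_left h1, max_eq_right h2]
        rw [this] at hb ⊢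
        linarith
      · have he : t q = η := by simp only [t]; rw [min_eq_left h1, max_eq_left h2]
        rw [he] at hb ⊢
        have hi : η ∈ interior (Icc (0 : ℝ) 1) := he ▸ hti q
        have h3 := hup _ hi (2 * η) ⟨by linarith, by linarith⟩
        have h4 := hd (2 * η) ⟨by linarith, by linarith⟩ η ⟨hη.le, by linarith⟩ (by
          rw [Real.dist_eq, abs_of_nonneg (by linarith)]; linarith)
        rw [Real.dist_eq] at h4
        have h5 := W.plantEnt_mono hq ⟨hη.le, by linarith⟩ h2
        have h7 : 0 ≤ d η := he ▸ hd0 q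
        nlinarith [(abs_lt.1 h4).2, hq.1]
    · have he : t q = 1 - η := by
        simp only [t]; rw [min_eq_right h1, max_eq_right (by linarith)]
      rw [he] at hb ⊢
      have h4 := hd q hq (1 - η) ⟨by linarith, by linarith⟩ (by
        rw [Real.dist_eq, abs_of_nonneg (by linarith)]; linarith [hq.2])
      rw [Real.dist_eq] at h4
      have h7 : 0 ≤ d (1 - η) := he ▸ hd0 q
      nlinarith [(abs_lt.1 h4).2]

/-- An exact supporting slope at an interior point. -/
lemma exists_slope (W : Wgt U C) {q : ℝ} (hq : q ∈ Ioo (0 : ℝ) 1) :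
    ∃ c, 0 ≤ c ∧ ∀ p ∈ Icc (0 : ℝ) 1, plantEnt U q + c * (p - q) ≤ plantEnt U p := by
  have hcx := W.convexOn_plantEnt
  have hi : q ∈ interior (Icc (0 : ℝ) 1) := by rw [interior_Icc]; exact hq
  set d := derivWithin (plantEnt U) (Ioi q) q
  have hl : ∀ p ∈ Icc (0 : ℝ) 1, plantEnt U q + d * (p - q) ≤ plantEnt U p := by
    intro p hp
    rcases lt_trichotomy q p with hlt | heq | hgt
    · have := hcx.rightDeriv_le_slope (interior_subset hi) hp hlt (hcx.differentiableWithinAt_Ioi_of_mem_interior hi)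
      rw [slope_def_field, le_div_iff₀ (sub_pos.2 hlt)] at this
      linarith
    · subst heq; simp
    · have := (hcx.slope_le_leftDeriv hp (interior_subset hi) hgt
        (hcx.differentiableWithinAt_Iio_of_mem_interior hi)).trans (hcx.leftDeriv_le_rightDeriv_of_mem_interior hi)
      rw [slope_def_field, div_le_iff₀ (sub_pos.2 hgt)] at this
      linarith
  refine ⟨d, ?_, hl⟩
  have h := hl 0 (left_mem_Icc.2 zero_le_one)
  rw [W.plantEnt_zero] at h
  nlinarith [W.plantEnt_nonneg (Ioo_subset_Icc_self hq), hq.1]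

end Wgt

end Vale.Agent.P157.Plant
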