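import Vale.Agent.P157.Plant.Kfun

/-!
Planting: the likelihood ratio of the planted model with a Gaussian side channel, its Gibbs
averages, and the gauge symmetry of the cube.
-/

open MeasureTheory ProbabilityTheory Filter Topology
open scoped BigOperators

namespace Vale.Agent.P157.Plant

/-- A configuration. -/
abbrev Cfg (N : ℕ) := Fin N → Bool

/-- Patterns and side observation. -/
abbrev Dat (a N : ℕ) := (Fin a → Fin N → ℝ) × (Fin N → ℝ)

variable {a N : ℕ}

/-- The spin. -/
def sp (b : Cfg N) (i : Fin N) : ℝ := if b i then 1 else -1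

lemma sp_sq (b : Cfg N) (i : Fin N) : sp b i * sp b i = 1 := by unfold sp; split <;> norm_num

lemma abs_sp (b : Cfg N) (i : Fin N) : |sp b i| = 1 := by unfold sp; split <;> norm_num

/-- All spins up. -/
def ones (N : ℕ) : Cfg N := fun _ => true

@[simp] lemma sp_ones (i : Fin N) : sp (ones N) i = 1 := rfl

/-- The gauge action on configurations. -/
def xr (b s : Cfg N) : Cfg N := fun i => b i == s i

lemma sp_xr (b s : Cfg N) (i : Fin N) : sp (xr b s) i = sp b i * sp s i := by
  unfold sp xr; cases b i <;> cases s i <;> norm_num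

lemma xr_self (b : Cfg N) : xr b b = ones N := by funext i; simp [xr, ones]

lemma xr_xr (b s : Cfg N) : xr (xr b s) s = b := by funext i; unfold xr; cases b i <;> cases s i <;> rfl

/-- The field of a pattern. -/
noncomputable def fld (g : Fin N → ℝ) (b : Cfg N) : ℝ := ∑ i, g i * (sp b i / Real.sqrt N)

@[fun_prop]
lemma measurable_fld (b : Cfg N) : Measurable fun g : Fin N → ℝ => fld g b := by unfold fld; fun_prop

/-- The overlap. -/
noncomputable def ovl (b b' : Cfg N) : ℝ := (∑ i, sp b i * sp b' i) / N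

lemma abs_ovl_le (b b' : Cfg N) : |ovl b b'| ≤ 1 := by
  rw [ovl, abs_div, Nat.abs_cast]
  refine div_le_one_of_le₀ ((Finset.abs_sum_le_sum_abs _ _).trans (le_of_eq ?_)) (by positivity)
  simp [abs_mul, abs_sp]

lemma ovl_comm (b b' : Cfg N) : ovl b b' = ovl b' b := by
  unfold ovl; congr 1; exact Finset.sum_congr rfl fun i _ => mul_comm _ _

lemma ovl_xr (b b' s : Cfg N) : ovl (xr b s) (xr b' s) = ovl b b' := by
  unfold ovl; congr 1
  refine Finset.sum_congr rfl fun i _ => ?_
  rw [sp_xr, sp_xr, mul_mul_mul_comm, sp_sq, mul_one]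

/-- The linear statistic of the side observation. -/
def lin (z : Fin N → ℝ) (b : Cfg N) : ℝ := ∑ i, z i * sp b i

/-- Sum of absolute values. -/
def absSum (z : Fin N → ℝ) : ℝ := ∑ i, |z i|

lemma absSum_nonneg (z : Fin N → ℝ) : 0 ≤ absSum z := Finset.sum_nonneg fun _ _ => abs_nonneg _

@[fun_prop]
lemma measurable_absSum : Measurable (absSum : (Fin N → ℝ) → ℝ) := by unfold absSum; fun_prop

lemma abs_lin_le (z : Fin N → ℝ) (b : Cfg N) : |lin z b| ≤ absSum z := by
  refine (Finset.abs_sum_le_sum_abs _ _).trans (le_of_eq (Finset.sum_congr rfl fun i _ => ?_))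
  rw [abs_mul, abs_sp, mul_one]

/-- The pattern part of the weight. -/
noncomputable def patW (U : ℝ → ℝ) (g : Fin a → Fin N → ℝ) (b : Cfg N) : ℝ := ∏ c, U (fld (g c) b)

/-- The weight of a configuration. -/
noncomputable def wt (U : ℝ → ℝ) (r : ℝ) (d : Dat a N) (b : Cfg N) : ℝ :=
  patW U d.1 b * Real.exp (Real.sqrt r * lin d.2 b - r * N / 2)

/-- The likelihood ratio. -/
noncomputable def lik (U : ℝ → ℝ) (r : ℝ) (d : Dat a N) : ℝ :=
  (2⁻¹ : ℝ) ^ N * ∑ b, wt U r d b

/-- Gibbs average. -/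
noncomputable def av (U : ℝ → ℝ) (r : ℝ) (d : Dat a N) (h : Cfg N → ℝ) : ℝ :=
  (2⁻¹ : ℝ) ^ N * (∑ b, wt U r d b * h b) / lik U r d

/-- The law of the data without planting. -/
noncomputable def nullM (a N : ℕ) : Measure (Dat a N) :=
  (Measure.pi fun _ : Fin a => gaussVec (Fin N)).prod (gaussVec (Fin N))

instance : IsProbabilityMeasure (nullM a N) := by unfold nullM; infer_instance

/-- The gauge action on data. -/
def act (s : Cfg N) (d : Dat a N) : Dat a N :=
  (fun c i => sp s i * d.1 c i, fun i => sp s i * d.2 i)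

lemma half_pow_mul_card (N : ℕ) : (2⁻¹ : ℝ) ^ N * (Fintype.card (Cfg N) : ℝ) = 1 := by
  simp [← mul_pow]

section

variable {U : ℝ → ℝ} {C : ℝ}

lemma patW_pos (W : Wgt U C) (g : Fin a → Fin N → ℝ) (b : Cfg N) : 0 < patW U g b :=
  Finset.prod_pos fun _ _ => W.pos _

lemma patW_le (W : Wgt U C) (g : Fin a → Fin N → ℝ) (b : Cfg N) : patW U g b ≤ C ^ a :=
  (Finset.prod_le_prod (fun _ _ => (W.pos _).le) fun _ _ => W.hi _).trans (by simp)

lemma le_patW (W : Wgt U C) (g : Fin a → Fin N → ℝ) (b : Cfg N) : (C⁻¹) ^ a ≤ patW U g b :=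
  le_trans (by simp) (Finset.prod_le_prod (fun _ _ => (inv_pos.2 W.C_pos).le) fun _ _ => W.lo _)

lemma wt_pos (W : Wgt U C) (r : ℝ) (d : Dat a N) (b : Cfg N) : 0 < wt U r d b :=
  mul_pos (patW_pos W _ _) (Real.exp_pos _)

lemma lik_pos (W : Wgt U C) (r : ℝ) (d : Dat a N) : 0 < lik U r d :=
  mul_pos (by positivity) (Finset.sum_pos (fun b _ => wt_pos W r d b) Finset.univ_nonempty)

/-- An upper bound for the weights. -/
noncomputable def wHi (C r : ℝ) (a N : ℕ) (S : ℝ) : ℝ :=
  C ^ a * Real.exp (Real.sqrt r * S - r * N / 2)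

lemma wt_le (W : Wgt U C) (r : ℝ) (d : Dat a N) (b : Cfg N) : wt U r d b ≤ wHi C r a N (absSum d.2) := by
  refine mul_le_mul (patW_le W _ _) (Real.exp_le_exp.2 ?_) (Real.exp_pos _).le (pow_nonneg W.C_pos.le _)
  have := mul_le_mul_of_nonneg_left ((le_abs_self _).trans (abs_lin_le d.2 b)) (Real.sqrt_nonneg r)
  linarith

lemma le_wt (W : Wgt U C) (r : ℝ) (d : Dat a N) (b : Cfg N) :
    (C⁻¹) ^ a * Real.exp (-(Real.sqrt r * absSum d.2) - r * N / 2) ≤ wt U r d b := by
  refine mul_le_mul (le_patW W _ _) (Real.exp_le_exp.2 ?_) (Real.exp_pos _).le (patW_pos W _ _).le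
  have := mul_le_mul_of_nonneg_left ((neg_le_abs _).trans (abs_lin_le d.2 b)) (Real.sqrt_nonneg r)
  linarith [mul_neg (Real.sqrt r) (lin d.2 b)]

lemma lik_le (W : Wgt U C) (r : ℝ) (d : Dat a N) : lik U r d ≤ wHi C r a N (absSum d.2) := by
  refine (mul_le_mul_of_nonneg_left (Finset.sum_le_sum fun b _ => wt_le W r d b) (by positivity)).trans (le_of_eq ?_)
  rw [Finset.sum_const, nsmul_eq_mul, Finset.card_univ, ← mul_assoc, half_pow_mul_card, one_mul]

lemma le_lik (W : Wgt U C) (r : ℝ) (d : Dat a N) :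
    (C⁻¹) ^ a * Real.exp (-(Real.sqrt r * absSum d.2) - r * N / 2) ≤ lik U r d := by
  refine le_trans (le_of_eq ?_) (mul_le_mul_of_nonneg_left (Finset.sum_le_sum fun b _ => le_wt W r d b) (by positivity))
  rw [Finset.sum_const, nsmul_eq_mul, Finset.card_univ, ← mul_assoc, half_pow_mul_card, one_mul]

lemma abs_log_lik_le (W : Wgt U C) (r : ℝ) (d : Dat a N) :
    |Real.log (lik U r d)| ≤ a * Real.log C + Real.sqrt r * absSum d.2 + |r| * N / 2 := by
  have hl := Real.log_nonneg W.one_le
  have h1 := Real.log_le_log (lik_pos W r d) (lik_le W r d)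
  have h2 := Real.log_le_log (by have := W.C_pos; positivity) (le_lik W r d)
  rw [wHi, Real.log_mul (pow_ne_zero _ W.C_pos.ne') (Real.exp_ne_zero _), Real.log_pow, Real.log_exp] at h1
  rw [Real.log_mul (pow_ne_zero _ (inv_ne_zero W.C_pos.ne')) (Real.exp_ne_zero _), Real.log_pow,
    Real.log_inv, Real.log_exp] at h2
  have hn : (0 : ℝ) ≤ N := N.cast_nonneg
  have hr1 := mul_le_mul_of_nonneg_right (neg_le_abs r) hn
  have hr2 := mul_le_mul_of_nonneg_right (le_abs_self r) hn
  rw [abs_le]
  constructor <;> linarith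

lemma av_const (W : Wgt U C) (r : ℝ) (d : Dat a N) (x : ℝ) : av U r d (fun _ => x) = x := by
  unfold av
  rw [← Finset.sum_mul, ← mul_assoc]
  change lik U r d * x / lik U r d = x
  rw [mul_div_cancel_left₀ _ (lik_pos W r d).ne']

lemma av_add (r : ℝ) (d : Dat a N) (h k : Cfg N → ℝ) :
    av U r d (fun b => h b + k b) = av U r d h + av U r d k := by
  unfold av; rw [← add_div, ← mul_add, ← Finset.sum_add_distrib]
  congr 2; exact Finset.sum_congr rfl fun b _ => mul_add _ _ _

lemma av_mul (r : ℝ) (d : Dat a N) (x : ℝ) (h : Cfg N → ℝ) :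
    av U r d (fun b => x * h b) = x * av U r d h := by
  unfold av; rw [← mul_div_assoc, mul_left_comm x, Finset.mul_sum Finset.univ _ x]
  congr 2; exact Finset.sum_congr rfl fun b _ => mul_left_comm _ _ _

lemma av_mul_right (r : ℝ) (d : Dat a N) (x : ℝ) (h : Cfg N → ℝ) :
    av U r d (fun b => h b * x) = av U r d h * x := by
  simp_rw [mul_comm _ x]; exact av_mul r d x h

lemma av_sub (r : ℝ) (d : Dat a N) (h k : Cfg N → ℝ) :
    av U r d (fun b => h b - k b) = av U r d h - av U r d k := by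
  have := av_add (U := U) r d (fun b => h b - k b) k
  simp only [sub_add_cancel] at this
  linarith

lemma av_finsum {ι : Type*} (s : Finset ι) (r : ℝ) (d : Dat a N) (h : ι → Cfg N → ℝ) :
    av U r d (fun b => ∑ j ∈ s, h j b) = ∑ j ∈ s, av U r d (h j) := by
  unfold av
  rw [← Finset.sum_div, ← Finset.mul_sum, Finset.sum_comm]
  simp only [Finset.mul_sum]

lemma av_mono (W : Wgt U C) (r : ℝ) (d : Dat a N) {h k : Cfg N → ℝ} (hhk : ∀ b, h b ≤ k b) :
    av U r d h ≤ av U r d k :=
  div_le_div_of_nonneg_right (mul_le_mul_of_nonneg_left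
    (Finset.sum_le_sum fun b _ => mul_le_mul_of_nonneg_left (hhk b) (wt_pos W r d b).le) (by positivity))
    (lik_pos W r d).le

lemma abs_av_le (W : Wgt U C) (r : ℝ) (d : Dat a N) {h : Cfg N → ℝ} {B : ℝ} (hb : ∀ b, |h b| ≤ B) :
    |av U r d h| ≤ B := by
  rw [abs_le]
  exact ⟨(av_const W r d (-B)).symm.trans_le (av_mono W r d fun b => (abs_le.1 (hb b)).1),
    (av_mono W r d fun b => (abs_le.1 (hb b)).2).trans_eq (av_const W r d B)⟩

lemma lik_mul_av (W : Wgt U C) (r : ℝ) (d : Dat a N) (h : Cfg N → ℝ) :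
    lik U r d * av U r d h = (2⁻¹ : ℝ) ^ N * ∑ b, wt U r d b * h b :=
  mul_div_cancel₀ _ (lik_pos W r d).ne'

lemma fld_act (g : Fin N → ℝ) (s b : Cfg N) : fld (fun i => sp s i * g i) b = fld g (xr b s) := by
  unfold fld; refine Finset.sum_congr rfl fun i _ => ?_; rw [sp_xr]; ring

lemma wt_act (r : ℝ) (s : Cfg N) (d : Dat a N) (b : Cfg N) : wt U r (act s d) b = wt U r d (xr b s) := by
  unfold wt patW
  congr 1
  · exact Finset.prod_congr rfl fun c _ => by rw [← fld_act]; rfl
  · congr 3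
    exact Finset.sum_congr rfl fun i _ => by simp only [act, sp_xr]; ring

/-- The gauge action is a permutation of configurations. -/
def xrEquiv (s : Cfg N) : Cfg N ≃ Cfg N where
  toFun b := xr b s
  invFun b := xr b s
  left_inv b := xr_xr b s
  right_inv b := xr_xr b s

lemma lik_act (r : ℝ) (s : Cfg N) (d : Dat a N) : lik U r (act s d) = lik U r d := by
  unfold lik; simp_rw [wt_act]; rw [← (xrEquiv s).sum_comp (wt U r d)]; rfl

lemma av_act (r : ℝ) (s : Cfg N) (d : Dat a N) (h : Cfg N → ℝ) :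
    av U r (act s d) (fun b => h (xr b s)) = av U r d h := by
  unfold av
  rw [lik_act]
  simp_rw [wt_act]
  rw [← (xrEquiv s).sum_comp (fun b => wt U r d b * h b)]
  rfl

lemma map_act (s : Cfg N) : (nullM a N).map (act s) = nullM a N := by
  have h1 : (gaussVec (Fin N)).map (fun z i => sp s i * z i) = gaussVec (Fin N) := by
    unfold gaussVec
    have hs : ∀ i, (gaussianReal 0 1).map (fun z => sp s i * z) = gaussianReal 0 1 := fun i => by
      rw [gaussianReal_map_const_mul, mul_zero]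
      congr 1
      apply NNReal.eq
      simp [sp]
    have := Measure.pi_map_pi (μ := fun _ : Fin N => gaussianReal 0 1)
      (f := fun i (z : ℝ) => sp s i * z) (fun i => by fun_prop)
    simpa [hs] using this
  have h2 : (Measure.pi fun _ : Fin a => gaussVec (Fin N)).map (fun g c i => sp s i * g c i)
      = Measure.pi fun _ : Fin a => gaussVec (Fin N) := by
    have := Measure.pi_map_pi (μ := fun _ : Fin a => gaussVec (Fin N))
      (f := fun _ (z : Fin N → ℝ) i => sp s i * z i) (fun _ => Measurable.aemeasurable (measurable_pi_lambda _ fun i => (measurable_pi_apply i).const_mul _))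
    simpa [h1] using this
  have : act (a := a) s = Prod.map (fun g c i => sp s i * g c i) (fun z i => sp s i * z i) := rfl
  rw [this, nullM, ← Measure.map_prod_map _ _ (by fun_prop) (by fun_prop), h1, h2]

/-- Functions growing at most exponentially in the side observation. -/
def Gd (F : Dat a N → ℝ) : Prop :=
  Measurable F ∧ ∃ K c : ℝ, 0 ≤ K ∧ 0 ≤ c ∧ ∀ d, |F d| ≤ K * Real.exp (c * absSum d.2)

lemma integrable_exp_absSum (c : ℝ) :
    Integrable (fun z : Fin N → ℝ => Real.exp (c * absSum z)) (gaussVec (Fin N)) := by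
  have h : (fun z : Fin N → ℝ => Real.exp (c * absSum z)) = fun z => ∏ i, Real.exp (c * |z i|) := by
    funext z; rw [← Real.exp_sum, absSum, Finset.mul_sum]
  rw [h]
  refine Integrable.fintype_prod (f := fun _ (x : ℝ) => Real.exp (c * |x|)) fun _ => ?_
  refine ((integrable_exp_mul_gaussianReal c).add (integrable_exp_mul_gaussianReal (-c))).mono'
    (Continuous.aestronglyMeasurable (by fun_prop)) (ae_of_all _ fun z => ?_)
  rw [Real.norm_eq_abs, Real.abs_exp, Pi.add_apply]
  rcases le_total 0 z with h | h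
  · rw [abs_of_nonneg h]; linarith [Real.exp_pos (-c * z)]
  · rw [abs_of_nonpos h, mul_neg, ← neg_mul]; linarith [Real.exp_pos (c * z)]

lemma Gd.integrable {F : Dat a N → ℝ} (hF : Gd F) : Integrable F (nullM a N) := by
  obtain ⟨hm, K, c, hK, hc, hb⟩ := hF
  refine Integrable.mono' (g := fun d => K * Real.exp (c * absSum d.2))
    ((Integrable.comp_snd (integrable_exp_absSum c) _).const_mul K) hm.aestronglyMeasurable
    (ae_of_all _ fun d => by simpa using hb d)

lemma Gd.const (x : ℝ) : Gd (fun _ : Dat a N => x) :=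
  ⟨measurable_const, |x|, 0, abs_nonneg x, le_rfl, fun d => by simp⟩

lemma Gd.of_bdd {F : Dat a N → ℝ} (hm : Measurable F) {B : ℝ} (hb : ∀ d, |F d| ≤ B) : Gd F :=
  ⟨hm, |B|, 0, abs_nonneg B, le_rfl, fun d => by simpa using (hb d).trans (le_abs_self B)⟩

lemma Gd.mul {F G : Dat a N → ℝ} (hF : Gd F) (hG : Gd G) : Gd (fun d => F d * G d) := by
  obtain ⟨hm, K, c, hK, hc, hb⟩ := hF
  obtain ⟨hm', K', c', hK', hc', hb'⟩ := hG
  refine ⟨hm.mul hm', K * K', c + c', by positivity, by linarith, fun d => ?_⟩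
  rw [abs_mul, add_mul, Real.exp_add, mul_mul_mul_comm]
  exact mul_le_mul (hb d) (hb' d) (abs_nonneg _) (by positivity)

lemma Gd.add {F G : Dat a N → ℝ} (hF : Gd F) (hG : Gd G) : Gd (fun d => F d + G d) := by
  obtain ⟨hm, K, c, hK, hc, hb⟩ := hF
  obtain ⟨hm', K', c', hK', hc', hb'⟩ := hG
  refine ⟨hm.add hm', K + K', c + c', by positivity, by linarith, fun d => ?_⟩
  have hS := absSum_nonneg d.2
  refine (abs_add_le _ _).trans ?_
  rw [add_mul]
  refine add_le_add ((hb d).trans ?_) ((hb' d).trans ?_)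
  all_goals
    refine mul_le_mul_of_nonneg_left (Real.exp_le_exp.2 ?_) (by assumption)
    nlinarith

lemma Gd.neg {F : Dat a N → ℝ} (hF : Gd F) : Gd (fun d => -F d) := by
  obtain ⟨hm, K, c, hK, hc, hb⟩ := hF
  exact ⟨hm.neg, K, c, hK, hc, fun d => by simpa using hb d⟩

lemma Gd.sub {F G : Dat a N → ℝ} (hF : Gd F) (hG : Gd G) : Gd (fun d => F d - G d) := by
  simpa [sub_eq_add_neg] using hF.add hG.neg

lemma Gd.sum {ι : Type*} (s : Finset ι) {F : ι → Dat a N → ℝ} (hF : ∀ j ∈ s, Gd (F j)) :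
    Gd (fun d => ∑ j ∈ s, F j d) := by
  induction s using Finset.cons_induction with
  | empty => simpa using Gd.const (a := a) (N := N) 0
  | cons j s hj ih =>
    simp only [Finset.sum_cons]
    exact (hF j (Finset.mem_cons_self j s)).add (ih fun k hk => hF k (Finset.mem_cons_of_mem hk))

lemma measurable_wt (W : Wgt U C) (r : ℝ) (b : Cfg N) : Measurable fun d : Dat a N => wt U r d b := by
  unfold wt patW lin
  exact (Finset.measurable_prod _ fun c _ => W.meas.comp (by fun_prop)).mul (by fun_prop)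

lemma measurable_lik (W : Wgt U C) (r : ℝ) : Measurable fun d : Dat a N => lik U r d :=
  (Finset.measurable_sum _ fun b _ => measurable_wt W r b).const_mul _

lemma measurable_av (W : Wgt U C) (r : ℝ) {h : Dat a N → Cfg N → ℝ} (hh : ∀ b, Measurable fun d => h d b) :
    Measurable fun d : Dat a N => av U r d (h d) := by
  unfold av
  exact ((Finset.measurable_sum _ fun b _ => (measurable_wt W r b).mul (hh b)).const_mul _).div
    (measurable_lik W r)

lemma gd_wHi (W : Wgt U C) (r : ℝ) : Gd (fun d : Dat a N => wHi C r a N (absSum d.2)) := by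
  refine ⟨by unfold wHi; fun_prop, C ^ a * Real.exp (-(r * N / 2)), Real.sqrt r,
    by have := W.C_pos; positivity, Real.sqrt_nonneg r, fun d => le_of_eq ?_⟩
  have := W.C_pos
  simp only [wHi]
  rw [abs_of_nonneg (by positivity), mul_assoc, ← Real.exp_add]
  ring_nf

lemma gd_wt (W : Wgt U C) (r : ℝ) (b : Cfg N) : Gd (fun d : Dat a N => wt U r d b) := by
  obtain ⟨_, K, c, hK, hc, hb⟩ := gd_wHi (a := a) (N := N) W r
  exact ⟨measurable_wt W r b, K, c, hK, hc, fun d => by
    rw [abs_of_pos (wt_pos W r d b)]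
    exact (wt_le W r d b).trans ((le_abs_self _).trans (hb d))⟩

lemma gd_lik (W : Wgt U C) (r : ℝ) : Gd (fun d : Dat a N => lik U r d) :=
  (Gd.const _).mul (Gd.sum _ fun b _ => gd_wt W r b)

lemma gd_log_lik (W : Wgt U C) (r : ℝ) : Gd (fun d : Dat a N => Real.log (lik U r d)) := by
  refine ⟨(measurable_lik W r).log, a * Real.log C + |r| * N / 2 + Real.sqrt r, 1, ?_, zero_le_one, fun d => ?_⟩
  · have := Real.log_nonneg W.one_le; positivity
  · refine (abs_log_lik_le W r d).trans ?_
    have hE : absSum d.2 ≤ Real.exp (1 * absSum d.2) := by linarith [Real.add_one_le_exp (1 * absSum d.2)]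
    have hE1 : 1 ≤ Real.exp (1 * absSum d.2) := Real.one_le_exp (by linarith [absSum_nonneg d.2])
    have h1 := mul_le_mul_of_nonneg_left hE (Real.sqrt_nonneg r)
    have hl : 0 ≤ a * Real.log C + |r| * N / 2 := by
      have := Real.log_nonneg W.one_le; positivity
    have h2 := mul_le_mul_of_nonneg_left hE1 hl
    linarith

lemma gd_av (W : Wgt U C) (r : ℝ) {h : Dat a N → Cfg N → ℝ} (hh : ∀ b, Measurable fun d => h d b)
    {B : ℝ} (hb : ∀ d b, |h d b| ≤ B) : Gd (fun d : Dat a N => av U r d (h d)) :=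
  Gd.of_bdd (measurable_av W r hh) fun d => abs_av_le W r d (hb d)

/-- Planting one configuration equals averaging with the Gibbs measure. -/
lemma planted_eq (W : Wgt U C) (r : ℝ) {H : Dat a N → Cfg N → ℝ} (hg : ∀ b, Gd fun d => H d b)
    (hinv : ∀ s d b, H (act s d) b = H d (xr b s)) :
    ∫ d, wt U r d (ones N) * H d (ones N) ∂nullM a N = ∫ d, lik U r d * av U r d (H d) ∂nullM a N := by
  have hb : ∀ b, ∫ d, wt U r d b * H d b ∂nullM a N
      = ∫ d, wt U r d (ones N) * H d (ones N) ∂nullM a N := fun b => by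
    have hm : Measurable fun d => wt U r d b * H d b := (measurable_wt W r b).mul (hg b).1
    have hact : Measurable (act (a := a) b) := by unfold act; fun_prop
    conv_lhs => rw [← map_act b]
    rw [integral_map hact.aemeasurable hm.aestronglyMeasurable]
    refine integral_congr_ae (ae_of_all _ fun d => ?_)
    simp only [wt_act, hinv, xr_self]
  simp_rw [lik_mul_av W]
  rw [integral_const_mul, integral_finsetSum _ fun b _ => ((gd_wt W r b).mul (hg b)).integrable]
  simp_rw [hb]
  rw [Finset.sum_const, nsmul_eq_mul, Finset.card_univ, ← mul_assoc, half_pow_mul_card, one_mul]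

lemma planted_eq' (W : Wgt U C) (r : ℝ) {F : Dat a N → ℝ} (hg : Gd F) (hinv : ∀ s d, F (act s d) = F d) :
    ∫ d, wt U r d (ones N) * F d ∂nullM a N = ∫ d, lik U r d * F d ∂nullM a N := by
  rw [planted_eq W r (H := fun d _ => F d) (fun _ => hg) fun s d _ => hinv s d]
  simp_rw [av_const W]

end

/-- The total entropy. -/
noncomputable def Jt (U : ℝ → ℝ) (a N : ℕ) (r : ℝ) : ℝ :=
  ∫ d, ent (lik U r d) ∂nullM a N

/-- The mean overlap. -/
noncomputable def qv (U : ℝ → ℝ) (a N : ℕ) (r : ℝ) : ℝ :=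
  ∫ d, lik U r d * av U r d (fun b => av U r d (fun b' => ovl b b')) ∂nullM a N

/-- The mean squared fluctuation of the overlap. -/
noncomputable def vr (U : ℝ → ℝ) (a N : ℕ) (r : ℝ) : ℝ :=
  ∫ d, lik U r d * av U r d (fun b => av U r d (fun b' => (ovl b b' - qv U a N r) ^ 2)) ∂nullM a N

section

variable {U : ℝ → ℝ} {C : ℝ}

lemma Jt_eq_planted (W : Wgt U C) (r : ℝ) :
    Jt U a N r = ∫ d, wt U r d (ones N) * Real.log (lik U r d) ∂nullM a N := by
  rw [planted_eq' W r (gd_log_lik W r) fun s d => by rw [lik_act]]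
  rfl

lemma pair_planted (W : Wgt U C) (r : ℝ) (k : ℝ → ℝ) :
    ∫ d, wt U r d (ones N) * av U r d (fun b' => k (ovl (ones N) b')) ∂nullM a N
      = ∫ d, lik U r d * av U r d (fun b => av U r d (fun b' => k (ovl b b'))) ∂nullM a N := by
  refine planted_eq W r (H := fun d b => av U r d (fun b' => k (ovl b b'))) (fun b => ?_) fun s d b => ?_
  · exact gd_av W r (fun _ => measurable_const) (B := ∑ b', |k (ovl b b')|)
      fun _ b' => Finset.single_le_sum (f := fun c => |k (ovl b c)|) (fun _ _ => abs_nonneg _) (Finset.mem_univ b')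
  · rw [← av_act r s d fun b' => k (ovl (xr b s) b')]
    congr 1
    funext b'
    rw [ovl_xr]

end

end Vale.Agent.P157.Plant
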