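import Vale.Agent.P157.Plant.Transfer
import Mathlib.Analysis.SpecialFunctions.Trigonometric.DerivHyp

/-!
The planted entropy along discrete paths of the signal strength.
-/

open MeasureTheory ProbabilityTheory Filter Topology Set
open scoped BigOperators

namespace Vale.Agent.P157.Plant

variable {a N : ℕ} {U : ℝ → ℝ} {C : ℝ}

lemma abs_log_cosh_le' (x : ℝ) : |Real.log (Real.cosh x)| ≤ |x| := by
  rw [abs_of_nonneg (Real.log_nonneg (Real.one_le_cosh x))]
  conv_rhs => rw [← Real.log_exp |x|]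
  refine Real.log_le_log (Real.cosh_pos x) ?_
  rw [Real.cosh_eq]
  linarith [Real.exp_le_exp.2 (le_abs_self x), Real.exp_le_exp.2 (neg_le_abs x)]

/-- Without patterns the entropy is that of the scalar channel. -/
lemma Jt_empty (W : Wgt U C) {r : ℝ} (hr : 0 ≤ r) : Jt U 0 N r = N * cubeInfo r := by
  have hfac : ∀ d : Dat 0 N, lik U r d = Real.exp (-(r * N / 2)) * ∏ i, Real.cosh (Real.sqrt r * d.2 i) := fun d => by
    unfold lik wt patW
    simp only [Finset.univ_eq_empty, Finset.prod_empty, one_mul, sub_eq_add_neg, Real.exp_add]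
    rw [← Finset.sum_mul, ← mul_assoc, mul_comm]
    congr 1
    have e : ∀ b : Cfg N, Real.exp (Real.sqrt r * lin d.2 b)
        = ∏ i, Real.exp (Real.sqrt r * (d.2 i * if b i then 1 else -1)) := fun b => by
      rw [← Real.exp_sum, lin, Finset.mul_sum]; rfl
    simp_rw [e]
    rw [← Fintype.prod_sum (fun i (s : Bool) => Real.exp (Real.sqrt r * (d.2 i * if s then 1 else -1))),
      show (2⁻¹ : ℝ) ^ N = ∏ _i : Fin N, (2⁻¹ : ℝ) by simp, ← Finset.prod_mul_distrib]
    refine Finset.prod_congr rfl fun i _ => ?_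
    rw [Fintype.sum_bool, Real.cosh_eq]
    simp only [if_true, Bool.false_eq_true, if_false, mul_one, mul_neg]
    ring
  have habs : Integrable (fun z : ℝ => |z|) (gaussianReal 0 1) := by simpa using integrable_abs_pow_gauss 1
  have h1 : Integrable (fun z => Real.log (Real.cosh (r + Real.sqrt r * z))) (gaussianReal 0 1) := by
    refine Integrable.mono' ((integrable_const r).add (habs.const_mul (Real.sqrt r)))
      ((Real.continuous_cosh.log fun x => (Real.cosh_pos x).ne').comp (by fun_prop)).aestronglyMeasurable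
      (ae_of_all _ fun z => ?_)
    refine (abs_log_cosh_le' _).trans ((abs_add_le _ _).trans (le_of_eq ?_))
    simp [abs_of_nonneg hr, abs_of_nonneg (Real.sqrt_nonneg r)]
  rw [Jt_shift W hr]
  have e : ∀ d : Dat 0 N, patW U d.1 (ones N) * Real.log (lik U r (sh r d))
      = -(r * N / 2) + ∑ i, Real.log (Real.cosh (r + Real.sqrt r * d.2 i)) := fun d => by
    rw [hfac, Real.log_mul (Real.exp_ne_zero _) (Finset.prod_ne_zero_iff.2 fun i _ => (Real.cosh_pos _).ne'),
      Real.log_exp, Real.log_prod fun i _ => (Real.cosh_pos _).ne']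
    simp [patW, sh, shv, mul_add, Real.mul_self_sqrt hr]
  simp_rw [e]
  have hi : ∀ i, Integrable (fun d : Dat 0 N => Real.log (Real.cosh (r + Real.sqrt r * d.2 i))) (nullM 0 N) := fun i =>
    Integrable.comp_snd ((measurePreserving_eval (fun _ : Fin N => gaussianReal 0 1) i).integrable_comp_of_integrable h1) _
  rw [integral_add (integrable_const _) (integrable_finsetSum _ fun i _ => hi i), integral_finsetSum _ fun i _ => hi i]
  have hv : ∀ i, ∫ d : Dat 0 N, Real.log (Real.cosh (r + Real.sqrt r * d.2 i)) ∂nullM 0 N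
      = cubeInfo r + r / 2 := fun i => by
    rw [nullM, integral_fun_snd (fun z : Fin N → ℝ => Real.log (Real.cosh (r + Real.sqrt r * z i))), gaussVec,
      integral_comp_eval (μ := fun _ : Fin N => gaussianReal 0 1) (i := i)
        (f := fun z : ℝ => Real.log (Real.cosh (r + Real.sqrt r * z))) h1.aestronglyMeasurable]
    simp [cubeInfo]
  simp_rw [hv]
  simp
  ring

lemma cubeInfo_lip (W : Wgt U C) {r r' : ℝ} (hr : 0 ≤ r) (hrr : r ≤ r') :
    cubeInfo r ≤ cubeInfo r' ∧ cubeInfo r' - cubeInfo r ≤ (r' - r) / 2 := by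
  have hs := Jt_slope (a := 0) (N := 1) W one_pos hr hrr
  rw [Jt_empty W hr, Jt_empty W (hr.trans hrr)] at hs
  simp only [Nat.cast_one, one_mul] at hs
  have h0 := qv_nonneg (a := 0) (N := 1) W one_pos r
  have h1 := qv_le_one (a := 0) (N := 1) W one_pos (hr.trans hrr)
  constructor <;> nlinarith

lemma qv_lt_one (W : Wgt U C) (hN : 0 < N) {r : ℝ} (hr : 0 ≤ r) : qv U a N r < 1 := by
  rw [← planted_qv W, ← integral_wt (a := a) W hr hN]
  have i1 := (gd_wt (a := a) W r (ones N)).integrable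
  have i2 := ((gd_wt W r (ones N)).mul (gd_av_const W r _ fun b => abs_ovl_le (ones N) b)).integrable (a := a)
  have hpos : ∀ d : Dat a N, 0 < wt U r d (ones N)
      - wt U r d (ones N) * av U r d (fun b => ovl (ones N) b) := fun d => by
    have : av U r d (fun b => ovl (ones N) b) < 1 := by
      conv_rhs => rw [← av_const W r d 1]
      unfold av
      refine div_lt_div_of_pos_right (mul_lt_mul_of_pos_left ?_ (by positivity)) (lik_pos W r d)
      refine Finset.sum_lt_sum (fun b _ => mul_le_mul_of_nonneg_left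
        ((le_abs_self _).trans (abs_ovl_le _ b)) (wt_pos W r d b).le) ⟨fun _ => false, Finset.mem_univ _, ?_⟩
      refine mul_lt_mul_of_pos_left ?_ (wt_pos W r d _)
      unfold ovl
      rw [div_lt_iff₀ (by exact_mod_cast hN)]
      simp [sp, ones]
      exact hN
    nlinarith [wt_pos W r d (ones N)]
  rw [← sub_pos, ← integral_sub i1 i2,
    integral_pos_iff_support_of_nonneg (fun d => (hpos d).le) (i1.sub i2)]
  rw [Set.eq_univ_of_forall fun d => Function.mem_support.2 (hpos d).ne']
  simp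

lemma vr_nonneg (W : Wgt U C) (r : ℝ) : 0 ≤ vr U a N r :=
  integral_nonneg fun d => mul_nonneg (lik_pos W r d).le
    ((av_const W r d 0).symm.trans_le (av_mono W r d fun b => (av_const W r d 0).symm.trans_le
      (av_mono W r d fun b' => sq_nonneg _)))

lemma telescope {q : ℝ → ℝ} (hm : ∀ x y, 0 ≤ x → x ≤ y → q x ≤ q y) (h0 : ∀ x, 0 ≤ x → 0 ≤ q x)
    (h1 : ∀ x, 0 ≤ x → q x ≤ 1) {δ : ℝ} (hδ : 0 ≤ δ) {x : ℕ → ℝ} (hx0 : δ ≤ x 0)
    (hsep : ∀ j, x j + 2 * δ ≤ x (j + 1)) (K : ℕ) :
    ∑ j ∈ Finset.range K, (q (x j + δ) - q (x j - δ)) ≤ 1 := by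
  have hx : ∀ j, δ ≤ x j := by
    intro j
    induction j with
    | zero => exact hx0
    | succ j ih => linarith [hsep j]
  have key : ∀ K, ∑ j ∈ Finset.range K, (q (x j + δ) - q (x j - δ)) + q (x 0 - δ) ≤ q (x K - δ) := by
    intro K
    induction K with
    | zero => simp
    | succ K ih =>
      rw [Finset.sum_range_succ]
      have := hm (x K + δ) (x (K + 1) - δ) (by linarith [hx K]) (by linarith [hsep K])
      linarith
  linarith [key K, h0 (x 0 - δ) (by linarith), h1 (x K - δ) (by linarith [hx K])]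

/-- The error per pattern, summed over the grid. -/
noncomputable def gridErr (C : ℝ) (M N : ℕ) (R η : ℝ) (K₀ : ℕ) : ℝ :=
  K₀ * ((8 * Real.log 2 + 32 * Real.sqrt (N * (R + η)) + 32 * Real.sqrt (M * Real.log C ^ 2))
      / (N * (η / (2 * K₀))) + 8 * (η / (2 * K₀)) / (η * Real.sqrt η)) + 2

lemma vr_grid (W : Wgt U C) (hN : 0 < N) {M : ℕ} (ha : a ≤ M) {η R : ℝ} (hη : 0 < η) {K₀ : ℕ} (hK : 0 < K₀)
    {x : ℕ → ℝ} (hx0 : η ≤ x 0) (hsep : ∀ j, x j + 2 * (η / (2 * K₀)) ≤ x (j + 1))
    (hR : ∀ j, j < K₀ → x j ≤ R) :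
    ∑ j ∈ Finset.range K₀, vr U a N (x j) ≤ gridErr C M N R η K₀ := by
  set δ := η / (2 * (K₀ : ℝ)) with hδdef
  have hK' : (1 : ℝ) ≤ K₀ := by exact_mod_cast hK
  have hδ : 0 < δ := by positivity
  have hδη : δ < η := by
    rw [hδdef, div_lt_iff₀ (by positivity)]; nlinarith
  have hx : ∀ j, η ≤ x j := by
    intro j
    induction j with
    | zero => exact hx0
    | succ j ih => linarith [hsep j]
  set A := 8 * Real.log 2 + 32 * Real.sqrt (N * (R + η)) + 32 * Real.sqrt (M * Real.log C ^ 2)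
  have hn : (0 : ℝ) < N := by exact_mod_cast hN
  have hb : ∀ j, j < K₀ → vr U a N (x j)
      ≤ A / (N * δ) + 8 * δ / (η * Real.sqrt η) + 2 * (qv U a N (x j + δ) - qv U a N (x j - δ)) := by
    intro j hj
    set r := x j
    have hr : η ≤ r := hx j
    have h := vr_bound (a := a) W hδ (hδη.trans_le hr) hN
    have e1 : Real.sqrt (N * (r + δ)) ≤ Real.sqrt (N * (R + η)) :=
      Real.sqrt_le_sqrt (mul_le_mul_of_nonneg_left (by linarith [hR j hj]) hn.le)
    have e2 : Real.sqrt (a * Real.log C ^ 2) ≤ Real.sqrt (M * Real.log C ^ 2) :=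
      Real.sqrt_le_sqrt (mul_le_mul_of_nonneg_right (Nat.cast_le.2 ha) (sq_nonneg _))
    have e3 : |1 / (Real.sqrt (r + δ) + Real.sqrt r) - 1 / (Real.sqrt (r - δ) + Real.sqrt r)|
        ≤ 2 * δ / (η * Real.sqrt η) := by
      have hr0 : 0 < r := hη.trans_le hr
      set u := Real.sqrt (r + δ)
      set v := Real.sqrt (r - δ)
      set w := Real.sqrt r
      have hw : 0 < w := Real.sqrt_pos.2 hr0
      have hwu : w ≤ u := Real.sqrt_le_sqrt (by linarith)
      have hv : 0 ≤ v := Real.sqrt_nonneg _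
      have hvu : v ≤ u := Real.sqrt_le_sqrt (by linarith)
      have hww : η ≤ w * w := by rw [Real.mul_self_sqrt hr0.le]; exact hr
      have hwη : Real.sqrt η ≤ w := Real.sqrt_le_sqrt hr
      have huv : (u - v) * (u + v) = 2 * δ := by
        have := Real.mul_self_sqrt (show 0 ≤ r + δ by linarith)
        have := Real.mul_self_sqrt (show 0 ≤ r - δ by linarith)
        nlinarith
      rw [div_sub_div _ _ (by positivity) (by positivity), abs_div,
        abs_of_pos (show 0 < (u + w) * (v + w) by positivity),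
        show 1 * (v + w) - (u + w) * 1 = -(u - v) by ring, abs_neg, abs_of_nonneg (sub_nonneg.2 hvu),
        div_le_div_iff₀ (by positivity) (by positivity)]
      have h1 : (u - v) * Real.sqrt η ≤ 2 * δ :=
        (mul_le_mul_of_nonneg_left (hwη.trans (by linarith : w ≤ u + v)) (sub_nonneg.2 hvu)).trans huv.le
      have h2 : η ≤ (u + w) * (v + w) := hww.trans (mul_le_mul (by linarith) (by linarith) hw.le (by linarith))
      calc (u - v) * (η * Real.sqrt η) = (u - v) * Real.sqrt η * η := by ring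
        _ ≤ 2 * δ * ((u + w) * (v + w)) := mul_le_mul h1 h2 hη.le (by linarith)
    have h3 : (N : ℝ) * δ * vr U a N r ≤ N * δ * (A / (N * δ) + 8 * δ / (η * Real.sqrt η)
        + 2 * (qv U a N (r + δ) - qv U a N (r - δ))) := by
      refine h.trans ?_
      conv_rhs => rw [mul_add, mul_add, mul_div_cancel₀ _ (by positivity : (N : ℝ) * δ ≠ 0)]
      have h4 := mul_le_mul_of_nonneg_left e3 (show 0 ≤ 4 * δ * N by positivity)
      have h5 : 4 * δ * N * (2 * δ / (η * Real.sqrt η)) = N * δ * (8 * δ / (η * Real.sqrt η)) := by ring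
      simp only [A]
      linarith
    exact le_of_mul_le_mul_left h3 (by positivity)
  refine (Finset.sum_le_sum fun j hj => hb j (Finset.mem_range.1 hj)).trans ?_
  rw [Finset.sum_add_distrib, Finset.sum_const, Finset.card_range, nsmul_eq_mul, ← Finset.mul_sum]
  have ht := telescope (q := qv U a N) (fun x y h1 h2 => qv_mono W hN h1 h2) (fun x _ => qv_nonneg W hN x)
    (fun x h => qv_le_one W hN h) hδ.le (hδη.le.trans hx0) hsep K₀
  unfold gridErr
  linarith

/-- The path chosen backwards from the top, by the slopes at the overlaps met. -/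
noncomputable def upPath (U : ℝ → ℝ) (c : ℝ → ℝ) (M N : ℕ) : ℕ → ℝ → ℝ
  | 0, e => e
  | k + 1, e => upPath U c M N k e + 2 * c (qv U (M - (k + 1)) N (upPath U c M N k e)) / N

/-- A vanishing entropy under the condition, up to an explicit error. -/
lemma Jt_upper (W : Wgt U C) (hN : 0 < N) {α : ℝ} {M : ℕ} (hM : (M : ℝ) ≤ α * N)
    (hcond : ∀ q : ℝ, 0 ≤ q → q < 1 → ∃ r : ℝ, 0 ≤ r ∧ α * plantEnt U q ≤ r * q / 2 - cubeInfo r)
    {ε : ℝ} {c : ℝ → ℝ} {L : ℝ} (hcm : Monotone c) (hcb : ∀ q, 0 ≤ c q ∧ c q ≤ L)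
    (hcs : ∀ q ∈ Icc (0 : ℝ) 1, ∀ p ∈ Icc (0 : ℝ) 1, plantEnt U q + c q * (p - q) ≤ plantEnt U p + ε)
    {Kc : ℝ} (hKc : 0 ≤ Kc)
    (hinc : ∀ (a N : ℕ) (r : ℝ), 0 < N → 0 ≤ r →
      |Jt U (a + 1) N r - Jt U a N r - plantEnt U (qv U a N r)| ≤ ε + Kc * vr U a N r)
    {η : ℝ} (hη : 0 < η) {K₀ : ℕ} (hK : 0 < K₀) :
    K₀ * Jt U M N 0 ≤ K₀ * (2 * ε * M + η * N) + Kc * (M * gridErr C M N (2 * η + 2 * L * α) η K₀) := by
  set δ := η / (2 * (K₀ : ℝ)) with hδdef
  have hn : (0 : ℝ) < N := by exact_mod_cast hN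
  set s := upPath U c M N
  have hstep : ∀ k e, s k e ≤ s (k + 1) e ∧ s (k + 1) e ≤ s k e + 2 * L / N := fun k e => by
    simp only [s, upPath]
    exact ⟨le_add_of_nonneg_right (div_nonneg (mul_nonneg zero_le_two (hcb _).1) hn.le),
      add_le_add le_rfl (div_le_div_of_nonneg_right (mul_le_mul_of_nonneg_left (hcb _).2 zero_le_two) hn.le)⟩
  have hlo : ∀ k e, e ≤ s k e := fun k e => by
    induction k with
    | zero => exact le_rfl
    | succ k ih => exact ih.trans (hstep k e).1
  have hhi : ∀ k e, s k e ≤ e + k * (2 * L / N) := fun k e => by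
    induction k with
    | zero => simp [s, upPath]
    | succ k ih => push_cast; linarith [(hstep k e).2]
  have hmono : ∀ k e e', 0 ≤ e → e ≤ e' → s k e + (e' - e) ≤ s k e' := fun k e e' he hee => by
    induction k with
    | zero => simp [s, upPath]
    | succ k ih =>
      simp only [s, upPath] at ih ⊢
      have := hcm (qv_mono (a := M - (k + 1)) W hN (he.trans (hlo k e)) (show s k e ≤ s k e' by simp only [s]; linarith))
      have := div_le_div_of_nonneg_right (mul_le_mul_of_nonneg_left this (zero_le_two (α := ℝ))) hn.le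
      simp only [s] at this
      linarith
  set e : ℕ → ℝ := fun j => η + j * (2 * δ)
  have he0 : ∀ j, η ≤ e j := fun j => le_add_of_nonneg_right (by positivity)
  have hsep : ∀ k j, s k (e j) + 2 * δ ≤ s k (e (j + 1)) := fun k j => by
    have h1 : e (j + 1) - e j = 2 * δ := by simp only [e]; push_cast; ring
    have := hmono k (e j) (e (j + 1)) (hη.le.trans (he0 j)) (by linarith [show 0 ≤ δ by positivity])
    linarith
  have hL : 0 ≤ L := (hcb 0).1.trans (hcb 0).2
  have hR : ∀ k, k ≤ M → ∀ j, j < K₀ → s k (e j) ≤ 2 * η + 2 * L * α := fun k hk j hj => by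
    refine (hhi k _).trans ?_
    have h1 : (j : ℝ) * (2 * δ) ≤ η := by
      rw [hδdef, show (j : ℝ) * (2 * (η / (2 * K₀))) = j / K₀ * η by field_simp]
      exact mul_le_of_le_one_left hη.le ((div_le_one (by positivity)).2 (Nat.cast_le.2 hj.le))
    have h2 : (k : ℝ) * (2 * L / N) ≤ 2 * L * α := by
      rw [mul_div_assoc', div_le_iff₀ hn]
      calc (k : ℝ) * (2 * L) ≤ (α * N) * (2 * L) :=
            mul_le_mul_of_nonneg_right ((Nat.cast_le.2 hk).trans hM) (by positivity)
        _ = _ := by ring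
    simp only [e]
    linarith
  -- one path
  have hpath : ∀ e₀, 0 ≤ e₀ → Jt U M N e₀ ≤ N * e₀ / 2 + 2 * ε * M
      + Kc * ∑ k ∈ Finset.range M, vr U (M - (k + 1)) N (s k e₀) := by
    intro e₀ he
    set t := s M e₀
    have ht : 0 ≤ t := he.trans (hlo M e₀)
    set p := qv U 0 N t with hpdef
    have hp : p ∈ Icc (0 : ℝ) 1 := ⟨qv_nonneg W hN t, qv_le_one W hN ht⟩
    have hdown : ∀ k, k ≤ M → Jt U M N e₀ ≤ Jt U (M - k) N (s k e₀) + k * (plantEnt U p + 2 * ε)
        - p * N * (s k e₀ - e₀) / 2 + Kc * ∑ i ∈ Finset.range k, vr U (M - (i + 1)) N (s i e₀) := by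
      intro k
      induction k with
      | zero => intro _; simp [s, upPath]
      | succ k ih =>
        intro hk
        set b := M - (k + 1)
        have hbk : M - k = b + 1 := by simp only [b]; omega
        set r := s k e₀
        set q := qv U b N r
        have hr : 0 ≤ r := he.trans (hlo k e₀)
        have hq : q ∈ Icc (0 : ℝ) 1 := ⟨qv_nonneg W hN r, qv_le_one W hN hr⟩
        have hnext : s (k + 1) e₀ = r + 2 * c q / N := rfl
        have h1 := (abs_le.1 (hinc b N r hN hr)).2
        have h2 := (Jt_slope (a := b) W hN hr (hnext ▸ (hstep k e₀).1 : r ≤ r + 2 * c q / N)).1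
        have h3 : N * q / 2 * (r + 2 * c q / N - r) = q * c q := by field_simp; ring
        have h4 := hcs q hq p hp
        have h5 := ih (by omega)
        rw [hbk] at h5
        rw [Finset.sum_range_succ, hnext]
        push_cast
        have h6 : p * N * (r + 2 * c q / N - e₀) / 2 = p * N * (r - e₀) / 2 + p * c q := by field_simp; ring
        simp only [q] at h1 h3 h4 h6 ⊢
        linarith
    have h := hdown M le_rfl
    rw [Nat.sub_self, Jt_empty W ht] at h
    obtain ⟨r, hr, hcond'⟩ := hcond p hp.1 (qv_lt_one W hN ht)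
    have htan : cubeInfo t + p / 2 * (r - t) ≤ cubeInfo r := by
      refine le_of_mul_le_mul_left (a := (N : ℝ)) ?_ hn
      rw [mul_add, ← Jt_empty W ht, ← Jt_empty W hr]
      rcases le_total t r with hle | hle
      · have := (Jt_slope (a := 0) W hN ht hle).1
        simp only [p] at *
        linarith
      · have := (Jt_slope (a := 0) W hN hr hle).2
        simp only [p] at *
        linarith
    have h7 : (M : ℝ) * plantEnt U p ≤ N * (α * plantEnt U p) := by
      calc (M : ℝ) * plantEnt U p ≤ α * N * plantEnt U p := mul_le_mul_of_nonneg_right hM (W.plantEnt_nonneg hp)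
        _ = _ := by ring
    have h8 := mul_le_mul_of_nonneg_left (show α * plantEnt U p + (cubeInfo t - p * t / 2) ≤ 0 by linarith) hn.le
    have h9 : p * N * e₀ / 2 ≤ N * e₀ / 2 := by
      have := mul_le_mul_of_nonneg_right hp.2 (show 0 ≤ (N : ℝ) * e₀ by positivity)
      linarith
    simp only [t] at h8 ⊢
    linarith
  have hsum : (K₀ : ℝ) * Jt U M N 0 ≤ ∑ j ∈ Finset.range K₀, (N * η + 2 * ε * M
      + Kc * ∑ k ∈ Finset.range M, vr U (M - (k + 1)) N (s k (e j))) := by
    calc (K₀ : ℝ) * Jt U M N 0 = ∑ _j ∈ Finset.range K₀, Jt U M N 0 := by simp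
      _ ≤ _ := Finset.sum_le_sum fun j hj => by
        have hej : 0 ≤ e j := hη.le.trans (he0 j)
        have h1 := (Jt_slope (a := M) W hN le_rfl hej).1
        have h2 : 0 ≤ (N : ℝ) * qv U M N 0 / 2 * (e j - 0) :=
          mul_nonneg (div_nonneg (mul_nonneg hn.le (qv_nonneg W hN 0)) two_pos.le) (by linarith)
        have h3 : e j ≤ 2 * η := by
          have := hR 0 (Nat.zero_le M) j (Finset.mem_range.1 hj)
          have hj' : (j : ℝ) * (2 * δ) ≤ η := by
            rw [hδdef, show (j : ℝ) * (2 * (η / (2 * K₀))) = j / K₀ * η by field_simp]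
            exact mul_le_of_le_one_left hη.le ((div_le_one (by positivity)).2 (Nat.cast_le.2 (Finset.mem_range.1 hj).le))
          simp only [e]; linarith
        have h4 := mul_le_mul_of_nonneg_left h3 hn.le
        linarith [hpath (e j) hej]
  refine hsum.trans ?_
  rw [Finset.sum_add_distrib, Finset.sum_const, Finset.card_range, nsmul_eq_mul, ← Finset.mul_sum, Finset.sum_comm]
  refine add_le_add (le_of_eq (by ring)) (mul_le_mul_of_nonneg_left ?_ hKc)
  refine (Finset.sum_le_sum fun k hk => vr_grid W hN (Nat.sub_le _ _) hη hK ((he0 0).trans (hlo k _)) (hsep k)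
    fun j hj => hR k (Finset.mem_range.1 hk).le j hj).trans (le_of_eq ?_)
  simp

/-- A lower bound by the linear path. -/
lemma Jt_lower (W : Wgt U C) (hN : 0 < N) {α : ℝ} {M : ℕ} (hM : (M : ℝ) ≤ α * N) {ε p c : ℝ}
    (hp : p ∈ Icc (0 : ℝ) 1) (hc : 0 ≤ c)
    (hcs : ∀ q ∈ Icc (0 : ℝ) 1, plantEnt U p + c * (q - p) ≤ plantEnt U q)
    {Kc : ℝ} (hKc : 0 ≤ Kc)
    (hinc : ∀ (a N : ℕ) (r : ℝ), 0 < N → 0 ≤ r →
      |Jt U (a + 1) N r - Jt U a N r - plantEnt U (qv U a N r)| ≤ ε + Kc * vr U a N r)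
    {η : ℝ} (hη : 0 < η) {K₀ : ℕ} (hK : 0 < K₀) (hδN : 2 * c / N ≤ η / (2 * K₀)) :
    ∑ j ∈ Finset.range K₀, (N * cubeInfo (η + j * (2 * (η / (2 * K₀))) + 2 * c * M / N))
        + K₀ * (M * (plantEnt U p - c * p - ε)) - c * M - Kc * (M * gridErr C M N (2 * η + 2 * c * α) η K₀)
        - K₀ * (η * N)
      ≤ K₀ * Jt U M N 0 := by
  set δ := η / (2 * (K₀ : ℝ)) with hδdef
  have hn : (0 : ℝ) < N := by exact_mod_cast hN
  have hd : 0 < δ := by positivity
  set e : ℕ → ℝ := fun j => η + j * (2 * δ)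
  have he0 : ∀ j, η ≤ e j := fun j => le_add_of_nonneg_right (by positivity)
  have he2 : ∀ j, j < K₀ → e j ≤ 2 * η := fun j hj => by
    have hj' : (j : ℝ) * (2 * δ) ≤ η := by
      rw [hδdef, show (j : ℝ) * (2 * (η / (2 * K₀))) = j / K₀ * η by field_simp]
      exact mul_le_of_le_one_left hη.le ((div_le_one (by positivity)).2 (Nat.cast_le.2 hj.le))
    simp only [e]; linarith
  set s : ℕ → ℝ → ℝ := fun k e₀ => e₀ + 2 * c * k / N with hsdef
  have hlo : ∀ k e₀, e₀ ≤ s k e₀ := fun k e₀ => le_add_of_nonneg_right (by positivity)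
  have hsep : ∀ k j, s k (e j) + 2 * δ ≤ s k (e (j + 1)) := fun k j => by
    simp only [hsdef, e]; push_cast; linarith
  have hR : ∀ k, k ≤ M → ∀ j, j < K₀ → s k (e j) ≤ 2 * η + 2 * c * α := fun k hk j hj => by
    have h2 : 2 * c * k / (N : ℝ) ≤ 2 * c * α := by
      rw [div_le_iff₀ hn, mul_assoc (2 * c)]
      exact mul_le_mul_of_nonneg_left ((Nat.cast_le.2 hk).trans hM) (by positivity)
    simp only [hsdef]
    linarith [he2 j hj]
  have hpath : ∀ e₀, η ≤ e₀ → N * cubeInfo (s M e₀) + M * (plantEnt U p - c * p - ε)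
      - ∑ k ∈ Finset.range M, (Kc * vr U (M - (k + 1)) N (s k e₀)
        + c * (qv U (M - (k + 1)) N (s k e₀ + δ) - qv U (M - (k + 1)) N (s k e₀ - δ)))
      ≤ Jt U M N e₀ := by
    intro e₀ he
    have hdown : ∀ k, k ≤ M → Jt U (M - k) N (s k e₀) + k * (plantEnt U p - c * p - ε)
        - ∑ i ∈ Finset.range k, (Kc * vr U (M - (i + 1)) N (s i e₀)
          + c * (qv U (M - (i + 1)) N (s i e₀ + δ) - qv U (M - (i + 1)) N (s i e₀ - δ)))
        ≤ Jt U M N e₀ := by
      intro k
      induction k with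
      | zero => intro _; simp [hsdef]
      | succ k ih =>
        intro hk
        set b := M - (k + 1)
        have hbk : M - k = b + 1 := by simp only [b]; omega
        set r := s k e₀
        have hr : η ≤ r := he.trans (hlo k e₀)
        have hr0 : 0 ≤ r := hη.le.trans hr
        have hδη : δ ≤ η := by
          rw [hδdef, div_le_iff₀ (by positivity)]
          nlinarith [show (1 : ℝ) ≤ K₀ by exact_mod_cast hK]
        have hnext : s (k + 1) e₀ = r + 2 * c / N := by simp only [r, hsdef]; push_cast; ring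
        have hstep : r ≤ r + 2 * c / N := le_add_of_nonneg_right (by positivity)
        have h1 := (abs_le.1 (hinc b N r hN hr0)).1
        have h2 := (Jt_slope (a := b) W hN hr0 hstep).2
        set qn := qv U b N (r + 2 * c / N)
        have h3 : N * qn / 2 * (r + 2 * c / N - r) = qn * c := by field_simp; ring
        have h4 := hcs _ ⟨qv_nonneg (a := b) W hN r, qv_le_one W hN hr0⟩
        have h5 := ih (by omega)
        have h7 := qv_mono (a := b) W hN (hr0.trans hstep) (show r + 2 * c / N ≤ r + δ by linarith)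
        have h8 := qv_mono (a := b) W hN (show 0 ≤ r - δ by linarith) (show r - δ ≤ r by linarith)
        have h9 := mul_le_mul_of_nonneg_left (show qn - qv U b N r ≤ qv U b N (r + δ) - qv U b N (r - δ) by linarith) hc
        rw [hbk] at h5
        rw [Finset.sum_range_succ, hnext]
        push_cast
        linarith
    have h := hdown M le_rfl
    rw [Nat.sub_self, Jt_empty W ((hη.le.trans he).trans (hlo M e₀))] at h
    linarith
  have h1 : ∑ j ∈ Finset.range K₀, (N * cubeInfo (s M (e j)) + M * (plantEnt U p - c * p - ε)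
      - ∑ k ∈ Finset.range M, (Kc * vr U (M - (k + 1)) N (s k (e j))
        + c * (qv U (M - (k + 1)) N (s k (e j) + δ) - qv U (M - (k + 1)) N (s k (e j) - δ))) - η * N)
      ≤ ∑ _j ∈ Finset.range K₀, Jt U M N 0 := by
    refine Finset.sum_le_sum fun j hj => ?_
    have hej : 0 ≤ e j := hη.le.trans (he0 j)
    have h1 := (Jt_slope (a := M) W hN le_rfl hej).2
    have hq := qv_le_one (a := M) W hN hej
    have h2 : (N : ℝ) * qv U M N (e j) / 2 * (e j - 0) ≤ η * N := by
      calc (N : ℝ) * qv U M N (e j) / 2 * (e j - 0) ≤ N * 1 / 2 * (2 * η) := by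
            refine mul_le_mul ?_ (by linarith [he2 j (Finset.mem_range.1 hj)]) (by linarith) (by positivity)
            gcongr
        _ = _ := by ring
    linarith [hpath (e j) (he0 j)]
  simp only [Finset.sum_add_distrib, Finset.sum_sub_distrib, Finset.sum_const, Finset.card_range, nsmul_eq_mul,
    ← Finset.mul_sum] at h1
  rw [Finset.sum_comm (f := fun j k => vr U (M - (k + 1)) N (s k (e j))),
    Finset.sum_comm (f := fun j k => qv U (M - (k + 1)) N (s k (e j) + δ)),
    Finset.sum_comm (f := fun j k => qv U (M - (k + 1)) N (s k (e j) - δ))] at h1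
  have hV := mul_le_mul_of_nonneg_left (Finset.sum_le_sum fun k hk => vr_grid W hN (Nat.sub_le M (k + 1)) hη hK
    ((he0 0).trans (hlo k _)) (hsep k) fun j hj => hR k (Finset.mem_range.1 hk).le j hj) hKc
  simp only [Finset.sum_const, Finset.card_range, nsmul_eq_mul] at hV
  have hδη' : δ ≤ η := by
    rw [hδdef, div_le_iff₀ (by positivity)]
    nlinarith [show (1 : ℝ) ≤ K₀ by exact_mod_cast hK]
  have hT : ∑ k ∈ Finset.range M, (∑ j ∈ Finset.range K₀, qv U (M - (k + 1)) N (s k (e j) + δ)
      - ∑ j ∈ Finset.range K₀, qv U (M - (k + 1)) N (s k (e j) - δ)) ≤ M := by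
    refine (Finset.sum_le_sum fun k hk => ?_).trans (le_of_eq (show ∑ _k ∈ Finset.range M, (1 : ℝ) = M by simp))
    rw [← Finset.sum_sub_distrib]
    exact telescope (q := qv U (M - (k + 1)) N) (fun x y h1 h2 => qv_mono W hN h1 h2)
      (fun x _ => qv_nonneg W hN x) (fun x h => qv_le_one W hN h) hd.le
      (hδη'.trans ((he0 0).trans (hlo k _))) (hsep k) K₀
  rw [Finset.sum_sub_distrib] at hT
  have hcT := mul_le_mul_of_nonneg_left hT hc
  simp only [hsdef, e] at h1 hV hcT ⊢
  rw [← Finset.mul_sum]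
  linarith

end Vale.Agent.P157.Plant
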