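import Vale.Agent.P157.Plant.Conc

/-!
The pressure equals its annealed value to first order exactly when the planted entropy vanishes
to first order.
-/

open MeasureTheory ProbabilityTheory Filter Topology Set
open scoped BigOperators

namespace Vale.Agent.P157.Plant

variable {a N : ℕ} {U : ℝ → ℝ} {C : ℝ}

lemma exp_le_quad {u : ℝ} (h : |u| ≤ 1) : Real.exp u ≤ 1 + u + u ^ 2 := by
  have := (abs_le.1 (Real.abs_exp_sub_one_sub_id_le h)).2
  linarith

/-- Exponential moments under bounded differences. -/
lemma pi_mgf {X : Type*} [MeasurableSpace X] (μ : Measure X) [IsProbabilityMeasure μ] {c t : ℝ}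
    (htc : |t| * c ≤ 1) :
    ∀ (n : ℕ) (F : (Fin n → X) → ℝ) (B : ℝ), Measurable F → (∀ x, |F x| ≤ B) →
      (∀ x i y, |F x - F (Function.update x i y)| ≤ c) →
      ∫ x, Real.exp (t * F x) ∂Measure.pi (fun _ => μ)
        ≤ Real.exp (t * (∫ x, F x ∂Measure.pi fun _ => μ) + n * (t ^ 2 * c ^ 2)) := by
  intro n
  induction n with
  | zero =>
    intro F B _ _ _
    have e : F = fun _ => F finZeroElim := funext fun x => congrArg F (Subsingleton.elim _ _)
    rw [e]
    simp
  | succ n ih =>
    intro F B hF hB hdiff
    set P := Measure.pi fun _ : Fin n => μ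
    have hmp := (measurePreserving_piFinSuccAbove (fun _ : Fin (n + 1) => μ) 0).symm
    have hins : ∀ z : X × (Fin n → X),
        (MeasurableEquiv.piFinSuccAbove (fun _ : Fin (n + 1) => X) 0).symm z = Fin.cons z.1 z.2 :=
      fun z => Fin.insertNth_zero' z.1 z.2
    have hKm : Measurable fun z : X × (Fin n → X) => F (Fin.cons z.1 z.2) := hF.comp (measurable_cons n)
    have hB0 : ∀ x : Fin (n + 1) → X, 0 ≤ B := fun x => (abs_nonneg _).trans (hB x)
    have iK : ∀ r, Integrable (fun x => F (Fin.cons x r)) μ := fun r =>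
      Integrable.of_bound (hKm.comp measurable_prodMk_right).aestronglyMeasurable B (ae_of_all _ fun x => hB _)
    set G : (Fin n → X) → ℝ := fun r => ∫ x, F (Fin.cons x r) ∂μ with hG
    have hGm : Measurable G :=
      (StronglyMeasurable.integral_prod_left (f := fun x r => F (Fin.cons x r)) hKm.stronglyMeasurable).measurable
    have hGB : ∀ r, |G r| ≤ B := fun r => by
      simpa [hG] using norm_integral_le_of_norm_le_const (μ := μ) (f := fun x => F (Fin.cons x r))
        (ae_of_all _ fun x => (Real.norm_eq_abs _).trans_le (hB _))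
    have hGd : ∀ r i y, |G r - G (Function.update r i y)| ≤ c := fun r i y => by
      simp only [hG]
      rw [← integral_sub (iK r) (iK _)]
      simpa using norm_integral_le_of_norm_le_const (μ := μ)
        (f := fun x => F (Fin.cons x r) - F (Fin.cons x (Function.update r i y))) (ae_of_all _ fun x => by
          rw [Real.norm_eq_abs]
          have := hdiff (Fin.cons x r) i.succ y
          rwa [← Fin.cons_update] at this)
    have iE : Integrable (fun z : X × (Fin n → X) => Real.exp (t * F (Fin.cons z.1 z.2))) (μ.prod P) :=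
      Integrable.of_bound (hKm.const_mul t).exp.aestronglyMeasurable (Real.exp (|t| * B))
        (ae_of_all _ fun z => by
          rw [Real.norm_eq_abs, Real.abs_exp, Real.exp_le_exp]
          exact (le_abs_self _).trans ((abs_mul _ _).trans_le (mul_le_mul_of_nonneg_left (hB _) (abs_nonneg t))))
    have hmean : ∫ x, F x ∂(Measure.pi fun _ : Fin (n + 1) => μ) = ∫ r, G r ∂P := by
      rw [← hmp.integral_comp', integral_congr_ae (ae_of_all _ fun z => by rw [hins]), integral_prod_symm]
      exact Integrable.of_bound hKm.aestronglyMeasurable B (ae_of_all _ fun z => hB _)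
    rw [← hmp.integral_comp', integral_congr_ae (ae_of_all _ fun z => by rw [hins]), integral_prod_symm _ iE, hmean]
    have hin : ∀ r, ∫ x, Real.exp (t * F (Fin.cons x r)) ∂μ ≤ Real.exp (t ^ 2 * c ^ 2) * Real.exp (t * G r) := by
      intro r
      have hu : ∀ x, |F (Fin.cons x r) - G r| ≤ c := fun x => by
        have e : F (Fin.cons x r) - G r = ∫ y, (F (Fin.cons x r) - F (Fin.cons y r)) ∂μ := by
          rw [integral_sub (integrable_const _) (iK r)]; simp [hG]
        rw [e]
        simpa using norm_integral_le_of_norm_le_const (μ := μ)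
          (f := fun y => F (Fin.cons x r) - F (Fin.cons y r)) (ae_of_all _ fun y => by
            rw [Real.norm_eq_abs]
            have := hdiff (Fin.cons x r) 0 y
            rwa [Fin.update_cons_zero] at this)
      have hpt : ∀ x, Real.exp (t * F (Fin.cons x r))
          ≤ Real.exp (t * G r) * ((1 + t ^ 2 * c ^ 2) + t * (F (Fin.cons x r) - G r)) := fun x => by
        have h1 : |t * (F (Fin.cons x r) - G r)| ≤ 1 :=
          (abs_mul _ _).trans_le ((mul_le_mul_of_nonneg_left (hu x) (abs_nonneg t)).trans htc)
        have h2 : (F (Fin.cons x r) - G r) ^ 2 ≤ c ^ 2 := by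
          rw [← sq_abs]; exact pow_le_pow_left₀ (abs_nonneg _) (hu x) 2
        rw [show t * F (Fin.cons x r) = t * G r + t * (F (Fin.cons x r) - G r) by ring, Real.exp_add]
        refine mul_le_mul_of_nonneg_left ((exp_le_quad h1).trans ?_) (Real.exp_pos _).le
        nlinarith [mul_le_mul_of_nonneg_left h2 (sq_nonneg t)]
      have iD : Integrable (fun x => F (Fin.cons x r) - G r) μ := (iK r).sub (integrable_const _)
      refine (integral_mono_of_nonneg (ae_of_all _ fun x => (Real.exp_pos _).le)
        (((integrable_const _).add (iD.const_mul t)).const_mul _) (ae_of_all _ hpt)).trans ?_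
      rw [integral_const_mul]
      simp only [Pi.add_apply]
      rw [integral_add (integrable_const _) (iD.const_mul t), integral_const_mul, integral_sub (iK r) (integrable_const _)]
      simp only [integral_const, probReal_univ, one_smul]
      rw [show G r = ∫ x, F (Fin.cons x r) ∂μ from rfl, sub_self, mul_zero, add_zero, mul_comm]
      refine mul_le_mul_of_nonneg_right ?_ (Real.exp_pos _).le
      linarith [Real.add_one_le_exp (t ^ 2 * c ^ 2)]
    have iG : Integrable (fun r => Real.exp (t * G r)) P :=
      Integrable.of_bound (hGm.const_mul t).exp.aestronglyMeasurable (Real.exp (|t| * B))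
        (ae_of_all _ fun r => by
          rw [Real.norm_eq_abs, Real.abs_exp, Real.exp_le_exp]
          exact (le_abs_self _).trans ((abs_mul _ _).trans_le (mul_le_mul_of_nonneg_left (hGB r) (abs_nonneg t))))
    refine (integral_mono iE.integral_prod_right (iG.const_mul _) hin).trans ?_
    rw [integral_const_mul]
    refine (mul_le_mul_of_nonneg_left (ih G B hGm hGB hGd) (Real.exp_pos _).le).trans (le_of_eq ?_)
    rw [← Real.exp_add]
    congr 1
    push_cast
    ring

/-- The partition function relative to its mean. -/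
noncomputable def Zf (U : ℝ → ℝ) (g : Fin a → Fin N → ℝ) : ℝ := (2⁻¹ : ℝ) ^ N * ∑ b, patW U g b

lemma lik_zero (d : Dat a N) : lik U 0 d = Zf U d.1 := by
  simp [lik, wt, Zf]

lemma Zf_act (s : Cfg N) (g : Fin a → Fin N → ℝ) : Zf U (fun c i => sp s i * g c i) = Zf U g := by
  have := lik_act (U := U) 0 s ((g, 0) : Dat a N)
  simpa [lik_zero, act] using this

/-- The expected log partition function. -/
noncomputable def mZ (U : ℝ → ℝ) (a N : ℕ) : ℝ :=
  ∫ g, Real.log (Zf U g) ∂Measure.pi fun _ : Fin a => gaussVec (Fin N)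

section

variable (W : Wgt U C)
include W

lemma Zf_mem (g : Fin a → Fin N → ℝ) : 0 < Zf U g ∧ |Real.log (Zf U g)| ≤ a * Real.log C := by
  have h := lik_pos W 0 ((g, 0) : Dat a N)
  have h2 := abs_log_lik_le W 0 ((g, 0) : Dat a N)
  rw [lik_zero] at h h2
  simpa [absSum] using And.intro h h2

lemma measurable_Zf : Measurable (Zf U : (Fin a → Fin N → ℝ) → ℝ) := by
  unfold Zf patW
  exact (Finset.measurable_sum _ fun b _ => Finset.measurable_prod _ fun c _ => W.meas.comp (by fun_prop)).const_mul _

lemma integrable_exp_logZ (s : ℝ) (μ : Measure (Fin a → Fin N → ℝ)) [IsFiniteMeasure μ] :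
    Integrable (fun g => Real.exp (s * Real.log (Zf U g))) μ :=
  Integrable.of_bound (((measurable_Zf W).log).const_mul s).exp.aestronglyMeasurable
    (Real.exp (|s| * (a * Real.log C))) (ae_of_all _ fun g => by
      rw [Real.norm_eq_abs, Real.abs_exp, Real.exp_le_exp]
      exact (le_abs_self _).trans ((abs_mul _ _).trans_le (mul_le_mul_of_nonneg_left (Zf_mem W g).2 (abs_nonneg s))))

lemma Jt_zero_eq : Jt U a N 0 = ∫ g, ent (Zf U g) ∂Measure.pi fun _ : Fin a => gaussVec (Fin N) := by
  rw [Jt, nullM]
  simp only [lik_zero]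
  rw [integral_fun_fst (fun g => ent (Zf U g))]
  simp

lemma integral_Zf (hN : 0 < N) : ∫ g, Zf U g ∂(Measure.pi fun _ : Fin a => gaussVec (Fin N)) = 1 := by
  unfold Zf
  rw [integral_const_mul, integral_finsetSum]
  · simp only [integral_patW W _ hN]
    rw [Finset.sum_const, nsmul_eq_mul, mul_one, Finset.card_univ, half_pow_mul_card]
  · intro b _
    exact Integrable.of_bound (Finset.measurable_prod _ fun c _ => W.meas.comp (by fun_prop)).aestronglyMeasurable (C ^ a)
      (ae_of_all _ fun g => by rw [Real.norm_eq_abs, abs_of_pos (patW_pos W _ _)]; exact patW_le W _ _)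

lemma Zf_diff (g : Fin a → Fin N → ℝ) (c : Fin a) (y : Fin N → ℝ) :
    |Real.log (Zf U g) - Real.log (Zf U (Function.update g c y))| ≤ Real.log C + Real.log C := by
  have hb : ∀ g₁ g₂ : Fin a → Fin N → ℝ, (∀ e, e ≠ c → g₁ e = g₂ e) →
      Real.log (Zf U g₁) - Real.log (Zf U g₂) ≤ Real.log C + Real.log C := by
    intro g₁ g₂ h
    have hle : Zf U g₁ ≤ C * C * Zf U g₂ := by
      unfold Zf
      rw [mul_left_comm, Finset.mul_sum Finset.univ _ (C * C)]
      refine mul_le_mul_of_nonneg_left (Finset.sum_le_sum fun b _ => ?_) (by positivity)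
      simp only [patW]
      rw [Finset.prod_eq_prod_sdiff_singleton_mul (Finset.mem_univ c),
        Finset.prod_eq_prod_sdiff_singleton_mul (Finset.mem_univ c) (fun e => U (fld (g₂ e) b)),
        Finset.prod_congr rfl fun e he => by rw [h e (by simpa using he)], mul_left_comm]
      refine mul_le_mul_of_nonneg_left ?_ (Finset.prod_nonneg fun e _ => (W.pos _).le)
      calc U (fld (g₁ c) b) ≤ C := W.hi _
        _ = C * C * C⁻¹ := by field_simp [W.C_pos.ne']
        _ ≤ C * C * U (fld (g₂ c) b) := mul_le_mul_of_nonneg_left (W.lo _) (mul_self_nonneg C)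
    have := Real.log_le_log (Zf_mem W g₁).1 hle
    rw [Real.log_mul (mul_pos W.C_pos W.C_pos).ne' (Zf_mem W g₂).1.ne', Real.log_mul W.C_pos.ne' W.C_pos.ne'] at this
    linarith
  rw [abs_le]
  constructor
  · linarith [hb (Function.update g c y) g fun e he => Function.update_of_ne he _ _]
  · exact hb g (Function.update g c y) fun e he => (Function.update_of_ne he _ _).symm

lemma mZ_nonpos (hN : 0 < N) : mZ U a N ≤ 0 := by
  have iZ : Integrable (Zf U : (Fin a → Fin N → ℝ) → ℝ) (Measure.pi fun _ : Fin a => gaussVec (Fin N)) :=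
    (integrable_exp_logZ W 1 _).congr (ae_of_all _ fun g => by simp [Real.exp_log (Zf_mem W g).1])
  refine (integral_mono (Integrable.of_bound (measurable_Zf W).log.aestronglyMeasurable (a * Real.log C)
    (ae_of_all _ fun g => (Zf_mem W g).2)) (iZ.sub (integrable_const 1))
    fun g => Real.log_le_sub_one_of_pos (Zf_mem W g).1).trans (le_of_eq ?_)
  simp only [Pi.sub_apply]
  rw [integral_sub iZ (integrable_const 1), integral_Zf W hN]
  simp

/-- The annealed value fails by at most the planted entropy. -/
lemma neg_mZ_le {t : ℝ} (ht : 0 < t) (htc : t * (Real.log C + Real.log C) ≤ 1) (hN : 0 < N) :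
    -mZ U a N ≤ Jt U a N 0 / t + a * (t * (Real.log C + Real.log C) ^ 2) := by
  set c := Real.log C + Real.log C
  set P := Measure.pi fun _ : Fin a => gaussVec (Fin N)
  set D := Jt U a N 0
  have hmgf := pi_mgf (gaussVec (Fin N)) (c := c) (t := t) (by rwa [abs_of_pos ht]) a
    (fun g => Real.log (Zf U g)) (a * Real.log C) (measurable_Zf W).log (fun g => (Zf_mem W g).2)
    fun g i y => Zf_diff W g i y
  have iZ : Integrable (Zf U : (Fin a → Fin N → ℝ) → ℝ) P :=
    (integrable_exp_logZ W 1 _).congr (ae_of_all _ fun g => by simp [Real.exp_log (Zf_mem W g).1])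
  have iE : Integrable (fun g => ent (Zf U g)) P :=
    (iZ.mul_bdd (measurable_Zf W).log.aestronglyMeasurable (ae_of_all _ fun g => (Zf_mem W g).2))
  have hj : Real.exp ((t - 1) * D) ≤ ∫ g, Real.exp (t * Real.log (Zf U g)) ∂P := by
    have hm := integral_mono ((iZ.const_mul (Real.exp ((t - 1) * D) * (1 - (t - 1) * D))).add
      (iE.const_mul (Real.exp ((t - 1) * D) * (t - 1)))) (integrable_exp_logZ W t P) fun g => by
      have hz := (Zf_mem W g).1
      have h1 := mul_le_mul_of_nonneg_left (Real.add_one_le_exp ((t - 1) * Real.log (Zf U g) - (t - 1) * D))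
        (mul_pos hz (Real.exp_pos ((t - 1) * D))).le
      have e : Zf U g * Real.exp ((t - 1) * D) * Real.exp ((t - 1) * Real.log (Zf U g) - (t - 1) * D)
          = Real.exp (t * Real.log (Zf U g)) := by
        nth_rewrite 1 [← Real.exp_log hz]
        rw [← Real.exp_add, ← Real.exp_add]
        congr 1; ring
      rw [e] at h1
      simp only [Pi.add_apply, ent]
      linarith
    simp only [Pi.add_apply] at hm
    rw [integral_add (iZ.const_mul _) (iE.const_mul _), integral_const_mul, integral_const_mul, integral_Zf W hN,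
      ← Jt_zero_eq W] at hm
    simp only [mul_one] at hm
    linarith
  have := Real.exp_le_exp.1 (hj.trans hmgf)
  change (t - 1) * D ≤ t * mZ U a N + a * (t ^ 2 * c ^ 2) at this
  have hDt : D / t + a * (t * c ^ 2) - -mZ U a N = (D + a * (t ^ 2 * c ^ 2) + t * mZ U a N) / t := by
    field_simp
    ring
  have hD0 : 0 ≤ D + a * (t ^ 2 * c ^ 2) + t * mZ U a N := by
    have h3 : 0 ≤ t * D := by
      refine mul_nonneg ht.le ?_
      rw [show D = _ from Jt_zero_eq W]
      have := integral_mono (iZ.sub (integrable_const 1)) iE fun g => by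
        have := ent_tangent (Zf_mem W g).1 one_pos
        simpa using this
      simp only [Pi.sub_apply] at this
      rw [integral_sub iZ (integrable_const 1), integral_Zf W hN] at this
      simpa using this
    nlinarith
  linarith [div_nonneg hD0 ht.le]

/-- A positive planted entropy pushes the pressure below its annealed value. -/
lemma mZ_le {t : ℝ} (ht : 0 < t) (htc : t * (Real.log C + Real.log C) ≤ 1) (hN : 0 < N) :
    (1 - t) * mZ U a N ≤ -(t * Jt U a N 0) + a * (t ^ 2 * (Real.log C + Real.log C) ^ 2) := by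
  set c := Real.log C + Real.log C
  set γN := gaussVec (Fin N)
  set ρ : (Fin N → ℝ) → ℝ := fun g => U (fld g (ones N))
  have hρi : Integrable ρ γN := W.int (measurable_fld _)
  have hρ1 : ∫ g, ρ g ∂γN = 1 := (unit_form (cfgVec_unit hN (ones N)) W.meas).trans W.mean
  set ν := γN.withDensity fun g => ENNReal.ofReal (ρ g)
  have : IsProbabilityMeasure ν := ⟨by
    rw [withDensity_apply _ MeasurableSet.univ, setLIntegral_univ,
      ← ofReal_integral_eq_lintegral_ofReal hρi (ae_of_all _ fun g => (W.pos _).le), hρ1, ENNReal.ofReal_one]⟩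
  have hpi : (Measure.pi fun _ : Fin a => γN).withDensity (fun g => ENNReal.ofReal (patW U g (ones N)))
      = Measure.pi fun _ : Fin a => ν :=
    pi_withDensity' γN (ρ := fun _ g => U (fld g (ones N))) (fun _ g => (W.pos _).le)
      (fun _ => W.meas.comp (measurable_fld _)) fun _ => hρi
  set P := Measure.pi fun _ : Fin a => γN
  have hint : ∀ {Φ : (Fin a → Fin N → ℝ) → ℝ},
      ∫ g, patW U g (ones N) * Φ g ∂P = ∫ g, Φ g ∂Measure.pi fun _ : Fin a => ν := by
    intro Φ
    rw [← hpi, integral_withDensity_eq_integral_toReal_smul ?_ (ae_of_all _ fun _ => ENNReal.ofReal_lt_top)]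
    · exact integral_congr_ae (ae_of_all _ fun g => by simp [ENNReal.toReal_ofReal (patW_pos W g _).le, P])
    · exact (Finset.measurable_prod _ fun c _ => W.meas.comp (by fun_prop)).ennreal_ofReal
  have hmgf := pi_mgf ν (c := c) (t := -t) (by rwa [abs_neg, abs_of_pos ht]) a (fun g => Real.log (Zf U g))
    (a * Real.log C) (measurable_Zf W).log (fun g => (Zf_mem W g).2) fun g i y => Zf_diff W g i y
  have hgauge : ∀ {φ : ℝ → ℝ}, Measurable φ → ∀ {B : ℝ}, (∀ g : Fin a → Fin N → ℝ, |φ (Zf U g)| ≤ B) →
      ∫ g, patW U g (ones N) * φ (Zf U g) ∂P = ∫ g, Zf U g * φ (Zf U g) ∂P := by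
    intro φ hφ B hB
    have h := planted_eq' (a := a) (N := N) W 0 (F := fun d => φ (lik U 0 d))
      (Gd.of_bdd (hφ.comp (measurable_lik W 0)) fun d => by rw [lik_zero]; exact hB d.1)
      fun s d => by rw [lik_act]
    simp only [lik_zero, nullM] at h
    rw [integral_fun_fst (fun g => Zf U g * φ (Zf U g))] at h
    have hw : (fun d : Dat a N => wt U 0 d (ones N) * φ (Zf U d.1))
        = fun d => patW U d.1 (ones N) * φ (Zf U d.1) := by funext d; simp [wt]
    rw [hw, integral_fun_fst (fun g => patW U g (ones N) * φ (Zf U g))] at h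
    simpa using h
  have hB1 : ∀ g : Fin a → Fin N → ℝ, |Real.exp (-t * Real.log (Zf U g))| ≤ Real.exp (t * (a * Real.log C)) :=
    fun g => by
      rw [Real.abs_exp, Real.exp_le_exp, neg_mul, ← mul_neg]
      exact mul_le_mul_of_nonneg_left ((neg_le_abs _).trans (Zf_mem W g).2) ht.le
  rw [← hint, ← hint] at hmgf
  rw [hgauge (φ := fun x => Real.exp (-t * Real.log x)) (by fun_prop) hB1,
    hgauge Real.measurable_log fun g => (Zf_mem W g).2] at hmgf
  have hj : Real.exp ((1 - t) * mZ U a N) ≤ ∫ g, Zf U g * Real.exp (-t * Real.log (Zf U g)) ∂P := by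
    have e : ∀ g : Fin a → Fin N → ℝ, Zf U g * Real.exp (-t * Real.log (Zf U g))
        = Real.exp ((1 - t) * Real.log (Zf U g)) := fun g => by
      nth_rewrite 1 [← Real.exp_log (Zf_mem W g).1]
      rw [← Real.exp_add]; congr 1; ring
    simp_rw [e]
    have iL : Integrable (fun g => Real.log (Zf U g)) P :=
      Integrable.of_bound (measurable_Zf W).log.aestronglyMeasurable (a * Real.log C)
        (ae_of_all _ fun g => (Zf_mem W g).2)
    set E := Real.exp ((1 - t) * mZ U a N)
    have hm := integral_mono ((integrable_const (E * (1 - (1 - t) * mZ U a N))).add (iL.const_mul (E * (1 - t))))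
      (integrable_exp_logZ W (1 - t) P) fun g => by
        have h1 := mul_le_mul_of_nonneg_left
          (Real.add_one_le_exp ((1 - t) * Real.log (Zf U g) - (1 - t) * mZ U a N))
          (Real.exp_pos ((1 - t) * mZ U a N)).le
        rw [← Real.exp_add, add_sub_cancel] at h1
        simp only [Pi.add_apply, E]
        linarith
    simp only [Pi.add_apply] at hm
    rw [integral_add (integrable_const _) (iL.const_mul _), integral_const, integral_const_mul, probReal_univ,
      one_smul, show (∫ g, Real.log (Zf U g) ∂P) = mZ U a N from rfl] at hm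
    linarith
  have := Real.exp_le_exp.1 (hj.trans hmgf)
  rw [show (∫ g, Zf U g * Real.log (Zf U g) ∂P) = Jt U a N 0 from (Jt_zero_eq W).symm, neg_sq] at this
  linarith

end

end Vale.Agent.P157.Plant
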